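import Vale.Agent.P028.EV.Select

/-! # P028: from the second moment bound to full measure -/

open MeasureTheory Set Metric Filter Topology
open scoped ENNReal

namespace Vale.P028EV

theorem isOpen_aset (γ : ℝ) (ψ : ℕ → ℝ) (C : ℕ → ℤ) (B : ℕ → ℕ) (q : ℕ) :
    IsOpen (ASet γ ψ C B q) := by
  have : ASet γ ψ C B q = ⋃ (a : ℤ) (_ : Sel (C q) (B q) q a),
      {x : ℝ | |(q:ℝ) * x - a - γ| < ψ q} := by
    ext x; simp [ASet]
  rw [this]
  exact isOpen_iUnion fun a => isOpen_iUnion fun _ => isOpen_lt (by fun_prop) continuous_const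

theorem sel_add_mul (C : ℤ) (B q : ℕ) (a k : ℤ) : Sel C B q (a + q * k) ↔ Sel C B q a := by
  refine forall₂_congr fun p hp => ?_
  have hq : (p:ℤ) ∣ (q:ℤ) := Int.natCast_dvd_natCast.mpr (Nat.dvd_of_mem_primeFactors hp)
  have h1 : (p:ℤ) ∣ a + q * k ↔ (p:ℤ) ∣ a := Int.dvd_add_left (dvd_mul_of_dvd_left hq _)
  have h2 : (p:ℤ) ∣ (a + q * k) * B + C ↔ (p:ℤ) ∣ a * B + C := by
    rw [show (a + q * k) * B + C = (a * B + C) + q * (k * B) by ring]
    exact Int.dvd_add_left (dvd_mul_of_dvd_left hq _)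
  rw [h1, h2]

theorem aset_add_int {γ : ℝ} {ψ : ℕ → ℝ} {C : ℕ → ℤ} {B : ℕ → ℕ} {q : ℕ} {x : ℝ}
    (hx : x ∈ ASet γ ψ C B q) (m : ℤ) : x + m ∈ ASet γ ψ C B q := by
  obtain ⟨a, ha, hlt⟩ := hx
  refine ⟨a + q * m, (sel_add_mul _ _ _ _ _).mpr ha, ?_⟩
  refine (le_of_eq ?_).trans_lt hlt
  congr 1
  push_cast
  ring

/-- the interval attached to one integer -/
def cellA (γ t : ℝ) (q : ℕ) (a : ℤ) : Set ℝ := {x : ℝ | |(q:ℝ) * x - a - γ| < t}

theorem cellA_eq_ball {γ t : ℝ} {q : ℕ} (hq : 0 < q) (a : ℤ) :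
    cellA γ t q a = ball (((a:ℝ) + γ) / q) (t / q) := by
  have hqR : (0:ℝ) < q := by exact_mod_cast hq
  ext x
  rw [cellA, mem_setOf_eq, mem_ball, Real.dist_eq,
    show x - ((a:ℝ) + γ) / q = ((q:ℝ) * x - a - γ) / q by field_simp; ring, abs_div,
    abs_of_pos hqR, div_lt_div_iff_of_pos_right hqR]

theorem volume_cellA {γ t : ℝ} {q : ℕ} (hq : 0 < q) (ht : 0 ≤ t) (a : ℤ) :
    volume.real (cellA γ t q a) = 2 * t / q := by
  rw [cellA_eq_ball hq, measureReal_def, Real.volume_ball,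
    ENNReal.toReal_ofReal (by positivity)]
  ring

open scoped Classical in
/-- measure of the selected set in an interval, from below -/
theorem aset_lower {γ : ℝ} {ψ : ℕ → ℝ} {C : ℕ → ℤ} {B : ℕ → ℕ} {q : ℕ} (hq : 0 < q)
    (h0 : 0 ≤ ψ q) (h1 : ψ q ≤ 1/2) (lo hi : ℝ) :
    2 * lam ψ q * (hi - lo) - 8 * ψ q / q * q.divisors.card
      ≤ volume.real (ASet γ ψ C B q ∩ Ico lo hi) := by
  have hqR : (0:ℝ) < q := by exact_mod_cast hq
  obtain ⟨T, hT, hcard⟩ := sel_lower (C q) (B q) hq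
    ((q:ℝ) * lo - γ + ψ q) ((q:ℝ) * hi - γ - ψ q)
  have hd : (T : Set ℤ).PairwiseDisjoint (cellA γ (ψ q) q) := by
    intro a _ b _ hab
    refine Set.disjoint_left.mpr fun x hxa hxb => hab ?_
    simp only [cellA, mem_setOf_eq, abs_lt] at hxa hxb
    have c1 : (a:ℝ) < b + 1 := by linarith [hxa.1, hxa.2, hxb.1, hxb.2]
    have c2 : (b:ℝ) < a + 1 := by linarith [hxa.1, hxa.2, hxb.1, hxb.2]
    have d1 : a < b + 1 := by exact_mod_cast c1
    have d2 : b < a + 1 := by exact_mod_cast c2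
    omega
  have hsub : (⋃ a ∈ T, cellA γ (ψ q) q a) ⊆ ASet γ ψ C B q ∩ Ico lo hi := by
    intro x hx
    simp only [mem_iUnion₂] at hx
    obtain ⟨a, ha, hxa⟩ := hx
    obtain ⟨u1, u2, u3⟩ := hT a ha
    refine ⟨⟨a, u3, hxa⟩, ?_, ?_⟩ <;>
    · simp only [cellA, mem_setOf_eq, abs_lt] at hxa
      nlinarith [hxa.1, hxa.2]
  have hm : volume.real (⋃ a ∈ T, cellA γ (ψ q) q a) = T.card * (2 * ψ q / q) := by
    rw [measureReal_biUnion_finset hd
      (fun a _ => (cellA_eq_ball (γ := γ) (t := ψ q) hq a) ▸ measurableSet_ball)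
      (fun a _ => (cellA_eq_ball (γ := γ) (t := ψ q) hq a) ▸ measure_ball_lt_top.ne),
      Finset.sum_congr rfl (fun a _ => volume_cellA hq h0 a), Finset.sum_const, nsmul_eq_mul]
  have hfin : volume (ASet γ ψ C B q ∩ Ico lo hi) ≠ ∞ :=
    ne_top_of_le_ne_top (by simp [Real.volume_Ico]) (measure_mono inter_subset_right)
  refine le_trans ?_ (hm ▸ measureReal_mono hsub hfin)
  have hf0 : 0 ≤ (Nat.totient q : ℝ) / q := by positivity
  have hf1 : (Nat.totient q : ℝ) / q ≤ 1 := by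
    rw [div_le_one hqR]; exact_mod_cast Nat.totient_le q
  have htau : (1:ℝ) ≤ q.divisors.card := by
    exact_mod_cast Finset.card_pos.mpr ⟨1, Nat.one_mem_divisors.mpr hq.ne'⟩
  calc 2 * lam ψ q * (hi - lo) - 8 * ψ q / q * q.divisors.card
      = ((q:ℝ) * (hi - lo) * ((Nat.totient q : ℝ) / q) - 4 * q.divisors.card) * (2 * ψ q / q) := by
        unfold lam; field_simp; ring
    _ ≤ (T.card:ℝ) * (2 * ψ q / q) := by
        refine mul_le_mul_of_nonneg_right ?_ (by positivity)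
        refine le_trans ?_ hcard
        nlinarith

open scoped Classical in
/-- measure of the selected set in a period, from above -/
theorem aset_upper {γ : ℝ} {ψ : ℕ → ℝ} {C : ℕ → ℤ} {B : ℕ → ℕ} {q : ℕ} (hq : 0 < q)
    (h0 : 0 ≤ ψ q) (h1 : ψ q ≤ 1/2) :
    volume.real (ASet γ ψ C B q ∩ Ico 0 1) ≤ 2 * lam ψ q + 8 * ψ q / q * q.divisors.card := by
  have hqR : (0:ℝ) < q := by exact_mod_cast hq
  set T := (Finset.Icc ⌊-γ - ψ q⌋ ⌈(q:ℝ) - γ + ψ q⌉).filter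
    (fun a : ℤ => -γ - ψ q < (a:ℝ) ∧ (a:ℝ) < (q:ℝ) - γ + ψ q ∧ Sel (C q) (B q) q a) with hTdef
  have hsub : ASet γ ψ C B q ∩ Ico 0 1 ⊆ ⋃ a ∈ T, cellA γ (ψ q) q a := by
    rintro x ⟨⟨a, ha, hlt⟩, hx0, hx1⟩
    have h := abs_lt.mp hlt
    have a1 : -γ - ψ q < (a:ℝ) := by nlinarith
    have a2 : (a:ℝ) < (q:ℝ) - γ + ψ q := by nlinarith
    refine mem_biUnion (x := a) ?_ hlt
    simp only [hTdef, Finset.mem_coe, Finset.mem_filter, Finset.mem_Icc]
    refine ⟨⟨?_, ?_⟩, a1, a2, ha⟩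
    · exact Int.le_of_lt_add_one (by exact_mod_cast (show ((⌊-γ - ψ q⌋:ℤ):ℝ) < a + 1 by
        linarith [Int.floor_le (-γ - ψ q)]))
    · exact Int.le_of_lt_add_one (by exact_mod_cast (show ((a:ℝ)) < ⌈(q:ℝ) - γ + ψ q⌉ + 1 by
        linarith [Int.le_ceil ((q:ℝ) - γ + ψ q)]))
  have hcard := sel_upper (C q) (B q) hq (u := -γ - ψ q) (v := (q:ℝ) - γ + ψ q)
    (by linarith) T (fun a ha => (Finset.mem_filter.mp ha).2)
  have hfin : volume (⋃ a ∈ T, cellA γ (ψ q) q a) ≠ ∞ :=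
    ne_top_of_le_ne_top (ENNReal.sum_ne_top.mpr fun a _ =>
      (cellA_eq_ball (γ := γ) (t := ψ q) hq a) ▸ measure_ball_lt_top.ne)
      (measure_biUnion_finset_le T _)
  have hf0 : 0 ≤ (Nat.totient q : ℝ) / q := by positivity
  have hf1 : (Nat.totient q : ℝ) / q ≤ 1 := by
    rw [div_le_one hqR]; exact_mod_cast Nat.totient_le q
  have htau : (1:ℝ) ≤ q.divisors.card := by
    exact_mod_cast Finset.card_pos.mpr ⟨1, Nat.one_mem_divisors.mpr hq.ne'⟩
  calc volume.real (ASet γ ψ C B q ∩ Ico 0 1)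
      ≤ volume.real (⋃ a ∈ T, cellA γ (ψ q) q a) := measureReal_mono hsub hfin
    _ ≤ ∑ a ∈ T, volume.real (cellA γ (ψ q) q a) := measureReal_biUnion_finset_le T _
    _ = T.card * (2 * ψ q / q) := by
        rw [Finset.sum_congr rfl (fun a _ => volume_cellA hq h0 a), Finset.sum_const, nsmul_eq_mul]
    _ ≤ ((q:ℝ) * ((Nat.totient q : ℝ) / q) + 4 * q.divisors.card) * (2 * ψ q / q) := by
        refine mul_le_mul_of_nonneg_right (hcard.trans ?_) (by positivity)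
        nlinarith
    _ = _ := by unfold lam; field_simp; ring

theorem gcd_mul_xx (q r : ℕ) : Nat.gcd q r * xx q r = q :=
  Nat.mul_div_cancel' (Nat.gcd_dvd_left q r)

theorem gcd_mul_yy (q r : ℕ) : Nat.gcd q r * yy q r = r :=
  Nat.mul_div_cancel' (Nat.gcd_dvd_right q r)

theorem xx_pos {q : ℕ} (r : ℕ) (hq : 0 < q) : 0 < xx q r :=
  Nat.div_pos (Nat.le_of_dvd hq (Nat.gcd_dvd_left q r)) (Nat.gcd_pos_of_pos_left r hq)

open scoped Classical in
/-- the overlap of two selected sets in a period -/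
theorem aset_pair {γ : ℝ} {ψ : ℕ → ℝ} {C : ℕ → ℤ} {B : ℕ → ℕ} {q r : ℕ} (hq : 0 < q) (hr : 0 < r)
    (h0 : 0 ≤ ψ q) (h1 : ψ q ≤ 1/2) (h0' : 0 ≤ ψ r) (hle : ψ r / r ≤ ψ q / q) :
    volume.real (ASet γ ψ C B q ∩ ASet γ ψ C B r ∩ Ico 0 1) ≤ ov γ ψ C B q r := by
  have hqR : (0:ℝ) < q := by exact_mod_cast hq
  have hrR : (0:ℝ) < r := by exact_mod_cast hr
  set g := Nat.gcd q r with hg
  set x' := xx q r with hx'
  set y' := yy q r with hy'
  have eq1 : (g:ℝ) * x' = q := by exact_mod_cast gcd_mul_xx q r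
  have eq2 : (g:ℝ) * y' = r := by exact_mod_cast gcd_mul_yy q r
  have hgR : (0:ℝ) < g := by exact_mod_cast Nat.gcd_pos_of_pos_left r hq
  have hxR : (0:ℝ) < x' := by exact_mod_cast xx_pos r hq
  set U : Set ℝ := ⋃ a ∈ (Finset.range q).filter (fun a : ℕ => Sel (C q) (B q) q a),
    cellA γ (ψ q) q ((a:ℕ):ℤ) with hU
  set K : ℕ := ⌈|γ|⌉₊ + 3 with hK
  set Ks := Finset.Icc (-(K:ℤ)) K with hKs
  set V : Set ℝ := U ∩ ASet γ ψ C B r with hV
  have hcover : ASet γ ψ C B q ∩ ASet γ ψ C B r ∩ Ico 0 1 ⊆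
      ⋃ k ∈ Ks, (fun x : ℝ => x + (-(k:ℤ):ℝ)) ⁻¹' (V ∩ Ico (-(k:ℝ)) (1 - k)) := by
    rintro x ⟨⟨⟨a, ha, hlt⟩, hxr⟩, hx0, hx1⟩
    set k : ℤ := a / (q:ℤ) with hk
    set a0 : ℕ := (a % (q:ℤ)).toNat with ha0
    have hqZ : (0:ℤ) < q := by exact_mod_cast hq
    have hm0 : 0 ≤ a % (q:ℤ) := Int.emod_nonneg a hqZ.ne'
    have hm1 : a % (q:ℤ) < q := Int.emod_lt_of_pos a hqZ
    have hca : (a0:ℤ) = a % (q:ℤ) := Int.toNat_of_nonneg hm0
    have hak : a = (a0:ℤ) + (q:ℤ) * k := by rw [hca, hk]; exact (Int.emod_add_mul_ediv a _).symm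
    have hkb : k ∈ Ks := by
      have h := abs_lt.mp hlt
      have e : (a:ℝ) = (a0:ℝ) + (q:ℝ) * k := by exact_mod_cast hak
      have a0q : (a0:ℝ) < q := by exact_mod_cast (show (a0:ℤ) < q by omega)
      have hγ := abs_le.mp (Nat.le_ceil |γ|)
      have hq1 : (1:ℝ) ≤ q := by exact_mod_cast hq
      have hc0 : (0:ℝ) ≤ (⌈|γ|⌉₊:ℝ) := Nat.cast_nonneg _
      have hKR : (K:ℝ) = ⌈|γ|⌉₊ + 3 := by rw [hK]; push_cast; ring
      have ha0 : (0:ℝ) ≤ a0 := Nat.cast_nonneg _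
      have k1 : (k:ℝ) ≤ K := by
        by_contra hh
        have := mul_lt_mul_of_pos_left (not_le.mp hh) hqR
        nlinarith
      have k2 : -(K:ℝ) ≤ k := by
        by_contra hh
        have := mul_lt_mul_of_pos_left (not_le.mp hh) hqR
        nlinarith
      rw [hKs, Finset.mem_Icc]
      exact ⟨by exact_mod_cast k2, by exact_mod_cast k1⟩
    refine mem_biUnion (x := k) hkb ⟨⟨?_, ?_⟩, ?_, ?_⟩
    · refine mem_biUnion (x := a0) ?_ ?_
      · simp only [Finset.mem_coe, Finset.mem_filter, Finset.mem_range]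
        refine ⟨by omega, ?_⟩
        rw [hak] at ha
        exact (sel_add_mul _ _ _ _ _).mp ha
      · simp only [cellA, mem_setOf_eq]
        refine (le_of_eq ?_).trans_lt hlt
        congr 1
        rw [hak]; push_cast; ring
    · have := aset_add_int hxr (-k)
      push_cast at this
      exact this
    · push_cast; linarith
    · push_cast; linarith
  have hUfin : volume U ≠ ∞ :=
    ne_top_of_le_ne_top (ENNReal.sum_ne_top.mpr fun (a:ℕ) _ =>
      (cellA_eq_ball (γ := γ) (t := ψ q) hq (a:ℤ)) ▸ measure_ball_lt_top.ne)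
      (measure_biUnion_finset_le _ _)
  have hVfin : volume V ≠ ∞ := ne_top_of_le_ne_top hUfin (measure_mono inter_subset_left)
  have hVm : MeasurableSet V := by
    refine MeasurableSet.inter ?_ (isOpen_aset _ _ _ _ _).measurableSet
    exact Finset.measurableSet_biUnion _ fun a _ =>
      (cellA_eq_ball (γ := γ) (t := ψ q) hq (a:ℤ)) ▸ measurableSet_ball
  have hd : (Ks : Set ℤ).PairwiseDisjoint (fun k : ℤ => V ∩ Ico (-(k:ℝ)) (1 - k)) := by
    intro i _ j _ hij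
    refine Set.disjoint_left.mpr fun x hxi hxj => hij ?_
    have c1 : (i:ℝ) < j + 1 := by linarith [hxi.2.1, hxi.2.2, hxj.2.1, hxj.2.2]
    have c2 : (j:ℝ) < i + 1 := by linarith [hxi.2.1, hxi.2.2, hxj.2.1, hxj.2.2]
    have d1 : i < j + 1 := by exact_mod_cast c1
    have d2 : j < i + 1 := by exact_mod_cast c2
    omega
  have step1 : volume.real (ASet γ ψ C B q ∩ ASet γ ψ C B r ∩ Ico 0 1) ≤ volume.real V := by
    have hfin : ∀ k ∈ Ks, volume (V ∩ Ico (-(k:ℝ)) (1 - k)) ≠ ∞ := fun k _ =>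
      ne_top_of_le_ne_top hVfin (measure_mono inter_subset_left)
    have hfin2 : ∀ k ∈ Ks,
        volume ((fun x : ℝ => x + (-(k:ℤ):ℝ)) ⁻¹' (V ∩ Ico (-(k:ℝ)) (1 - k))) ≠ ∞ := fun k hk => by
      rw [measure_preimage_add_right]; exact hfin k hk
    calc volume.real (ASet γ ψ C B q ∩ ASet γ ψ C B r ∩ Ico 0 1)
        ≤ volume.real (⋃ k ∈ Ks, (fun x : ℝ => x + (-(k:ℤ):ℝ)) ⁻¹'
            (V ∩ Ico (-(k:ℝ)) (1 - k))) :=
          measureReal_mono hcover (ne_top_of_le_ne_top (ENNReal.sum_ne_top.mpr hfin2)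
            (measure_biUnion_finset_le _ _))
      _ ≤ ∑ k ∈ Ks, volume.real ((fun x : ℝ => x + (-(k:ℤ):ℝ)) ⁻¹'
            (V ∩ Ico (-(k:ℝ)) (1 - k))) := measureReal_biUnion_finset_le _ _
      _ = ∑ k ∈ Ks, volume.real (V ∩ Ico (-(k:ℝ)) (1 - k)) :=
          Finset.sum_congr rfl fun k _ => by
            rw [measureReal_def, measureReal_def, measure_preimage_add_right]
      _ = volume.real (⋃ k ∈ Ks, V ∩ Ico (-(k:ℝ)) (1 - k)) :=
          (measureReal_biUnion_finset hd (fun k _ => hVm.inter measurableSet_Ico) hfin).symm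
      _ ≤ volume.real V := measureReal_mono (iUnion₂_subset fun k _ => inter_subset_left) hVfin
  refine step1.trans ?_
  -- the pairs of integers above each n
  set ns := nset γ ψ q r with hns
  set bset : ℤ → ℕ → Prop := fun n a => Sel (C q) (B q) q a ∧
    ∃ b : ℤ, (y':ℤ) * a - (x':ℤ) * b = n ∧ Sel (C r) (B r) r b with hbset
  set bval : ℤ → ℕ → ℤ := fun n a => ((y':ℤ) * a - n) / (x':ℤ) with hbval
  set P : Finset (ℤ × ℕ) := ns.biUnion (fun n =>
    ((Finset.range q).filter (bset n)).image (fun a => (n, a))) with hP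
  have hcov : V ⊆ ⋃ p ∈ P, cellA γ (ψ r) r (bval p.1 p.2) := by
    rintro x ⟨hxU, b, hb, hblt⟩
    simp only [hU, mem_iUnion₂, Finset.mem_filter, Finset.mem_range] at hxU
    obtain ⟨a, ⟨haq, hasel⟩, halt⟩ := hxU
    set n : ℤ := (y':ℤ) * a - (x':ℤ) * b with hn
    have hnb : bval n a = b := by
      rw [hbval, hn]
      simp only [sub_sub_cancel]
      exact Int.mul_ediv_cancel_left b (by exact_mod_cast (xx_pos r hq).ne')
    refine mem_biUnion (x := (n, a)) ?_ (by simpa [cellA, hnb] using hblt)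
    simp only [hP, Finset.mem_coe, Finset.mem_biUnion, Finset.mem_image, Finset.mem_filter,
      Finset.mem_range]
    refine ⟨n, ?_, a, ⟨haq, hasel, b, rfl, hb⟩, rfl⟩
    have key : |(n:ℝ) - (mm q r : ℝ) * γ| < 2 * DD ψ q r := by
      simp only [cellA, mem_setOf_eq, Int.cast_natCast] at halt
      have e : (n:ℝ) - (mm q r : ℝ) * γ =
          (x':ℝ) * ((r:ℝ) * x - b - γ) - (y':ℝ) * ((q:ℝ) * x - a - γ) := by
        rw [← eq1, ← eq2, hn]; simp only [mm, ← hx', ← hy']; push_cast; ring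
      rw [e]
      have hy0 : (0:ℝ) ≤ y' := Nat.cast_nonneg _
      have hle' : (x':ℝ) * ψ r ≤ y' * ψ q := by
        rw [div_le_div_iff₀ hrR hqR] at hle
        have : (g:ℝ) * ((x':ℝ) * ψ r) ≤ g * (y' * ψ q) := by
          calc (g:ℝ) * ((x':ℝ) * ψ r) = ψ r * q := by rw [← eq1]; ring
            _ ≤ ψ q * r := hle
            _ = _ := by rw [← eq2]; ring
        exact le_of_mul_le_mul_left this hgR
      have b1 : |(x':ℝ) * ((r:ℝ) * x - b - γ)| < x' * ψ r := by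
        rw [abs_mul, abs_of_pos hxR]; exact mul_lt_mul_of_pos_left hblt hxR
      have b2 : |(y':ℝ) * ((q:ℝ) * x - a - γ)| ≤ y' * ψ q := by
        rw [abs_mul, abs_of_nonneg hy0]; exact mul_le_mul_of_nonneg_left halt.le hy0
      have b3 := abs_sub ((x':ℝ) * ((r:ℝ) * x - b - γ)) ((y':ℝ) * ((q:ℝ) * x - a - γ))
      unfold DD
      rw [← hy']
      nlinarith
    simp only [hns, nset, Finset.mem_filter, Finset.mem_Icc]
    have hk := abs_lt.mp key
    refine ⟨⟨?_, ?_⟩, key⟩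
    · exact Int.le_of_lt_add_one (by
        exact_mod_cast (show ((⌊(mm q r : ℝ) * γ - 2 * DD ψ q r⌋:ℤ):ℝ) < n + 1 by
          linarith [Int.floor_le ((mm q r : ℝ) * γ - 2 * DD ψ q r)]))
    · exact Int.le_of_lt_add_one (by
        exact_mod_cast (show ((n:ℝ)) < ⌈(mm q r : ℝ) * γ + 2 * DD ψ q r⌉ + 1 by
          linarith [Int.le_ceil ((mm q r : ℝ) * γ + 2 * DD ψ q r)]))
  have hPcard : (P.card:ℝ) ≤ ∑ n ∈ ns, (Nn C B q r n : ℝ) := by
    rw [← Nat.cast_sum]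
    refine Nat.cast_le.mpr (Finset.card_biUnion_le.trans (Finset.sum_le_sum fun n _ => ?_))
    refine Finset.card_image_le.trans ?_
    simp only [Nn, hbset, hx', hy']
    exact le_rfl
  have hPfin : volume (⋃ p ∈ P, cellA γ (ψ r) r (bval p.1 p.2)) ≠ ∞ :=
    ne_top_of_le_ne_top (ENNReal.sum_ne_top.mpr fun p _ =>
      (cellA_eq_ball (γ := γ) (t := ψ r) hr (bval p.1 p.2)) ▸ measure_ball_lt_top.ne)
      (measure_biUnion_finset_le _ _)
  calc volume.real V ≤ volume.real (⋃ p ∈ P, cellA γ (ψ r) r (bval p.1 p.2)) :=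
        measureReal_mono hcov hPfin
    _ ≤ ∑ p ∈ P, volume.real (cellA γ (ψ r) r (bval p.1 p.2)) :=
        measureReal_biUnion_finset_le _ _
    _ = P.card * (2 * ψ r / r) := by
        rw [Finset.sum_congr rfl (fun p _ => volume_cellA hr h0' _), Finset.sum_const, nsmul_eq_mul]
    _ ≤ (∑ n ∈ ns, (Nn C B q r n : ℝ)) * (2 * ψ r / r) :=
        mul_le_mul_of_nonneg_right hPcard (by positivity)
    _ = _ := by rw [ov, mul_comm]

end Vale.P028EV
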