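import Vale.Agent.P028.EV.Defs
import Vale.Agent.P031.Mertens

/-! # P028 module `Weights`: the multiplicative weight and elementary bounds -/

open scoped BigOperators
open Finset Real

namespace Vale.P028EV

/-- the local factor of the weight -/
noncomputable def hp (p : ℕ) : ℝ := Real.exp ((1/12 : ℝ) * (Real.log p / p))

theorem one_le_hp (p : ℕ) : 1 ≤ hp p :=
  Real.one_le_exp (mul_nonneg (by norm_num) (div_nonneg (Real.log_natCast_nonneg p) (Nat.cast_nonneg p)))

theorem Lp_nonneg (v : ℕ) : 0 ≤ Lp v :=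
  sum_nonneg fun p _ => div_nonneg (Real.log_natCast_nonneg p) (Nat.cast_nonneg p)

theorem log_div_le_one (p : ℕ) : Real.log p / p ≤ 1 := by
  rcases Nat.eq_zero_or_pos p with rfl | h
  · simp
  rw [div_le_one (by exact_mod_cast h)]
  exact Real.log_le_self (Nat.cast_nonneg p)

theorem hp_sub_one_le (p : ℕ) : hp p - 1 ≤ (1/6 : ℝ) * (Real.log p / p) := by
  have h0 : 0 ≤ (1/12 : ℝ) * (Real.log p / p) :=
    mul_nonneg (by norm_num) (div_nonneg (Real.log_natCast_nonneg p) (Nat.cast_nonneg p))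
  have := Real.abs_exp_sub_one_le (x := (1/12 : ℝ) * (Real.log p / p))
    (by rw [abs_of_nonneg h0]; linarith [log_div_le_one p])
  rw [abs_of_nonneg h0, hp] at *
  linarith [le_abs_self (Real.exp ((1/12 : ℝ) * (Real.log p / p)) - 1)]

theorem hp_le_two (p : ℕ) : hp p ≤ 2 := by
  linarith [hp_sub_one_le p, log_div_le_one p]

theorem hw_eq_prod (v : ℕ) : hw v = ∏ p ∈ v.primeFactors, hp p := by
  rw [hw, Lp, mul_sum, Real.exp_sum]
  rfl

theorem Lp_mul_le {g x : ℕ} (hg : 0 < g) (hx : 0 < x) : Lp (g * x) ≤ Lp g + Lp x := by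
  rw [Lp, Lp, Lp, Nat.primeFactors_mul hg.ne' hx.ne', ← sum_union_inter]
  exact le_add_of_nonneg_right
    (sum_nonneg fun p _ => div_nonneg (Real.log_natCast_nonneg p) (Nat.cast_nonneg p))

/-- submultiplicativity -/
theorem hwMul : HwMulStmt := fun g x hg hx => by
  rw [hw, hw, hw, ← Real.exp_add]
  exact Real.exp_le_exp.mpr (by linarith [Lp_mul_le hg hx])

theorem cheb_sum : ∃ K : ℝ, 0 ≤ K ∧ ∀ n : ℕ, 1 ≤ n →
    ∑ p ∈ Nat.primesLE n, Real.log p / p ≤ Real.log n + K := by
  obtain ⟨C, hC1, hC⟩ := Vale.Agent.P031.abs_logSum_sub_log_le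
  refine ⟨C, by linarith, fun n hn => ?_⟩
  have h := (abs_le.mp (hC n hn)).2
  change Vale.Agent.P031.logSum n ≤ _
  linarith

/-- the Chebyshev bound -/
theorem cheb : ChebStmt := by
  obtain ⟨K, hK, h⟩ := cheb_sum
  refine ⟨K, hK, fun n hn => ?_⟩
  have h1 := h n hn
  have h2 : 0 ≤ Real.log n := Real.log_natCast_nonneg n
  have : (Finset.range (n + 1)).filter Nat.Prime = Nat.primesLE n := by
    ext p
    simp [Nat.mem_primesLE, Nat.lt_succ_iff]
  rw [this]
  linarith

theorem sum_log_primeFactors_le {v : ℕ} (hv : 0 < v) {s : Finset ℕ} (hs : s ⊆ v.primeFactors) :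
    ∑ p ∈ s, Real.log p ≤ Real.log v := by
  refine le_trans (sum_le_sum_of_subset_of_nonneg hs fun p _ _ => Real.log_natCast_nonneg p) ?_
  rw [← Real.log_prod fun p hp => by
    exact_mod_cast (Nat.prime_of_mem_primeFactors hp).ne_zero]
  refine Real.log_le_log (prod_pos fun p hp => by
    exact_mod_cast (Nat.prime_of_mem_primeFactors hp).pos) ?_
  rw [← Nat.cast_prod]
  exact Nat.cast_le.mpr (Nat.le_of_dvd hv (Nat.prod_primeFactors_dvd v))

/-- small and large primes of `v` -/
theorem sum_large_le {v P : ℕ} (hv : 0 < v) :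
    ∑ p ∈ v.primeFactors.filter (fun p => P < p), Real.log p / p ≤ Real.log v / (P + 1 : ℕ) := by
  refine le_trans ?_ (div_le_div_of_nonneg_right
    (sum_log_primeFactors_le hv (filter_subset (fun p => P < p) _)) (Nat.cast_nonneg _))
  rw [sum_div]
  refine sum_le_sum fun p hp => ?_
  have h2 : P + 1 ≤ p := (mem_filter.mp hp).2
  exact div_le_div_of_nonneg_left (Real.log_natCast_nonneg p) (by positivity)
    (by exact_mod_cast h2)

theorem Lp_le_cheb : ∃ K : ℝ, 0 ≤ K ∧ ∀ v P : ℕ, 0 < v → 1 ≤ P →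
    Lp v ≤ Real.log P + Real.log v / (P + 1 : ℕ) + K := by
  obtain ⟨K, hK, h⟩ := cheb_sum
  refine ⟨K, hK, fun v P hv hP => ?_⟩
  rw [Lp, ← sum_filter_add_sum_filter_not _ (fun p => p ≤ P)]
  have h1 : ∑ p ∈ v.primeFactors.filter (fun p => p ≤ P), Real.log p / p ≤ Real.log P + K := by
    refine le_trans (sum_le_sum_of_subset_of_nonneg (fun p hp => ?_)
      fun p _ _ => div_nonneg (Real.log_natCast_nonneg p) (Nat.cast_nonneg p)) (h P hP)
    rw [mem_filter] at hp
    exact Nat.mem_primesLE.mpr ⟨hp.2, Nat.prime_of_mem_primeFactors hp.1⟩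
  have h2 := sum_large_le (v := v) (P := P) hv
  have e : v.primeFactors.filter (fun p => ¬ p ≤ P) = v.primeFactors.filter (fun p => P < p) :=
    filter_congr fun p _ => not_le
  rw [e]
  linarith

/-- logarithmic bound for the weight -/
theorem hwLog : HwLogStmt := by
  obtain ⟨K, hK, h⟩ := Lp_le_cheb
  refine ⟨2 * Real.exp (K + 1), by positivity, fun B hB => ?_⟩
  set l := Real.log B with hl
  have hl0 : 0 ≤ l := Real.log_natCast_nonneg B
  set P := ⌊l⌋₊ + 1 with hP
  have hP1 : (1:ℝ) ≤ P := by exact_mod_cast Nat.succ_le_succ (Nat.zero_le _)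
  have hPl : (P:ℝ) ≤ 1 + l := by
    rw [hP]; push_cast
    linarith [Nat.floor_le hl0]
  have hdiv : l / (P + 1 : ℕ) ≤ 1 := by
    rw [div_le_one (by positivity), hP]
    push_cast
    linarith [(Nat.lt_floor_add_one l).le]
  have h1 := h B P hB (by omega)
  rw [hw]
  calc Real.exp ((1/12 : ℝ) * Lp B) ≤ Real.exp (Real.log P + (K + 1)) := by
        refine Real.exp_le_exp.mpr ?_
        have := Real.log_nonneg hP1
        linarith [Lp_nonneg B]
    _ = P * Real.exp (K + 1) := by rw [Real.exp_add, Real.exp_log (by linarith)]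
    _ ≤ _ := by nlinarith [Real.exp_pos (K + 1)]

theorem sum_divisors_coprime {a b : ℕ} (hab : Nat.Coprime a b) (F : ℕ → ℝ) :
    ∑ d ∈ (a * b).divisors, F d = ∑ x ∈ a.divisors, ∑ y ∈ b.divisors, F (x * y) := by
  rw [← sum_product' a.divisors b.divisors (fun x y => F (x * y))]
  symm
  refine sum_bij (fun (xy : ℕ × ℕ) _ => xy.1 * xy.2) ?_ ?_ ?_ (fun _ _ => rfl)
  · intro xy h
    rw [mem_product, Nat.mem_divisors, Nat.mem_divisors] at h
    exact Nat.mem_divisors.mpr ⟨mul_dvd_mul h.1.1 h.2.1, mul_ne_zero h.1.2 h.2.2⟩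
  · intro u hu w hw e
    rw [mem_product, Nat.mem_divisors, Nat.mem_divisors] at hu hw
    have key : ∀ z : ℕ × ℕ, z.1 ∣ a → z.2 ∣ b → Nat.gcd (z.1 * z.2) a = z.1 ∧
        Nat.gcd (z.1 * z.2) b = z.2 := fun z hz hz' => by
      refine ⟨?_, ?_⟩
      · rw [Nat.Coprime.gcd_mul_right_cancel _ (hab.symm.coprime_dvd_left hz'),
          Nat.gcd_eq_left hz]
      · rw [mul_comm, Nat.Coprime.gcd_mul_right_cancel _ (hab.coprime_dvd_left hz),
          Nat.gcd_eq_left hz']
    have k1 := key u hu.1.1 hu.2.1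
    have k2 := key w hw.1.1 hw.2.1
    exact Prod.ext (k1.1.symm.trans (by rw [e]; exact k2.1))
      (k1.2.symm.trans (by rw [e]; exact k2.2))
  · intro d hd
    rw [Nat.mem_divisors] at hd
    obtain ⟨x, y, hx, hy, e⟩ := Nat.dvd_mul.mp hd.1
    obtain ⟨ha, hb⟩ := mul_ne_zero_iff.mp hd.2
    exact ⟨(x, y), mem_product.mpr ⟨Nat.mem_divisors.mpr ⟨hx, ha⟩, Nat.mem_divisors.mpr ⟨hy, hb⟩⟩, e⟩

theorem hw_coprime {a b : ℕ} (h : Nat.Coprime a b) : hw (a * b) = hw a * hw b := by
  rw [hw_eq_prod, hw_eq_prod, hw_eq_prod, Nat.Coprime.primeFactors_mul h,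
    prod_union h.disjoint_primeFactors]

/-- the sum `∑ h(g)/g` -/
noncomputable def divA (q : ℕ) : ℝ := ∑ g ∈ q.divisors, hw g / g

/-- the sum `∑ log g h(g)/g` -/
noncomputable def divB (q : ℕ) : ℝ := ∑ g ∈ q.divisors, Real.log g * (hw g / g)

theorem divA_nonneg (q : ℕ) : 0 ≤ divA q :=
  sum_nonneg fun g _ => div_nonneg (Real.exp_nonneg _) (Nat.cast_nonneg g)

theorem divA_mul {a b : ℕ} (h : Nat.Coprime a b) : divA (a * b) = divA a * divA b := by
  rw [divA, divA, divA, sum_divisors_coprime h, sum_mul_sum]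
  refine sum_congr rfl fun x hx => sum_congr rfl fun y hy => ?_
  rw [hw_coprime ((h.coprime_dvd_left (Nat.dvd_of_mem_divisors hx)).coprime_dvd_right
    (Nat.dvd_of_mem_divisors hy)), Nat.cast_mul, mul_div_mul_comm]

theorem divB_mul {a b : ℕ} (h : Nat.Coprime a b) :
    divB (a * b) = divB a * divA b + divA a * divB b := by
  rw [divB, divB, divB, divA, divA, sum_divisors_coprime h, sum_mul_sum, sum_mul_sum,
    ← sum_add_distrib]
  refine sum_congr rfl fun x hx => ?_
  rw [← sum_add_distrib]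
  refine sum_congr rfl fun y hy => ?_
  have hx0 : (x:ℝ) ≠ 0 := by exact_mod_cast (Nat.pos_of_mem_divisors hx).ne'
  have hy0 : (y:ℝ) ≠ 0 := by exact_mod_cast (Nat.pos_of_mem_divisors hy).ne'
  rw [hw_coprime ((h.coprime_dvd_left (Nat.dvd_of_mem_divisors hx)).coprime_dvd_right
    (Nat.dvd_of_mem_divisors hy)), Nat.cast_mul, Real.log_mul hx0 hy0, mul_div_mul_comm]
  ring

theorem geom_bounds {p : ℝ} (hp2 : 1 < p) (n : ℕ) :
    ∑ i ∈ range n, ((1/p) ^ (i + 1)) ≤ 1 / (p - 1) ∧
      ∑ i ∈ range n, ((i:ℝ) + 1) * ((1/p) ^ (i + 1)) ≤ p / (p - 1) ^ 2 := by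
  have hp0 : 0 < p := by linarith
  have e1 : ∀ m : ℕ, ∑ i ∈ range m, ((1/p) ^ (i + 1)) = (1 - (1/p) ^ m) / (p - 1) := by
    intro m
    induction m with
    | zero => simp
    | succ m ih =>
      rw [sum_range_succ, ih]
      have : p - 1 ≠ 0 := by linarith
      rw [pow_succ]
      field_simp
      ring
  refine ⟨?_, ?_⟩
  · rw [e1]
    refine div_le_div_of_nonneg_right ?_ (by linarith)
    have : 0 ≤ (1/p) ^ n := by positivity
    linarith
  · have e2 : ∀ m : ℕ, ∑ i ∈ range m, ((i:ℝ) + 1) * ((1/p) ^ (i + 1)) =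
        (p * (1 - (1/p) ^ m) - (m:ℝ) * (1/p) ^ m * (p - 1)) / (p - 1) ^ 2 := by
      intro m
      induction m with
      | zero => simp
      | succ m ih =>
        rw [sum_range_succ, ih]
        have : p - 1 ≠ 0 := by linarith
        push_cast
        simp only [pow_succ (1/p) m, pow_succ (1/p)]
        generalize (1/p) ^ m = X
        field_simp
        ring
    rw [e2]
    gcongr
    have h0 : 0 ≤ (1/p) ^ n := by positivity
    have h1 : 0 ≤ (n:ℝ) * (1/p) ^ n * (p - 1) :=
      mul_nonneg (mul_nonneg (Nat.cast_nonneg n) h0) (by linarith)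
    nlinarith

theorem hw_prime_pow {p k : ℕ} (hp' : p.Prime) (hk : k ≠ 0) : hw (p ^ k) = hp p := by
  rw [hw_eq_prod, Nat.primeFactors_prime_pow hk hp', prod_singleton]

theorem hw_one : hw 1 = 1 := by simp [hw_eq_prod]

/-- the bounds for the divisor sums -/
theorem divA_divB_le (q : ℕ) : 0 < q →
    divA q ≤ (q:ℝ) / Nat.totient q * Real.exp (∑ p ∈ q.primeFactors, Real.log p / ((p:ℝ) * p)) ∧
      divB q ≤ 8 * Lp q * divA q := by
  induction q using Nat.recOnPrimeCoprime with
  | zero => exact fun h => absurd h (lt_irrefl 0)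
  | prime_pow p n hp' =>
    intro _
    rcases Nat.eq_zero_or_pos n with rfl | hn
    · simp [divA, divB, hw_one, Lp]
    have hp2 : (2:ℝ) ≤ p := by exact_mod_cast hp'.two_le
    obtain ⟨g1, g2⟩ := geom_bounds (p := (p:ℝ)) (by linarith) n
    have hA : divA (p ^ n) = 1 + hp p * ∑ i ∈ range n, (1/(p:ℝ)) ^ (i + 1) := by
      rw [divA, Nat.divisors_prime_pow hp', sum_map, sum_range_succ']
      simp only [Function.Embedding.coeFn_mk, pow_zero, hw_one, Nat.cast_one, div_one]
      rw [add_comm, mul_sum]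
      congr 1
      refine sum_congr rfl fun i _ => ?_
      rw [hw_prime_pow hp' i.succ_ne_zero, Nat.cast_pow, div_pow, one_pow]
      ring
    have hB : divB (p ^ n) =
        hp p * Real.log p * ∑ i ∈ range n, ((i:ℝ) + 1) * (1/(p:ℝ)) ^ (i + 1) := by
      rw [divB, Nat.divisors_prime_pow hp', sum_map, sum_range_succ']
      simp only [Function.Embedding.coeFn_mk, pow_zero, Nat.cast_one, Real.log_one, zero_mul,
        add_zero]
      rw [mul_sum]
      refine sum_congr rfl fun i _ => ?_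
      rw [hw_prime_pow hp' i.succ_ne_zero, Nat.cast_pow, Real.log_pow, div_pow, one_pow]
      push_cast
      ring
    have hp1 := one_le_hp p
    have hgeo0 : 0 ≤ ∑ i ∈ range n, (1/(p:ℝ)) ^ (i + 1) := sum_nonneg fun i _ => by positivity
    have hLp : Lp (p ^ n) = Real.log p / p := by
      rw [Lp, Nat.primeFactors_prime_pow hn.ne' hp', sum_singleton]
    constructor
    · rw [hA, Nat.primeFactors_prime_pow hn.ne' hp', sum_singleton,
        Nat.totient_prime_pow hp' hn]
      have ep : ((p ^ n : ℕ) : ℝ) / ((p ^ (n - 1) * (p - 1) : ℕ) : ℝ) = p / ((p:ℝ) - 1) := by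
        rw [Nat.cast_mul, Nat.cast_sub hp'.one_le, Nat.cast_pow, Nat.cast_pow, Nat.cast_one,
          show (p:ℝ) ^ n = (p:ℝ) ^ (n - 1) * p by rw [← pow_succ, Nat.sub_add_cancel hn],
          mul_div_mul_left _ _ (pow_ne_zero _ (by positivity))]
      rw [ep]
      calc 1 + hp p * ∑ i ∈ range n, (1/(p:ℝ)) ^ (i + 1) ≤ 1 + hp p * (1 / ((p:ℝ) - 1)) := by
            gcongr
        _ = (p:ℝ) / ((p:ℝ) - 1) * (1 + (hp p - 1) / p) := by
            have : (p:ℝ) - 1 ≠ 0 := by linarith
            field_simp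
            ring
        _ ≤ _ := by
            refine mul_le_mul_of_nonneg_left ?_ (div_nonneg (by linarith) (by linarith))
            refine le_trans ?_ (Real.add_one_le_exp _)
            have hl : 0 ≤ Real.log (p:ℝ) / p := div_nonneg (Real.log_natCast_nonneg p) (by linarith)
            have h6 : (hp p - 1) / p ≤ (Real.log (p:ℝ) / p) / p :=
              div_le_div_of_nonneg_right (by linarith [hp_sub_one_le p]) (by linarith)
            rw [div_div] at h6
            linarith
    · rw [hB, hA, hLp]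
      have h1 : hp p * Real.log p * ∑ i ∈ range n, ((i:ℝ) + 1) * (1/(p:ℝ)) ^ (i + 1) ≤
          hp p * Real.log p * ((p:ℝ) / ((p:ℝ) - 1) ^ 2) :=
        mul_le_mul_of_nonneg_left g2 (mul_nonneg (by linarith) (Real.log_natCast_nonneg p))
      have h2 : (p:ℝ) / ((p:ℝ) - 1) ^ 2 ≤ 4 / p := by
        rw [div_le_div_iff₀ (by nlinarith) (by linarith)]
        nlinarith
      have h3 : hp p * Real.log p * ((p:ℝ) / ((p:ℝ) - 1) ^ 2) ≤ 2 * Real.log p * (4 / p) :=
        mul_le_mul (mul_le_mul_of_nonneg_right (hp_le_two p) (Real.log_natCast_nonneg p)) h2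
          (by positivity) (mul_nonneg (by norm_num) (Real.log_natCast_nonneg p))
      have hl : 0 ≤ Real.log (p:ℝ) / p := div_nonneg (Real.log_natCast_nonneg p) (by linarith)
      have h4 : 0 ≤ Real.log (p:ℝ) / p * (hp p * ∑ i ∈ range n, (1/(p:ℝ)) ^ (i + 1)) :=
        mul_nonneg hl (mul_nonneg (by linarith) hgeo0)
      have h5 : 2 * Real.log (p:ℝ) * (4 / p) = 8 * (Real.log (p:ℝ) / p) := by ring
      nlinarith
  | coprime a b ha hb hab iha ihb =>
    intro _
    obtain ⟨a1, a2⟩ := iha (by omega)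
    obtain ⟨b1, b2⟩ := ihb (by omega)
    constructor
    · rw [divA_mul hab, Nat.totient_mul hab, Nat.Coprime.primeFactors_mul hab,
        sum_union hab.disjoint_primeFactors, Real.exp_add, Nat.cast_mul, Nat.cast_mul]
      calc divA a * divA b ≤ _ := mul_le_mul a1 b1 (divA_nonneg b) (le_trans (divA_nonneg a) a1)
        _ = _ := by ring
    · have hL : Lp (a * b) = Lp a + Lp b := by
        rw [Lp, Lp, Lp, Nat.Coprime.primeFactors_mul hab, sum_union hab.disjoint_primeFactors]
      rw [divB_mul hab, divA_mul hab, hL]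
      have e1 := mul_le_mul_of_nonneg_right a2 (divA_nonneg b)
      have e2 := mul_le_mul_of_nonneg_left b2 (divA_nonneg a)
      linarith

theorem sum_log_div_sq_le : ∃ T : ℝ, 0 ≤ T ∧ ∀ s : Finset ℕ, (∀ p ∈ s, p.Prime) →
    ∑ p ∈ s, Real.log p / ((p:ℝ) * p) ≤ T := by
  have hs : Summable fun p : ℕ => 4 * (p : ℝ) ^ (-(3 / 2 : ℝ)) :=
    (Real.summable_nat_rpow.2 (by norm_num)).mul_left 4
  refine ⟨∑' p : ℕ, 4 * (p : ℝ) ^ (-(3 / 2 : ℝ)), tsum_nonneg fun p => by positivity,
    fun s h => le_trans (sum_le_sum fun p hp => ?_) (hs.sum_le_tsum _ fun p _ => by positivity)⟩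
  refine le_trans ?_ (Vale.Agent.P031.log_div_mul_le (h p hp).two_le)
  have hp2 : (2:ℝ) ≤ p := by exact_mod_cast (h p hp).two_le
  exact div_le_div_of_nonneg_left (Real.log_natCast_nonneg p) (by nlinarith) (by nlinarith)

/-- `q / φ(q)` against `L(q)` -/
theorem ratio_le_Lp : ∃ K : ℝ, 0 ≤ K ∧ ∀ q : ℕ, 0 < q →
    (q:ℝ) / Nat.totient q ≤ K * (2 + Lp q) := by
  obtain ⟨C, hC, hm⟩ := Vale.Agent.P031.recipSum_sub_loglog
  have hT : Summable fun n : ℕ => 2 / ((n:ℝ) ^ 2) := by
    have := (Real.summable_nat_pow_inv.mpr (show 1 < 2 by norm_num)).mul_left 2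
    simpa [div_eq_mul_inv] using this
  set D : ℝ := Vale.Agent.P031.recipSum 2 - Real.log (Real.log ((2:ℕ):ℝ)) + C / Real.log ((2:ℕ):ℝ)
  set T : ℝ := ∑' n : ℕ, 2 / ((n:ℝ) ^ 2)
  refine ⟨2 * Real.exp (D + T + 1), by positivity, fun q hq => ?_⟩
  set L := Lp q with hL
  have hL0 : 0 ≤ L := Lp_nonneg q
  set P := ⌈Real.exp (1 + L)⌉₊ with hP
  have hPlo : Real.exp (1 + L) ≤ P := Nat.le_ceil _
  have he : (2:ℝ) ≤ Real.exp (1 + L) := by linarith [Real.add_one_le_exp (1 + L)]
  have hP2 : 2 ≤ P := by exact_mod_cast le_trans he hPlo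
  have hPpos : (0:ℝ) < P := by linarith
  have hlogP : 1 + L ≤ Real.log P := by
    rw [← Real.log_exp (1 + L)]
    exact Real.log_le_log (Real.exp_pos _) hPlo
  have hlogP' : Real.log P ≤ 2 + L := by
    have h1 : (P:ℝ) ≤ Real.exp (2 + L) := by
      refine (Nat.ceil_lt_add_one (Real.exp_nonneg _)).le.trans ?_
      rw [show (2:ℝ) + L = 1 + (1 + L) by ring, Real.exp_add 1 (1 + L)]
      nlinarith [Real.exp_one_gt_d9]
    rw [← Real.log_exp (2 + L)]
    exact Real.log_le_log hPpos h1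
  have hsplit : ∑ p ∈ q.primeFactors, (1 / (p:ℝ) + 2 / ((p:ℝ) ^ 2)) ≤
      Real.log (Real.log P) + D + 1 + T := by
    rw [sum_add_distrib]
    refine add_le_add ?_ (hT.sum_le_tsum _ fun p _ => by positivity)
    rw [← sum_filter_add_sum_filter_not _ (fun p => p ≤ P)]
    have h1 : ∑ p ∈ q.primeFactors.filter (fun p => p ≤ P), 1 / (p:ℝ) ≤
        Real.log (Real.log P) + D := by
      have h := (abs_le.mp (hm 2 P le_rfl hP2)).2
      refine le_trans (sum_le_sum_of_subset_of_nonneg (fun p hp => ?_) fun p _ _ => by positivity)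
        (show Vale.Agent.P031.recipSum P ≤ _ by simp only [D]; linarith)
      rw [mem_filter] at hp
      exact Nat.mem_primesLE.mpr ⟨hp.2, Nat.prime_of_mem_primeFactors hp.1⟩
    have h2 : ∑ p ∈ q.primeFactors.filter (fun p => ¬ p ≤ P), 1 / (p:ℝ) ≤ 1 := by
      calc ∑ p ∈ q.primeFactors.filter (fun p => ¬ p ≤ P), 1 / (p:ℝ)
          ≤ ∑ p ∈ q.primeFactors.filter (fun p => ¬ p ≤ P),
              (Real.log p / p) / Real.log P := by
            refine sum_le_sum fun p hp => ?_
            rw [mem_filter, not_le] at hp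
            have hpP : Real.log P ≤ Real.log p :=
              Real.log_le_log hPpos (by exact_mod_cast hp.2.le)
            rw [le_div_iff₀ (by linarith), div_mul_eq_mul_div, one_mul]
            exact div_le_div_of_nonneg_right hpP (Nat.cast_nonneg p)
        _ ≤ L / Real.log P := by
            rw [← sum_div]
            exact div_le_div_of_nonneg_right (sum_le_sum_of_subset_of_nonneg (filter_subset _ _)
              fun p _ _ => div_nonneg (Real.log_natCast_nonneg p) (Nat.cast_nonneg p))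
              (by linarith)
        _ ≤ 1 := by rw [div_le_one (by linarith)]; linarith
    linarith
  have hratio : (q:ℝ) / Nat.totient q ≤
      Real.exp (∑ p ∈ q.primeFactors, (1 / (p:ℝ) + 2 / ((p:ℝ) ^ 2))) := by
    have hqr : (q:ℝ) / Nat.totient q = ∏ p ∈ q.primeFactors, ((p:ℝ) / ((p:ℝ) - 1)) := by
      have h := Nat.totient_mul_prod_primeFactors q
      have hc : (Nat.totient q : ℝ) * ∏ p ∈ q.primeFactors, (p:ℝ) =
          q * ∏ p ∈ q.primeFactors, ((p:ℝ) - 1) := by
        have h' := congrArg (Nat.cast (R := ℝ)) h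
        push_cast at h'
        rw [h']
        congr 1
        refine prod_congr rfl fun p hp => ?_
        rw [Nat.cast_sub (Nat.prime_of_mem_primeFactors hp).one_le, Nat.cast_one]
      rw [prod_div_distrib, div_eq_div_iff]
      · linarith
      · exact_mod_cast (Nat.totient_pos.mpr hq).ne'
      · refine prod_ne_zero_iff.mpr fun p hp => ?_
        have : (2:ℝ) ≤ p := by exact_mod_cast (Nat.prime_of_mem_primeFactors hp).two_le
        linarith
    rw [hqr, Real.exp_sum]
    refine prod_le_prod (fun p hp => ?_) fun p hp => ?_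
    · have : (2:ℝ) ≤ p := by exact_mod_cast (Nat.prime_of_mem_primeFactors hp).two_le
      exact div_nonneg (by linarith) (by linarith)
    · have hp2 : (2:ℝ) ≤ p := by exact_mod_cast (Nat.prime_of_mem_primeFactors hp).two_le
      refine le_trans ?_ (Real.add_one_le_exp _)
      have : (p:ℝ) - 1 ≠ 0 := by linarith
      rw [div_le_iff₀ (by linarith), show (1 / (p:ℝ) + 2 / (p:ℝ) ^ 2 + 1) * ((p:ℝ) - 1) =
        (p:ℝ) + ((p:ℝ) - 2) / (p:ℝ) ^ 2 by field_simp; ring]
      have : 0 ≤ ((p:ℝ) - 2) / (p:ℝ) ^ 2 := div_nonneg (by linarith) (by positivity)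
      linarith
  calc (q:ℝ) / Nat.totient q ≤ _ := hratio
    _ ≤ Real.exp (Real.log (Real.log P) + (D + T + 1)) := Real.exp_le_exp.mpr (by linarith)
    _ = Real.log P * Real.exp (D + T + 1) := by
        rw [Real.exp_add, Real.exp_log (by linarith)]
    _ ≤ _ := by
        have := mul_le_mul_of_nonneg_right hlogP' (Real.exp_pos (D + T + 1)).le
        nlinarith [Real.exp_pos (D + T + 1)]

/-- the divisor sum of the weight -/
theorem hwDiv : HwDivStmt := by
  obtain ⟨K, hK, hr⟩ := ratio_le_Lp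
  obtain ⟨T, hT, hT'⟩ := sum_log_div_sq_le
  refine ⟨Real.exp T * 8 * K ^ 2 * (6 * 1728 * Real.exp (1/6)), by positivity, fun q hq => ?_⟩
  obtain ⟨hA, hB⟩ := divA_divB_le q hq
  set L := Lp q with hL
  have hL0 : 0 ≤ L := Lp_nonneg q
  set R := (q:ℝ) / Nat.totient q with hR
  have hR0 : 0 < R := div_pos (by exact_mod_cast hq) (by exact_mod_cast Nat.totient_pos.mpr hq)
  have e : ∑ g ∈ q.divisors, (1 + Real.log g) * hw g / g = divA q + divB q := by
    rw [divA, divB, ← sum_add_distrib]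
    exact sum_congr rfl fun g _ => by ring
  have hA' : divA q ≤ R * Real.exp T := hA.trans (mul_le_mul_of_nonneg_left
    (Real.exp_le_exp.mpr (hT' _ fun p hp => Nat.prime_of_mem_primeFactors hp)) hR0.le)
  have hcube : (2 + L) ^ 3 ≤ 6 * 1728 * Real.exp (1/6) * hw q := by
    have h := Real.pow_div_factorial_le_exp (x := (2 + L) / 12) (by linarith) 3
    rw [hw, mul_assoc, ← Real.exp_add, show (1/6 : ℝ) + 1/12 * Lp q = (2 + L) / 12 by
      rw [hL]; ring]
    have hf : ((Nat.factorial 3 : ℕ) : ℝ) = 6 := by norm_num [Nat.factorial]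
    rw [hf, div_le_iff₀ (by norm_num)] at h
    nlinarith
  have hφ : (Nat.totient q : ℝ) / q = 1 / R := by rw [hR, one_div_div]
  rw [e, hφ]
  calc divA q + divB q ≤ 8 * (2 + L) * divA q := by nlinarith [divA_nonneg q]
    _ ≤ 8 * (2 + L) * (R * Real.exp T) := mul_le_mul_of_nonneg_left hA' (by positivity)
    _ = Real.exp T * 8 * ((2 + L) * R ^ 2) * (1 / R) := by field_simp
    _ ≤ Real.exp T * 8 * ((2 + L) * (K * (2 + L)) ^ 2) * (1 / R) := by
        gcongr
        exact hr q hq
    _ ≤ Real.exp T * 8 * (K ^ 2 * (6 * 1728 * Real.exp (1/6) * hw q)) * (1 / R) := by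
        refine mul_le_mul_of_nonneg_right (mul_le_mul_of_nonneg_left ?_ (by positivity))
          (by positivity)
        calc (2 + L) * (K * (2 + L)) ^ 2 = K ^ 2 * (2 + L) ^ 3 := by ring
          _ ≤ _ := mul_le_mul_of_nonneg_left hcube (sq_nonneg K)
    _ = _ := by ring

/-- totient against divisors -/
theorem totTau : TotTauStmt := by
  intro q
  induction q using Nat.recOnPrimeCoprime with
  | zero => exact fun h => absurd h (lt_irrefl 0)
  | prime_pow p n hp' =>
    intro _
    rcases Nat.eq_zero_or_pos n with rfl | hn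
    · simp
    rw [Nat.totient_prime_pow hp' hn, Nat.divisors_prime_pow hp', card_map, card_range]
    obtain ⟨m, rfl⟩ : ∃ m, n = m + 1 := ⟨n - 1, by omega⟩
    have h2 := hp'.two_le
    have h : p ≤ (p - 1) * (m + 1 + 1) := by
      have : (p - 1) * 2 ≤ (p - 1) * (m + 1 + 1) := Nat.mul_le_mul_left _ (by omega)
      omega
    rw [Nat.add_sub_cancel]
    exact_mod_cast (show p ^ (m + 1) ≤ p ^ m * (p - 1) * (m + 1 + 1) by
      rw [pow_succ, mul_assoc]; exact Nat.mul_le_mul_left _ h)
  | coprime a b ha hb hab iha ihb =>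
    intro _
    rw [Nat.totient_mul hab, Nat.Coprime.card_divisors_mul hab]
    push_cast
    calc (a:ℝ) * b ≤ ((Nat.totient a : ℝ) * a.divisors.card) *
          ((Nat.totient b : ℝ) * b.divisors.card) :=
        mul_le_mul (iha (by omega)) (ihb (by omega)) (Nat.cast_nonneg b) (by positivity)
      _ = _ := by ring

/-- the divisor bound -/
theorem tau : TauStmt := by
  intro ε hε
  set N : ℕ := ⌈(2:ℝ) ^ (1 / ε)⌉₊ with hN
  set K0 : ℝ := 1 + 1 / (ε * Real.log 2) with hK0
  have hl2 : 0 < Real.log 2 := Real.log_pos one_lt_two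
  have hK1 : 1 ≤ K0 := le_add_of_nonneg_right (by positivity)
  refine ⟨K0 ^ (N + 1), by positivity, fun q hq => ?_⟩
  have hqe : (q:ℝ) ^ ε = ∏ p ∈ q.primeFactors, ((p:ℝ) ^ ε) ^ q.factorization p := by
    conv_lhs => rw [Nat.prod_primeFactors_pow_factorization hq.ne']
    push_cast
    rw [← Real.finset_prod_rpow _ _ fun p _ => by positivity]
    refine prod_congr rfl fun p _ => ?_
    rw [← Real.rpow_natCast, ← Real.rpow_natCast, ← Real.rpow_mul (Nat.cast_nonneg p),
      ← Real.rpow_mul (Nat.cast_nonneg p), mul_comm]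
  rw [Nat.card_divisors hq.ne', hqe]
  push_cast
  have key : ∀ p ∈ q.primeFactors, (q.factorization p : ℝ) + 1 ≤
      (if p ≤ N then K0 else 1) * ((p:ℝ) ^ ε) ^ q.factorization p := by
    intro p hp
    set k := q.factorization p
    have hp2 : (2:ℝ) ≤ p := by exact_mod_cast (Nat.prime_of_mem_primeFactors hp).two_le
    split_ifs with hpN
    · have h1 : 1 + (k:ℝ) * (ε * Real.log 2) ≤ ((p:ℝ) ^ ε) ^ k := by
        rw [← Real.rpow_natCast ((p:ℝ) ^ ε) k, ← Real.rpow_mul (Nat.cast_nonneg p),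
          Real.rpow_def_of_pos (by linarith)]
        refine le_trans ?_ (Real.add_one_le_exp _)
        have := Real.log_le_log (by norm_num) hp2
        have : 0 ≤ ε * k := by positivity
        nlinarith
      refine le_trans ?_ (mul_le_mul_of_nonneg_left h1 (by linarith))
      rw [hK0]
      have e : (1 + 1 / (ε * Real.log 2)) * (1 + (k:ℝ) * (ε * Real.log 2)) =
          (k:ℝ) + 1 + ((k:ℝ) * (ε * Real.log 2) + 1 / (ε * Real.log 2)) := by
        field_simp
        ring
      rw [e]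
      have : 0 ≤ (k:ℝ) * (ε * Real.log 2) + 1 / (ε * Real.log 2) := by positivity
      linarith
    · rw [one_mul]
      have h2 : (2:ℝ) ≤ (p:ℝ) ^ ε := by
        have h3 : (2:ℝ) ^ (1 / ε) ≤ p :=
          (Nat.le_ceil _).trans (by exact_mod_cast (not_le.mp hpN).le)
        have := Real.rpow_le_rpow (by positivity) h3 hε.le
        rwa [← Real.rpow_mul (by norm_num), one_div_mul_cancel hε.ne', Real.rpow_one] at this
      calc (k:ℝ) + 1 ≤ (2:ℝ) ^ k := by exact_mod_cast Nat.lt_two_pow_self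
        _ ≤ _ := pow_le_pow_left₀ (by norm_num) h2 k
  refine le_trans (prod_le_prod (fun p _ => by positivity) key) ?_
  rw [prod_mul_distrib]
  refine mul_le_mul_of_nonneg_right ?_ (prod_nonneg fun p _ => by positivity)
  rw [prod_ite, prod_const_one, mul_one, prod_const]
  refine pow_le_pow_right₀ hK1 ((card_le_card (t := Finset.range (N + 1)) fun p hp => ?_).trans
    (card_range _).le)
  exact mem_range.mpr (Nat.lt_succ_of_le (mem_filter.mp hp).2)

end Vale.P028EV
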