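import Vale.Agent.P028.EV.CaseA.Local
import Vale.Agent.P028.EV.CaseA.Euler

/-! # P028 case A: the pairs with `ψ q · y ≥ 1/8` -/

open scoped BigOperators
open Real

namespace Vale.P028EV.CA

/-- The dyadic size of `8 D`. -/
noncomputable def dyad (ψ : ℕ → ℝ) (q r : ℕ) : ℕ := Nat.log 2 ⌊8 * DD ψ q r⌋₊

lemma dyad_spec {ψ : ℕ → ℝ} {q r : ℕ} (hD : 1 / 8 ≤ DD ψ q r) :
    (2:ℝ) ^ dyad ψ q r ≤ 8 * DD ψ q r ∧ 8 * DD ψ q r < 2 ^ (dyad ψ q r + 1) := by
  have h1 : 1 ≤ ⌊8 * DD ψ q r⌋₊ := Nat.le_floor (by push_cast; linarith)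
  refine ⟨?_, ?_⟩
  · refine le_trans ?_ (Nat.floor_le (by linarith : 0 ≤ 8 * DD ψ q r))
    exact_mod_cast Nat.pow_log_le_self 2 (by omega : ⌊8 * DD ψ q r⌋₊ ≠ 0)
  · refine (Nat.lt_floor_add_one _).trans_le ?_
    exact_mod_cast Nat.lt_pow_succ_log_self one_lt_two ⌊8 * DD ψ q r⌋₊

/-- The overlap is the product of the two densities, sieved up to `s`. -/
theorem ov_le_prod {γ : ℝ} {ψ : ℕ → ℝ} (C : ℕ → ℤ) (B : ℕ → ℕ) {q r : ℕ} (hq : 0 < q)
    (hr : 0 < r) (hψq : 0 ≤ ψ q) (hψr : 0 ≤ ψ r) (hD : 1 / 8 ≤ DD ψ q r) :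
    ov γ ψ C B q r ≤ 160000000 * (ψ q * ψ r) *
      (PP (dyad ψ q r + 12) q * PP (dyad ψ q r + 12) r) := by
  set s := dyad ψ q r + 12 with hs
  have h := sum_Nn_le (γ := γ) C B s hq hr hψq
  set g := Nat.gcd q r
  set n := ((Finset.range (s + 1)).filter Nat.Prime).card
  set P := PP s q * PP s r with hPdef
  have hs0 : (0:ℝ) < s := by exact_mod_cast (by omega : 0 < s)
  have hP : 1 ≤ P * (s:ℝ) ^ 2 := by
    have h1 := PP_ge s q (by omega)
    have h2 := PP_ge s r (by omega)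
    have := mul_le_mul h1 h2 (by positivity) (PP_pos s q).le
    rw [div_mul_div_comm, one_mul, div_le_iff₀ (by positivity)] at this
    simpa [hPdef, sq] using this
  have h4 : (4:ℝ) ^ n ≤ 75497472 * DD ψ q r * P := by
    have h5 : (4:ℝ) ^ n * (s:ℝ) ^ 2 ≤ 2304 * 2 ^ s := by exact_mod_cast four_pow_primes_le s
    have h6 := (dyad_spec hD).1
    have h7 : (2:ℝ) ^ s = 4096 * 2 ^ dyad ψ q r := by rw [hs, pow_add]; norm_num; ring
    have hP0 : 0 < P := mul_pos (PP_pos _ _) (PP_pos _ _)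
    calc (4:ℝ) ^ n ≤ (4:ℝ) ^ n * (P * (s:ℝ) ^ 2) := le_mul_of_one_le_right (by positivity) hP
      _ = (4:ℝ) ^ n * (s:ℝ) ^ 2 * P := by ring
      _ ≤ 75497472 * DD ψ q r * P := mul_le_mul_of_nonneg_right (by linarith) hP0.le
  have hgy : (g:ℝ) * (yy q r : ℝ) = r := by
    exact_mod_cast Nat.mul_div_cancel' (Nat.gcd_dvd_right q r)
  have hrR : (0:ℝ) < r := by exact_mod_cast hr
  unfold ov
  calc 2 * ψ r / r * ∑ m ∈ nset γ ψ q r, (Nn C B q r m : ℝ)
      ≤ 2 * ψ r / r * ((g:ℝ) * (4 * DD ψ q r * P + 75497472 * DD ψ q r * P)) :=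
        mul_le_mul_of_nonneg_left (h.trans (mul_le_mul_of_nonneg_left (by linarith)
          (Nat.cast_nonneg _))) (by positivity)
    _ = 150994952 * (ψ q * ψ r) * P * ((g:ℝ) * (yy q r : ℝ) / r) := by rw [DD]; ring
    _ = 150994952 * (ψ q * ψ r) * P := by rw [hgy, div_self hrR.ne', mul_one]
    _ ≤ _ := by
        have : 0 ≤ ψ q * ψ r * P :=
          mul_nonneg (mul_nonneg hψq hψr) (mul_pos (PP_pos _ _) (PP_pos _ _)).le
        linarith

/-- The summable weight of the pairs with dyadic size `i`. -/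
noncomputable def wt (i : ℕ) : ℝ :=
  ((i + 12 : ℕ) : ℝ) ^ 2 * exp (-(1 / 2) * ((i + 12 : ℕ) : ℝ))

lemma wt_nonneg (i : ℕ) : 0 ≤ wt i := by unfold wt; positivity

lemma summable_wt : Summable wt :=
  (Real.summable_pow_mul_exp_neg_nat_mul 2 (r := 1 / 2) (by norm_num)).comp_injective
    (i := fun i : ℕ => i + 12) fun _ _ h => Nat.add_right_cancel h

/-- Fiberwise use of the weight. -/
lemma sum_wt_mul_le (T : Finset ℕ) (i : ℕ → ℕ) (a : ℕ → ℝ) {M : ℝ} (hM : 0 ≤ M)
    (h : ∀ j, ∑ r ∈ T.filter (fun r => i r = j), a r ≤ M) :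
    ∑ r ∈ T, wt (i r) * a r ≤ (∑' j, wt j) * M := by
  rw [← Finset.sum_fiberwise_of_maps_to (t := T.image i) fun r hr => Finset.mem_image_of_mem i hr]
  calc ∑ j ∈ T.image i, ∑ r ∈ T.filter (fun r => i r = j), wt (i r) * a r
      ≤ ∑ j ∈ T.image i, wt j * M := by
        refine Finset.sum_le_sum fun j _ => ?_
        rw [Finset.sum_congr rfl fun r hr => by rw [(Finset.mem_filter.1 hr).2], ← Finset.mul_sum]
        exact mul_le_mul_of_nonneg_left (h j) (wt_nonneg j)
    _ = (∑ j ∈ T.image i, wt j) * M := (Finset.sum_mul _ _ _).symm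
    _ ≤ _ := mul_le_mul_of_nonneg_right
        (summable_wt.sum_le_tsum _ fun j _ => wt_nonneg j) hM

/-- The weight seen from `q`. -/
noncomputable def wA (ψ : ℕ → ℝ) (q r : ℕ) : ℝ :=
  exp (((dyad ψ q r + 12 : ℕ) : ℝ) * SS (dyad ψ q r + 12) (Nat.gcd q r)) +
    exp (((dyad ψ q r + 12 : ℕ) : ℝ) * SS (dyad ψ q r + 12) (yy q r))

/-- The weight seen from `r`. -/
noncomputable def wB (ψ : ℕ → ℝ) (q r : ℕ) : ℝ :=
  exp (((dyad ψ q r + 12 : ℕ) : ℝ) * SS (dyad ψ q r + 12) (xx q r))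

/-- Pointwise decomposition of the overlap. -/
theorem ov_split {γ : ℝ} {ψ : ℕ → ℝ} (C : ℕ → ℤ) (B : ℕ → ℕ) {q r : ℕ} (hq : 0 < q)
    (hr : 0 < r) (hψq : 0 ≤ ψ q) (hψr : 0 ≤ ψ r) (hD : 1 / 8 ≤ DD ψ q r) :
    ov γ ψ C B q r ≤ 160000000 * exp 4 * (lam ψ q * lam ψ r +
      lam ψ q * ((q.totient : ℝ) / q) * (wt (dyad ψ q r) * (ψ r * wA ψ q r)) +
      lam ψ r * ((r.totient : ℝ) / r) * (wt (dyad ψ q r) * (ψ q * wB ψ q r))) := by
  have h := ov_le_prod (γ := γ) C B hq hr hψq hψr hD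
  set s := dyad ψ q r + 12 with hs
  set g := Nat.gcd q r with hg
  have hg0 : g ≠ 0 := (Nat.gcd_pos_of_pos_left _ hq).ne'
  have hgx : g * xx q r = q := Nat.mul_div_cancel' (Nat.gcd_dvd_left q r)
  have hgy : g * yy q r = r := Nat.mul_div_cancel' (Nat.gcd_dvd_right q r)
  have hx0 : xx q r ≠ 0 := fun e => by rw [e, mul_zero] at hgx; omega
  have hy0 : yy q r ≠ 0 := fun e => by rw [e, mul_zero] at hgy; omega
  have hSq : SS s q ≤ SS s g + SS s (xx q r) := by
    have := SS_mul_le s hg0 hx0; rwa [hgx] at this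
  have hSr : SS s r ≤ SS s g + SS s (yy q r) := by
    have := SS_mul_le s hg0 hy0; rwa [hgy] at this
  set rq := (q.totient : ℝ) / q with hrq
  set rr := (r.totient : ℝ) / r with hrr
  have hrq0 : 0 ≤ rq := by positivity
  have hrr0 : 0 ≤ rr := by positivity
  have elq : lam ψ q = rq * ψ q := by rw [hrq, lam]; ring
  have elr : lam ψ r = rr * ψ r := by rw [hrr, lam]; ring
  have hψ : 0 ≤ ψ q * ψ r := mul_nonneg hψq hψr
  have hwt := wt_nonneg (dyad ψ q r)
  have hA : 0 ≤ wA ψ q r := by unfold wA; positivity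
  have hB : 0 ≤ wB ψ q r := by unfold wB; positivity
  refine h.trans ?_
  rw [mul_assoc, mul_assoc (160000000:ℝ), elq, elr]
  refine mul_le_mul_of_nonneg_left ?_ (by norm_num)
  by_cases hsmall : SS s q ≤ 1 ∧ SS s r ≤ 1
  · have e1 : PP s q ≤ rq * exp 2 :=
      (PP_le_exp s hq).trans (mul_le_mul_of_nonneg_left (exp_le_exp.2 (by linarith)) hrq0)
    have e2 : PP s r ≤ rr * exp 2 :=
      (PP_le_exp s hr).trans (mul_le_mul_of_nonneg_left (exp_le_exp.2 (by linarith)) hrr0)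
    have e3 := mul_le_mul_of_nonneg_left (mul_le_mul e1 e2 (PP_pos _ _).le (by positivity)) hψ
    have e4 : exp 4 = exp 2 * exp 2 := by rw [← exp_add]; norm_num
    refine e3.trans ?_
    have t1 : 0 ≤ rq * ψ q * rq * (wt (dyad ψ q r) * (ψ r * wA ψ q r)) := by positivity
    have t2 : 0 ≤ rr * ψ r * rr * (wt (dyad ψ q r) * (ψ q * wB ψ q r)) := by positivity
    have t3 : ψ q * ψ r * (rq * exp 2 * (rr * exp 2)) = exp 4 * (rq * ψ q * (rr * ψ r)) := by
      rw [e4]; ring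
    rw [t3]
    exact mul_le_mul_of_nonneg_left (by linarith) (exp_pos 4).le
  · set T := max (SS s g) (max (SS s (xx q r)) (SS s (yy q r))) with hT
    have hTg : SS s g ≤ T := le_max_left _ _
    have hTx : SS s (xx q r) ≤ T := (le_max_left _ _).trans (le_max_right _ _)
    have hTy : SS s (yy q r) ≤ T := (le_max_right _ _).trans (le_max_right _ _)
    have hT1 : 1 / 2 < T := by
      rcases not_and_or.1 hsmall with h' | h' <;> linarith
    have hs12 : (12:ℝ) ≤ s := by exact_mod_cast (by omega : 12 ≤ s)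
    have e8 : exp (8 * T) ≤ exp 4 * exp (-(1 / 2) * (s:ℝ)) * exp ((s:ℝ) * T) := by
      rw [← exp_add, ← exp_add]
      refine exp_le_exp.2 ?_
      nlinarith
    have main : ∀ v : ℕ, 0 < v → SS s v ≤ 2 * T → ∀ E : ℝ, exp ((s:ℝ) * T) = E →
        1 ≤ exp 4 * wt (dyad ψ q r) * (((v.totient : ℝ) / v) ^ 2 * E) := by
      intro v hv hSv E hE
      set ρ := (v.totient : ℝ) / v
      have hρ : 0 ≤ ρ := by positivity
      have e1 : 1 ≤ (s:ℝ) * exp (4 * T) * ρ := by
        refine (one_le_inv_totient s (by omega) hv).trans ?_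
        exact mul_le_mul_of_nonneg_right (mul_le_mul_of_nonneg_left
          (exp_le_exp.2 (by linarith)) (by positivity)) hρ
      calc (1:ℝ) ≤ ((s:ℝ) * exp (4 * T) * ρ) ^ 2 := one_le_pow₀ e1
        _ = (s:ℝ) ^ 2 * ρ ^ 2 * exp (8 * T) := by
            rw [show 8 * T = 4 * T + 4 * T by ring, exp_add]; ring
        _ ≤ (s:ℝ) ^ 2 * ρ ^ 2 * (exp 4 * exp (-(1 / 2) * (s:ℝ)) * exp ((s:ℝ) * T)) :=
            mul_le_mul_of_nonneg_left e8 (by positivity)
        _ = _ := by rw [wt, ← hs, hE]; ring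
    have hPP : ψ q * ψ r * (PP s q * PP s r) ≤ ψ q * ψ r :=
      mul_le_of_le_one_right hψ (mul_le_one₀ (PP_le_one _ _) (PP_pos _ _).le (PP_le_one _ _))
    refine hPP.trans ?_
    have key : 1 ≤ exp 4 * wt (dyad ψ q r) * (rq ^ 2 * wA ψ q r + rr ^ 2 * wB ψ q r) := by
      rcases max_choice (SS s g) (max (SS s (xx q r)) (SS s (yy q r))) with h' | h'
      · refine (main q hq (by linarith) _ (by rw [hT, h'])).trans ?_
        refine mul_le_mul_of_nonneg_left ?_ (by positivity)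
        refine le_add_of_le_of_nonneg (mul_le_mul_of_nonneg_left ?_ (by positivity))
          (by positivity)
        exact le_add_of_nonneg_right (exp_pos _).le
      · rcases max_choice (SS s (xx q r)) (SS s (yy q r)) with h'' | h''
        · refine (main r hr (by linarith) _ (by rw [hT, h', h''])).trans ?_
          refine mul_le_mul_of_nonneg_left ?_ (by positivity)
          exact le_add_of_nonneg_left (by positivity)
        · refine (main q hq (by linarith) _ (by rw [hT, h', h''])).trans ?_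
          refine mul_le_mul_of_nonneg_left ?_ (by positivity)
          refine le_add_of_le_of_nonneg (mul_le_mul_of_nonneg_left ?_ (by positivity))
            (by positivity)
          exact le_add_of_nonneg_left (exp_pos _).le
    have t0 : 0 ≤ exp 4 * (rq * ψ q * (rr * ψ r)) := by positivity
    have := mul_le_mul_of_nonneg_left key hψ
    linarith

/-- The sum seen from `q`, one dyadic size. -/
theorem sum_wA_le {ψ : ℕ → ℝ} {q : ℕ} (hq : 0 < q) (hψq : 0 < ψ q) (S : Finset ℕ)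
    (hS : ∀ r ∈ S, 0 < r ∧ ψ r ≤ 1 / (r:ℝ) ∧ 1 / 8 ≤ DD ψ q r) (j : ℕ) :
    ∑ r ∈ S.filter (fun r => dyad ψ q r = j), ψ r * wA ψ q r
      ≤ 4 * exp 4 * exp 4 * ((q:ℝ) / q.totient) := by
  set s := j + 12
  set E : ℕ → ℝ := fun v => exp ((s:ℝ) * SS s v)
  set Y := ⌊2 ^ (j + 1) / (8 * ψ q)⌋₊
  set F : ℕ × ℕ → ℝ := fun p => 8 * ψ q / ((p.1:ℝ) * 2 ^ j) * (E p.1 + E p.2)
  have hFnn : ∀ p, 0 ≤ F p := fun p => by
    simp only [F, E]; positivity
  have hgy : ∀ r, Nat.gcd q r * yy q r = r := fun r =>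
    Nat.mul_div_cancel' (Nat.gcd_dvd_right q r)
  calc ∑ r ∈ S.filter (fun r => dyad ψ q r = j), ψ r * wA ψ q r
      ≤ ∑ r ∈ S.filter (fun r => dyad ψ q r = j), F (Nat.gcd q r, yy q r) := by
        refine Finset.sum_le_sum fun r hr => ?_
        simp only [Finset.mem_filter] at hr
        obtain ⟨hrS, rfl⟩ := hr
        obtain ⟨hr0, hψr, hD⟩ := hS r hrS
        refine mul_le_mul_of_nonneg_right (hψr.trans ?_) (by unfold wA; positivity)
        have hg : (0:ℝ) < Nat.gcd q r := by exact_mod_cast Nat.gcd_pos_of_pos_left _ hq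
        have e : (r:ℝ) = (Nat.gcd q r : ℝ) * (yy q r : ℝ) := by exact_mod_cast (hgy r).symm
        have h1 := (dyad_spec hD).1
        rw [DD] at h1
        have hr' : (0:ℝ) < r := by exact_mod_cast hr0
        rw [div_le_div_iff₀ hr' (by positivity), one_mul, e]
        calc _ ≤ (Nat.gcd q r : ℝ) * (8 * (ψ q * (yy q r : ℝ))) :=
              mul_le_mul_of_nonneg_left h1 hg.le
          _ = _ := by ring
    _ = ∑ p ∈ (S.filter (fun r => dyad ψ q r = j)).image (fun r => (Nat.gcd q r, yy q r)), F p :=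
        (Finset.sum_image fun a _ b _ h => by
          simp only [Prod.mk.injEq] at h
          rw [← hgy a, ← hgy b, h.1, h.2]).symm
    _ ≤ ∑ p ∈ q.divisors ×ˢ Finset.Ioc 0 Y, F p := by
        refine Finset.sum_le_sum_of_subset_of_nonneg (fun p hp => ?_) fun p _ _ => hFnn p
        simp only [Finset.mem_image, Finset.mem_filter] at hp
        obtain ⟨r, ⟨hrS, hrj⟩, rfl⟩ := hp
        obtain ⟨hr0, -, hD⟩ := hS r hrS
        refine Finset.mem_product.2 ⟨Nat.mem_divisors.2 ⟨Nat.gcd_dvd_left q r, hq.ne'⟩,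
          Finset.mem_Ioc.2 ⟨?_, Nat.le_floor ?_⟩⟩
        · exact Nat.pos_of_mul_pos_left ((hgy r).symm ▸ hr0)
        · have h2 := (dyad_spec hD).2
          rw [DD, hrj] at h2
          rw [le_div_iff₀ (by positivity)]
          dsimp only
          linarith
    _ = ∑ g ∈ q.divisors, 8 * ψ q / ((g:ℝ) * 2 ^ j) *
          ((Y:ℝ) * E g + ∑ y ∈ Finset.Ioc 0 Y, E y) := by
        rw [Finset.sum_product]
        refine Finset.sum_congr rfl fun g _ => ?_
        simp only [F, ← Finset.mul_sum, Finset.sum_add_distrib, Finset.sum_const, Nat.card_Ioc,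
          Nat.sub_zero, nsmul_eq_mul]
    _ ≤ ∑ g ∈ q.divisors, 4 * exp 4 * (1 / (g:ℝ) * E g) := by
        refine Finset.sum_le_sum fun g hg => ?_
        have hg0 : (0:ℝ) < g := by exact_mod_cast Nat.pos_of_mem_divisors hg
        have hE : 1 ≤ E g := one_le_exp (mul_nonneg (Nat.cast_nonneg _) (SS_nonneg s g))
        have hY : (Y:ℝ) ≤ 2 ^ (j + 1) / (8 * ψ q) := Nat.floor_le (by positivity)
        have h4 : 1 ≤ exp (4:ℝ) := one_le_exp (by norm_num)
        have hsum : (Y:ℝ) * E g + ∑ y ∈ Finset.Ioc 0 Y, E y ≤ 2 * exp 4 * E g * Y := by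
          have h1 := sum_range_exp_SS_le s Y
          have h2 : (Y:ℝ) * E g ≤ exp 4 * E g * Y := by
            rw [mul_assoc, mul_comm (E g)]
            exact le_mul_of_one_le_left (by positivity) h4
          have h3 : exp 4 * (Y:ℝ) ≤ exp 4 * E g * Y :=
            mul_le_mul_of_nonneg_right (le_mul_of_one_le_right (exp_pos _).le hE)
              (Nat.cast_nonneg _)
          simp only [E] at h1 h2 h3 ⊢
          linarith
        calc _ ≤ 8 * ψ q / ((g:ℝ) * 2 ^ j) * (2 * exp 4 * E g * (2 ^ (j + 1) / (8 * ψ q))) :=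
              mul_le_mul_of_nonneg_left (hsum.trans (mul_le_mul_of_nonneg_left hY
                (by simp only [E]; positivity))) (by positivity)
          _ = 4 * exp 4 * (1 / (g:ℝ) * E g) := by rw [pow_succ]; field_simp; ring
    _ = 4 * exp 4 * ∑ g ∈ q.divisors, 1 / (g:ℝ) * E g := (Finset.mul_sum _ _ _).symm
    _ ≤ _ := by
        rw [mul_assoc (4 * exp 4)]
        exact mul_le_mul_of_nonneg_left (sum_divisors_exp_SS_le s hq) (by positivity)

/-- The sum seen from `r`, one dyadic size. -/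
theorem sum_wB_le {ψ : ℕ → ℝ} {r : ℕ} (hr : 0 < r) (S : Finset ℕ)
    (hS : ∀ q ∈ S, 0 < q ∧ 0 < ψ q ∧ ψ q ≤ 1 / (q:ℝ) ∧ 1 / 8 ≤ DD ψ q r) (j : ℕ) :
    ∑ q ∈ S.filter (fun q => dyad ψ q r = j), ψ q * wB ψ q r
      ≤ 2 * exp 4 * ((r:ℝ) / r.totient) := by
  set s := j + 12
  set E : ℕ → ℝ := fun v => exp ((s:ℝ) * SS s v)
  set X : ℕ → ℕ := fun g => ⌊8 * (r:ℝ) / ((g:ℝ) ^ 2 * 2 ^ j)⌋₊
  set F : (_ : ℕ) × ℕ → ℝ := fun p => 2 ^ (j + 1) * (p.1:ℝ) / (8 * r) * E p.2
  have hFnn : ∀ p, 0 ≤ F p := fun p => by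
    simp only [F, E]; positivity
  have hgx : ∀ q, Nat.gcd q r * xx q r = q := fun q =>
    Nat.mul_div_cancel' (Nat.gcd_dvd_left q r)
  have hgy : ∀ q, (Nat.gcd q r : ℝ) * (yy q r : ℝ) = r := fun q => by
    exact_mod_cast Nat.mul_div_cancel' (Nat.gcd_dvd_right q r)
  have hrR : (0:ℝ) < r := by exact_mod_cast hr
  calc ∑ q ∈ S.filter (fun q => dyad ψ q r = j), ψ q * wB ψ q r
      ≤ ∑ q ∈ S.filter (fun q => dyad ψ q r = j), F ⟨Nat.gcd q r, xx q r⟩ := by
        refine Finset.sum_le_sum fun q hq => ?_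
        simp only [Finset.mem_filter] at hq
        obtain ⟨hqS, rfl⟩ := hq
        obtain ⟨hq0, hψ, -, hD⟩ := hS q hqS
        refine mul_le_mul_of_nonneg_right ?_ (by unfold wB; positivity)
        have h2 := (dyad_spec hD).2
        rw [DD] at h2
        have hg : (0:ℝ) ≤ Nat.gcd q r := Nat.cast_nonneg _
        rw [le_div_iff₀ (by positivity)]
        have := mul_le_mul_of_nonneg_right h2.le hg
        calc ψ q * (8 * r) = 8 * (ψ q * (yy q r : ℝ)) * (Nat.gcd q r : ℝ) := by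
              rw [← hgy q]; ring
          _ ≤ _ := this
    _ = ∑ p ∈ (S.filter (fun q => dyad ψ q r = j)).image
          (fun q => (⟨Nat.gcd q r, xx q r⟩ : (_ : ℕ) × ℕ)), F p :=
        (Finset.sum_image fun a _ b _ h => by
          simp only [Sigma.mk.injEq, heq_eq_eq] at h
          rw [← hgx a, ← hgx b, h.1, h.2]).symm
    _ ≤ ∑ p ∈ r.divisors.sigma (fun g => Finset.Ioc 0 (X g)), F p := by
        refine Finset.sum_le_sum_of_subset_of_nonneg (fun p hp => ?_) fun p _ _ => hFnn p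
        simp only [Finset.mem_image, Finset.mem_filter] at hp
        obtain ⟨q, ⟨hqS, hqj⟩, rfl⟩ := hp
        obtain ⟨hq0, hψ, hψ1, hD⟩ := hS q hqS
        refine Finset.mem_sigma.2 ⟨Nat.mem_divisors.2 ⟨Nat.gcd_dvd_right q r, hr.ne'⟩,
          Finset.mem_Ioc.2 ⟨Nat.pos_of_mul_pos_left ((hgx q).symm ▸ hq0), Nat.le_floor ?_⟩⟩
        dsimp only
        have h1 := (dyad_spec hD).1
        rw [DD, hqj] at h1
        have hg : (0:ℝ) < Nat.gcd q r := by exact_mod_cast Nat.gcd_pos_of_pos_right _ hr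
        have hqR : (0:ℝ) < q := by exact_mod_cast hq0
        have e : (q:ℝ) = (Nat.gcd q r : ℝ) * (xx q r : ℝ) := by exact_mod_cast (hgx q).symm
        have h3 : ψ q * q ≤ 1 := by rw [le_div_iff₀ hqR] at hψ1; exact hψ1
        rw [le_div_iff₀ (by positivity)]
        calc (xx q r : ℝ) * ((Nat.gcd q r : ℝ) ^ 2 * 2 ^ j)
            ≤ (xx q r : ℝ) * ((Nat.gcd q r : ℝ) ^ 2 * (8 * (ψ q * (yy q r : ℝ)))) :=
              mul_le_mul_of_nonneg_left (mul_le_mul_of_nonneg_left h1 (sq_nonneg _))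
                (Nat.cast_nonneg _)
          _ = 8 * ((ψ q * q) * r) := by rw [e, ← hgy q]; ring
          _ ≤ 8 * r := by
              have := mul_le_mul_of_nonneg_right h3 hrR.le
              linarith
    _ = ∑ g ∈ r.divisors, 2 ^ (j + 1) * (g:ℝ) / (8 * r) * ∑ x ∈ Finset.Ioc 0 (X g), E x := by
        rw [Finset.sum_sigma]
        exact Finset.sum_congr rfl fun g _ => by simp only [F, Finset.mul_sum]
    _ ≤ ∑ g ∈ r.divisors, 2 * exp 4 * (1 / (g:ℝ)) := by
        refine Finset.sum_le_sum fun g hg => ?_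
        have hg0 : (0:ℝ) < g := by exact_mod_cast Nat.pos_of_mem_divisors hg
        have hX : (X g:ℝ) ≤ 8 * (r:ℝ) / ((g:ℝ) ^ 2 * 2 ^ j) := Nat.floor_le (by positivity)
        calc _ ≤ 2 ^ (j + 1) * (g:ℝ) / (8 * r) * (exp 4 * (8 * (r:ℝ) / ((g:ℝ) ^ 2 * 2 ^ j))) :=
              mul_le_mul_of_nonneg_left ((sum_range_exp_SS_le s (X g)).trans
                (mul_le_mul_of_nonneg_left hX (exp_pos _).le)) (by positivity)
          _ = 2 * exp 4 * (1 / (g:ℝ)) := by rw [pow_succ]; field_simp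
    _ ≤ _ := by
        rw [← Finset.mul_sum]
        exact mul_le_mul_of_nonneg_left (sum_inv_divisors_le hr) (by positivity)

end Vale.P028EV.CA

namespace Vale.P028EV

open CA

open scoped Classical in
/-- **Case A.** -/
theorem caseA : CaseAStmt := by
  set W := ∑' j, wt j
  have hW : 0 ≤ W := tsum_nonneg wt_nonneg
  set MA := 4 * exp (4:ℝ) * exp 4
  set MB := 2 * exp (4:ℝ)
  set K0 := 160000000 * exp (4:ℝ)
  refine ⟨K0 * (1 + W * MA + W * MB), 0, fun γ ψ C B S hS => ?_⟩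
  have hpos : ∀ q ∈ S, 0 < q ∧ 0 < ψ q ∧ ψ q ≤ 1 / (q:ℝ) := fun q hq => by
    obtain ⟨h1, -, h2, h3⟩ := (hS q hq).1
    have : (0:ℝ) < q := by exact_mod_cast h1
    exact ⟨h1, (Real.rpow_pos_of_pos this _).trans_le h2, h3⟩
  have hlam : ∀ q ∈ S, 0 ≤ lam ψ q := fun q hq => by
    have := (hpos q hq).2.1
    unfold lam; positivity
  set Λ := ∑ q ∈ S, lam ψ q
  have hΛ : 0 ≤ Λ := Finset.sum_nonneg hlam
  set D : ℕ → ℕ → Prop := fun q r => 1 / 8 ≤ DD ψ q r
  set a : ℕ → ℕ → ℝ := fun q r =>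
    lam ψ q * ((q.totient : ℝ) / q) * (wt (dyad ψ q r) * (ψ r * wA ψ q r))
  set b : ℕ → ℕ → ℝ := fun q r =>
    lam ψ r * ((r.totient : ℝ) / r) * (wt (dyad ψ q r) * (ψ q * wB ψ q r))
  have hab : ∀ q ∈ S, ∀ r ∈ S, 0 ≤ a q r ∧ 0 ≤ b q r := fun q hq r hr => by
    have := hlam q hq; have := hlam r hr
    have := (hpos q hq).2.1; have := (hpos r hr).2.1
    have := wt_nonneg (dyad ψ q r)
    simp only [a, b, wA, wB]
    constructor <;> positivity
  have hrat : ∀ q : ℕ, 0 < q → ∀ M : ℝ, ((q.totient : ℝ) / q) * (M * ((q:ℝ) / q.totient)) = M := by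
    intro q hq M
    have : (0:ℝ) < q.totient := by exact_mod_cast Nat.totient_pos.2 hq
    have : (0:ℝ) < q := by exact_mod_cast hq
    field_simp
  have hAq : ∀ q ∈ S, ∑ r ∈ S.filter (D q), a q r ≤ lam ψ q * (W * MA) := by
    intro q hq
    obtain ⟨hq0, hψq, -⟩ := hpos q hq
    simp only [a, ← Finset.mul_sum]
    have h := sum_wt_mul_le (S.filter (D q)) (dyad ψ q) (fun r => ψ r * wA ψ q r)
      (M := MA * ((q:ℝ) / q.totient)) (by positivity)
      (sum_wA_le hq0 hψq _ fun r hr => by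
        obtain ⟨hrS, hD⟩ := Finset.mem_filter.1 hr
        exact ⟨(hpos r hrS).1, (hpos r hrS).2.2, hD⟩)
    refine (mul_le_mul_of_nonneg_left h (mul_nonneg (hlam q hq) (by positivity))).trans_eq ?_
    rw [mul_assoc, ← mul_assoc _ W, mul_comm _ W, mul_assoc W, hrat q hq0]
  have hBr : ∀ r ∈ S, ∑ q ∈ S.filter (fun q => D q r), b q r ≤ lam ψ r * (W * MB) := by
    intro r hr
    obtain ⟨hr0, hψr, -⟩ := hpos r hr
    simp only [b, ← Finset.mul_sum]
    have h := sum_wt_mul_le (S.filter (fun q => D q r)) (fun q => dyad ψ q r)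
      (fun q => ψ q * wB ψ q r) (M := MB * ((r:ℝ) / r.totient)) (by positivity)
      (sum_wB_le hr0 _ fun q hq => by
        obtain ⟨hqS, hD⟩ := Finset.mem_filter.1 hq
        exact ⟨(hpos q hqS).1, (hpos q hqS).2.1, (hpos q hqS).2.2, hD⟩)
    refine (mul_le_mul_of_nonneg_left h (mul_nonneg (hlam r hr) (by positivity))).trans_eq ?_
    rw [mul_assoc, ← mul_assoc _ W, mul_comm _ W, mul_assoc W, hrat r hr0]
  calc ∑ q ∈ S, ∑ r ∈ S.filter (fun r => r ≠ q ∧ ψ r / r ≤ ψ q / q ∧ 1/8 ≤ DD ψ q r),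
        ov γ ψ C B q r
      ≤ ∑ q ∈ S, ∑ r ∈ S.filter (D q), K0 * (lam ψ q * lam ψ r + a q r + b q r) := by
        refine Finset.sum_le_sum fun q hq => ?_
        obtain ⟨hq0, hψq, -⟩ := hpos q hq
        refine (Finset.sum_le_sum fun r hr => ?_).trans
          (Finset.sum_le_sum_of_subset_of_nonneg ?_ fun r hr _ => ?_)
        · obtain ⟨hrS, -, -, hD⟩ := Finset.mem_filter.1 hr
          exact ov_split C B hq0 (hpos r hrS).1 hψq.le (hpos r hrS).2.1.le hD
        · exact fun r hr => by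
            obtain ⟨hrS, -, -, hD⟩ := Finset.mem_filter.1 hr
            exact Finset.mem_filter.2 ⟨hrS, hD⟩
        · have hrS := (Finset.mem_filter.1 hr).1
          have := mul_nonneg (hlam q hq) (hlam r hrS)
          have := hab q hq r hrS
          exact mul_nonneg (by positivity) (by linarith [this.1, this.2])
    _ = K0 * ((∑ q ∈ S, ∑ r ∈ S.filter (D q), lam ψ q * lam ψ r) +
          (∑ q ∈ S, ∑ r ∈ S.filter (D q), a q r) +
          ∑ r ∈ S, ∑ q ∈ S.filter (fun q => D q r), b q r) := by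
        rw [Finset.sum_comm' (s := S) (t := fun r => S.filter (fun q => D q r))
          (t' := S) (s' := fun q => S.filter (D q)) (by
            intro x y; simp only [Finset.mem_filter]; tauto)]
        simp only [← Finset.mul_sum, Finset.sum_add_distrib]
    _ ≤ K0 * (Λ * Λ + Λ * (W * MA) + Λ * (W * MB)) := by
        refine mul_le_mul_of_nonneg_left (add_le_add (add_le_add ?_ ?_) ?_) (by positivity)
        · rw [Finset.sum_mul_sum]
          exact Finset.sum_le_sum fun q hq =>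
            Finset.sum_le_sum_of_subset_of_nonneg (Finset.filter_subset _ _) fun r hr _ =>
              mul_nonneg (hlam q hq) (hlam r hr)
        · rw [Finset.sum_mul]
          exact Finset.sum_le_sum hAq
        · rw [Finset.sum_mul]
          exact Finset.sum_le_sum hBr
    _ ≤ K0 * ((1 + W * MA + W * MB) * (1 + Λ) ^ 2) := by
        have h1 : Λ ≤ (1 + Λ) ^ 2 := by nlinarith
        have h2 : Λ * Λ ≤ (1 + Λ) ^ 2 := by nlinarith
        have h3 := mul_le_mul_of_nonneg_right h1 (show 0 ≤ W * MA by positivity)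
        have h4 := mul_le_mul_of_nonneg_right h1 (show 0 ≤ W * MB by positivity)
        refine mul_le_mul_of_nonneg_left ?_ (by positivity)
        linarith
    _ = _ := by ring

end Vale.P028EV
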