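import Vale.Agent.P028.EV.Defs

/-! # P028: case B assembled from the two sides and the special pairs -/

namespace Vale.P028EV

open scoped Classical in
theorem nn_le_gcd (C : ℕ → ℤ) (B : ℕ → ℕ) {q : ℕ} (r : ℕ) (hq : 0 < q) (n : ℤ) :
    Nn C B q r n ≤ Nat.gcd q r := by
  have hg : 0 < Nat.gcd q r := Nat.gcd_pos_of_pos_left r hq
  have hx : 0 < xx q r :=
    Nat.div_pos (Nat.le_of_dvd hq (Nat.gcd_dvd_left q r)) hg
  have hgx : Nat.gcd q r * xx q r = q := Nat.mul_div_cancel' (Nat.gcd_dvd_left q r)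
  have hcop : IsCoprime (xx q r : ℤ) (yy q r : ℤ) :=
    Int.isCoprime_iff_nat_coprime.mpr (by
      rw [Int.natAbs_natCast, Int.natAbs_natCast]; exact Nat.coprime_div_gcd_div_gcd hg)
  unfold Nn
  refine (Finset.card_le_card_of_injOn (fun a : ℕ => a / xx q r) (fun a ha => ?_) ?_).trans
    (Finset.card_range (Nat.gcd q r)).le
  · simp only [Finset.mem_coe, Finset.mem_range, Finset.mem_filter] at ha ⊢
    rw [Nat.div_lt_iff_lt_mul hx, hgx]
    exact ha.1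
  · intro a ha a' ha' he
    simp only [Finset.mem_coe, Finset.mem_range, Finset.mem_filter] at ha ha'
    obtain ⟨-, -, b, hb, -⟩ := ha
    obtain ⟨-, -, b', hb', -⟩ := ha'
    have hd : (xx q r : ℤ) ∣ ((a:ℤ) - a') := by
      refine hcop.dvd_of_dvd_mul_right ⟨b - b', ?_⟩
      linear_combination hb - hb'
    have hm : a % xx q r = a' % xx q r :=
      (Nat.modEq_iff_dvd.mpr hd : Nat.ModEq (xx q r) a' a).symm
    simp only at he
    calc a = a % xx q r + xx q r * (a / xx q r) := (Nat.mod_add_div a (xx q r)).symm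
      _ = a' % xx q r + xx q r * (a' / xx q r) := by rw [hm, he]
      _ = a' := Nat.mod_add_div a' (xx q r)

open scoped Classical in
theorem card_nset_le (γ : ℝ) (ψ : ℕ → ℝ) (q r : ℕ) (hD : DD ψ q r < 1/8) :
    (nset γ ψ q r).card ≤ 1 := by
  refine Finset.card_le_one.mpr fun a ha b hb => ?_
  simp only [nset, Finset.mem_filter] at ha hb
  have h1 := abs_lt.mp ha.2
  have h2 := abs_lt.mp hb.2
  have c1 : (a:ℝ) < b + 1 := by linarith
  have c2 : (b:ℝ) < a + 1 := by linarith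
  have d1 : a < b + 1 := by exact_mod_cast c1
  have d2 : b < a + 1 := by exact_mod_cast c2
  omega

theorem dvd_gcd_mul {q g x : ℕ} (h : g * x = q) {p : ℕ} (hp : p ∣ x) (hq : 0 < q)
    (hpp : p.Prime) : p ∈ q.primeFactors := by
  exact Nat.mem_primeFactors.mpr ⟨hpp, h ▸ hp.trans (dvd_mul_left x g), hq.ne'⟩

open scoped Classical in
/-- the kill lemma for the first modulus -/
theorem nn_eq_zero_left {γ : ℝ} {ψ : ℕ → ℝ} {C : ℕ → ℤ} {B : ℕ → ℕ} {q r : ℕ} (hq : 0 < q)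
    (hA : Approx γ ψ C B q) (hx : 2 ≤ xx q r) {n : ℤ}
    (hn : n * (B q : ℤ) = mm q r * C q) : Nn C B q r n = 0 := by
  unfold Nn
  rw [Finset.card_eq_zero, Finset.filter_eq_empty_iff]
  rintro a - ⟨hsel, b, hb, -⟩
  obtain ⟨p, hp, hpx⟩ := Nat.exists_prime_and_dvd (show xx q r ≠ 1 by omega)
  have hg : 0 < Nat.gcd q r := Nat.gcd_pos_of_pos_left r hq
  have hgx : Nat.gcd q r * xx q r = q := Nat.mul_div_cancel' (Nat.gcd_dvd_left q r)
  have hpq := dvd_gcd_mul hgx hpx hq hp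
  have hcop : Nat.Coprime (xx q r) (yy q r) := Nat.coprime_div_gcd_div_gcd hg
  have hpy : IsCoprime (p:ℤ) (yy q r : ℤ) :=
    Int.isCoprime_iff_nat_coprime.mpr
      (by simpa using Nat.Coprime.coprime_dvd_left hpx hcop)
  have e : (yy q r : ℤ) * ((a:ℤ) * (B q:ℤ) + C q) = (xx q r : ℤ) * (b * (B q:ℤ) + C q) := by
    rw [← hb] at hn
    simp only [mm] at hn
    linear_combination hn
  have h1 : (p:ℤ) ∣ (a:ℤ) * (B q:ℤ) + C q := by
    refine hpy.dvd_of_dvd_mul_left ?_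
    rw [e]
    exact dvd_mul_of_dvd_left (Int.natCast_dvd_natCast.mpr hpx) _
  obtain ⟨s1, s2⟩ := hsel p hpq
  by_cases hB : p ∣ B q
  · have h2 : (p:ℤ) ∣ C q :=
      (Int.dvd_add_right (dvd_mul_of_dvd_right (Int.natCast_dvd_natCast.mpr hB) _)).mp h1
    exact (Nat.prime_iff_prime_int.mp hp).not_unit
      (hA.cop.isUnit_of_dvd' h2 (Int.natCast_dvd_natCast.mpr hB))
  · exact s2 hB h1

open scoped Classical in
/-- the kill lemma for the second modulus -/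
theorem nn_eq_zero_right {γ : ℝ} {ψ : ℕ → ℝ} {C : ℕ → ℤ} {B : ℕ → ℕ} {q r : ℕ} (hr : 0 < r)
    (hA : Approx γ ψ C B r) (hy : 2 ≤ yy q r) {n : ℤ}
    (hn : n * (B r : ℤ) = mm q r * C r) : Nn C B q r n = 0 := by
  unfold Nn
  rw [Finset.card_eq_zero, Finset.filter_eq_empty_iff]
  rintro a - ⟨-, b, hb, hsel⟩
  obtain ⟨p, hp, hpy⟩ := Nat.exists_prime_and_dvd (show yy q r ≠ 1 by omega)
  have hg : 0 < Nat.gcd q r := Nat.gcd_pos_of_pos_right q hr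
  have hgy : Nat.gcd q r * yy q r = r := Nat.mul_div_cancel' (Nat.gcd_dvd_right q r)
  have hpr := dvd_gcd_mul hgy hpy hr hp
  have hcop : Nat.Coprime (xx q r) (yy q r) := Nat.coprime_div_gcd_div_gcd hg
  have hpx : IsCoprime (p:ℤ) (xx q r : ℤ) :=
    Int.isCoprime_iff_nat_coprime.mpr
      (by simpa using Nat.Coprime.coprime_dvd_left hpy hcop.symm)
  have e : (yy q r : ℤ) * ((a:ℤ) * (B r:ℤ) + C r) = (xx q r : ℤ) * (b * (B r:ℤ) + C r) := by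
    rw [← hb] at hn
    simp only [mm] at hn
    linear_combination hn
  have h1 : (p:ℤ) ∣ b * (B r:ℤ) + C r := by
    refine hpx.dvd_of_dvd_mul_left ?_
    rw [← e]
    exact dvd_mul_of_dvd_left (Int.natCast_dvd_natCast.mpr hpy) _
  obtain ⟨s1, s2⟩ := hsel p hpr
  by_cases hB : p ∣ B r
  · have h2 : (p:ℤ) ∣ C r :=
      (Int.dvd_add_right (dvd_mul_of_dvd_right (Int.natCast_dvd_natCast.mpr hB) _)).mp h1
    exact (Nat.prime_iff_prime_int.mp hp).not_unit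
      (hA.cop.isUnit_of_dvd' h2 (Int.natCast_dvd_natCast.mpr hB))
  · exact s2 hB h1

/-- a short vector is a multiple of the attached fraction -/
theorem short_eq {γ D : ℝ} {C : ℤ} {B : ℕ} {n m : ℤ} {M : ℝ}
    (hn : |(n:ℝ) - (m:ℝ) * γ| < 2 * D) (hm : |(m:ℝ)| ≤ M)
    (h : 2 * D * B + M * |(B:ℝ) * γ - C| < 1) : n * (B:ℤ) = m * C := by
  have e : ((n * (B:ℤ) - m * C : ℤ) : ℝ)
      = ((n:ℝ) - (m:ℝ) * γ) * B + (m:ℝ) * ((B:ℝ) * γ - C) := by push_cast; ring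
  have hb : |((n * (B:ℤ) - m * C : ℤ) : ℝ)| < 1 := by
    rw [e]
    refine lt_of_le_of_lt (abs_add_le _ _) (lt_of_le_of_lt ?_ h)
    rw [abs_mul, abs_mul, Nat.abs_cast]
    exact add_le_add (mul_le_mul_of_nonneg_right hn.le (Nat.cast_nonneg B))
      (mul_le_mul_of_nonneg_right hm (abs_nonneg _))
  have : |n * (B:ℤ) - m * C| < 1 := by exact_mod_cast hb
  have := abs_eq_zero.mp (show |n * (B:ℤ) - m * C| = 0 by
    have := abs_nonneg (n * (B:ℤ) - m * C); omega)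
  linarith

/-- consequences of admissibility for an ordered pair -/
theorem q_le_rpow {Q0 : ℕ} {ψ : ℕ → ℝ} {q r : ℕ} (hq : Adm Q0 ψ q) (hr : Adm Q0 ψ r)
    (hle : ψ r / r ≤ ψ q / q) : (q:ℝ) ≤ (r:ℝ) ^ (1 + 1/200 : ℝ) := by
  have hqR : (0:ℝ) < q := by exact_mod_cast hq.1
  have hrR : (0:ℝ) < r := by exact_mod_cast hr.1
  have h1 : (r:ℝ) ^ (-(1 + 1/100 : ℝ)) / r ≤ 1 / (q:ℝ) ^ (2:ℕ) := by
    calc (r:ℝ) ^ (-(1 + 1/100 : ℝ)) / r ≤ ψ r / r := by gcongr; exact hr.2.2.1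
      _ ≤ ψ q / q := hle
      _ ≤ (1 / q) / q := by gcongr; exact hq.2.2.2
      _ = _ := by rw [sq, div_div]
  have h2 : (q:ℝ) ^ (2:ℕ) ≤ (r:ℝ) ^ (2 + 1/100 : ℝ) := by
    rw [div_le_div_iff₀ hrR (by positivity)] at h1
    have e : (r:ℝ) ^ (2 + 1/100 : ℝ) * ((r:ℝ) ^ (-(1 + 1/100 : ℝ))) = r := by
      rw [← Real.rpow_add hrR]; norm_num
    have hp : 0 < (r:ℝ) ^ (-(1 + 1/100 : ℝ)) := Real.rpow_pos_of_pos hrR _
    nlinarith
  have h3 : ((q:ℝ) ^ (2:ℕ)) ^ (1/2 : ℝ) ≤ ((r:ℝ) ^ (2 + 1/100 : ℝ)) ^ (1/2 : ℝ) :=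
    Real.rpow_le_rpow (by positivity) h2 (by norm_num)
  rw [← Real.rpow_natCast, ← Real.rpow_mul hqR.le, ← Real.rpow_mul hrR.le] at h3
  norm_num at h3 ⊢
  exact h3

theorem rpow_lt_of_pow_lt {q r : ℕ} (h : r ^ 9 < q ^ 10) : (r:ℝ) ^ (9/10 : ℝ) ≤ q := by
  have h' : (r:ℝ) ^ (9:ℕ) ≤ (q:ℝ) ^ (10:ℕ) := by exact_mod_cast h.le
  have h3 := Real.rpow_le_rpow (by positivity) h' (show (0:ℝ) ≤ 1/10 by norm_num)
  rw [← Real.rpow_natCast, ← Real.rpow_natCast, ← Real.rpow_mul (Nat.cast_nonneg r),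
    ← Real.rpow_mul (Nat.cast_nonneg q)] at h3
  norm_num at h3 ⊢
  exact h3

theorem rpow_ge_of_le_pow {q r : ℕ} (h : q ^ 10 ≤ r ^ 9) : (q:ℝ) ≤ (r:ℝ) ^ (9/10 : ℝ) := by
  have h' : (q:ℝ) ^ (10:ℕ) ≤ (r:ℝ) ^ (9:ℕ) := by exact_mod_cast h
  have h3 := Real.rpow_le_rpow (by positivity) h' (show (0:ℝ) ≤ 1/10 by norm_num)
  rw [← Real.rpow_natCast, ← Real.rpow_natCast, ← Real.rpow_mul (Nat.cast_nonneg q),
    ← Real.rpow_mul (Nat.cast_nonneg r)] at h3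
  norm_num at h3 ⊢
  exact h3

theorem sqrt_psi_le {Q0 : ℕ} {ψ : ℕ → ℝ} {q : ℕ} (hq : Adm Q0 ψ q) :
    Real.sqrt (ψ q) ≤ (q:ℝ) ^ (-(1/2) : ℝ) := by
  have hqR : (0:ℝ) < q := by exact_mod_cast hq.1
  rw [Real.sqrt_eq_rpow]
  calc ψ q ^ (1/2 : ℝ) ≤ (1 / (q:ℝ)) ^ (1/2 : ℝ) :=
        Real.rpow_le_rpow ((Real.rpow_nonneg hqR.le _).trans hq.2.2.1) hq.2.2.2 (by norm_num)
    _ = _ := by rw [one_div (q:ℝ), Real.inv_rpow hqR.le, ← Real.rpow_neg hqR.le]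

theorem B_le_rpow {Q0 : ℕ} {γ : ℝ} {ψ : ℕ → ℝ} {C : ℕ → ℤ} {B : ℕ → ℕ} {q : ℕ}
    (hq : Adm Q0 ψ q) (hA : Approx γ ψ C B q) :
    (B q : ℝ) ≤ 2 * (q:ℝ) ^ (101/200 : ℝ) := by
  have hqR : (0:ℝ) < q := by exact_mod_cast hq.1
  have h1 : (q:ℝ) ^ (-(101/200) : ℝ) ≤ Real.sqrt (ψ q) := by
    rw [Real.sqrt_eq_rpow]
    calc (q:ℝ) ^ (-(101/200) : ℝ) = ((q:ℝ) ^ (-(1 + 1/100 : ℝ))) ^ (1/2 : ℝ) := by
          rw [← Real.rpow_mul hqR.le]; norm_num
      _ ≤ _ := Real.rpow_le_rpow (Real.rpow_nonneg hqR.le _) hq.2.2.1 (by norm_num)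
  have h2 : (B q : ℝ) * (q:ℝ) ^ (-(101/200) : ℝ) ≤ 2 :=
    (mul_le_mul_of_nonneg_left h1 (Nat.cast_nonneg _)).trans hA.B_le
  rw [Real.rpow_neg hqR.le, ← div_eq_mul_inv, div_le_iff₀ (Real.rpow_pos_of_pos hqR _)] at h2
  exact h2

open scoped Classical in
/-- outside the first range a pair that counts lies in the main range -/
theorem pb_of_ne_zero {γ : ℝ} {ψ : ℕ → ℝ} {C : ℕ → ℤ} {B : ℕ → ℕ} {q r : ℕ}
    (hq : Adm 2000 ψ q) (hr : Adm 2000 ψ r) (hAq : Approx γ ψ C B q) (hAr : Approx γ ψ C B r)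
    (hne : r ≠ q) (hle : ψ r / r ≤ ψ q / q) (hD : DD ψ q r < 1/8) (hbig : r ^ 9 < q ^ 10)
    (hov : ov γ ψ C B q r ≠ 0) : PB γ ψ C B q r := by
  have hqR : (0:ℝ) < q := by exact_mod_cast hq.1
  have hrR : (0:ℝ) < r := by exact_mod_cast hr.1
  have hsum : ∑ n ∈ nset γ ψ q r, (Nn C B q r n : ℝ) ≠ 0 := fun h0 => hov (by simp [ov, h0])
  obtain ⟨n, hn, hn0⟩ := Finset.exists_ne_zero_of_sum_ne_zero hsum
  have hn0' : Nn C B q r n ≠ 0 := by exact_mod_cast hn0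
  have hnlt : |(n:ℝ) - (mm q r : ℝ) * γ| < 2 * DD ψ q r := by
    simp only [nset, Finset.mem_filter] at hn; exact hn.2
  have hg : 0 < Nat.gcd q r := Nat.gcd_pos_of_pos_left r hq.1
  have hxpos : 0 < xx q r := Nat.div_pos (Nat.le_of_dvd hq.1 (Nat.gcd_dvd_left q r)) hg
  have hypos : 0 < yy q r := Nat.div_pos (Nat.le_of_dvd hr.1 (Nat.gcd_dvd_right q r)) hg
  have hgx : Nat.gcd q r * xx q r = q := Nat.mul_div_cancel' (Nat.gcd_dvd_left q r)
  have hgy : Nat.gcd q r * yy q r = r := Nat.mul_div_cancel' (Nat.gcd_dvd_right q r)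
  have hψq : 0 < ψ q := lt_of_lt_of_le (Real.rpow_pos_of_pos hqR _) hq.2.2.1
  have hψr : 0 < ψ r := lt_of_lt_of_le (Real.rpow_pos_of_pos hrR _) hr.2.2.1
  have hr1 : (1:ℝ) ≤ r := by exact_mod_cast hr.1
  have hsmall : (r:ℝ) ^ (-(1/4) : ℝ) ≤ 1/6 := by
    have h1 : (2000:ℝ) ≤ r := by exact_mod_cast hr.2.1
    have h2 : (2000:ℝ) ^ (1/4 : ℝ) ≤ (r:ℝ) ^ (1/4 : ℝ) :=
      Real.rpow_le_rpow (by norm_num) h1 (by norm_num)
    have h3 : (6:ℝ) ≤ (2000:ℝ) ^ (1/4 : ℝ) := by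
      have e : ((6:ℝ) ^ (4:ℕ)) ^ (1/4 : ℝ) = 6 := by
        rw [← Real.rpow_natCast, ← Real.rpow_mul (by norm_num)]; norm_num
      calc (6:ℝ) = ((6:ℝ) ^ (4:ℕ)) ^ (1/4 : ℝ) := e.symm
        _ ≤ _ := Real.rpow_le_rpow (by norm_num) (by norm_num) (by norm_num)
    rw [Real.rpow_neg hrR.le, inv_le_comm₀ (Real.rpow_pos_of_pos hrR _) (by norm_num)]
    linarith
  have hmle : |(mm q r : ℝ)| ≤ max (xx q r : ℝ) (yy q r : ℝ) := by
    have h0 : (0:ℝ) ≤ xx q r := Nat.cast_nonneg _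
    have h0' : (0:ℝ) ≤ yy q r := Nat.cast_nonneg _
    simp only [mm]; push_cast
    rw [abs_le]
    constructor <;> linarith [le_max_left (xx q r : ℝ) (yy q r : ℝ),
      le_max_right (xx q r : ℝ) (yy q r : ℝ)]
  have hy2 : 2 ≤ yy q r := by
    by_contra hy
    have hy1 : yy q r = 1 := by omega
    have hrg : Nat.gcd q r = r := by rw [hy1, mul_one] at hgy; exact hgy
    have hqe : (q:ℝ) = (r:ℝ) * xx q r := by
      rw [hrg] at hgx; exact_mod_cast hgx.symm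
    have hx2 : 2 ≤ xx q r := by
      by_contra hx
      have hx1 : xx q r = 1 := by omega
      rw [hx1, mul_one] at hgx
      omega
    refine hn0' (nn_eq_zero_left hq.1 hAq hx2 (short_eq hnlt hmle ?_))
    rw [hy1, Nat.cast_one, max_eq_left (by exact_mod_cast (by omega : 1 ≤ xx q r))]
    have hsq := sqrt_psi_le hq
    have hs0 : 0 ≤ Real.sqrt (ψ q) := Real.sqrt_nonneg _
    have b1 : 2 * DD ψ q r * (B q:ℝ) ≤ 4 * Real.sqrt (ψ q) := by
      simp only [DD, hy1, Nat.cast_one, mul_one]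
      calc 2 * ψ q * (B q:ℝ) = 2 * Real.sqrt (ψ q) * ((B q:ℝ) * Real.sqrt (ψ q)) := by
            nlinarith [Real.mul_self_sqrt hψq.le]
        _ ≤ 2 * Real.sqrt (ψ q) * 2 := mul_le_mul_of_nonneg_left hAq.B_le (by positivity)
        _ = _ := by ring
    have hxb : (xx q r : ℝ) ≤ (r:ℝ) ^ (1/200 : ℝ) := by
      have h := q_le_rpow hq hr hle
      rw [hqe, Real.rpow_add hrR, Real.rpow_one] at h
      exact le_of_mul_le_mul_left h hrR
    have hqr : (r:ℝ) ≤ q := by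
      rw [hqe]; exact le_mul_of_one_le_right hrR.le (by exact_mod_cast hxpos)
    have hq12 : Real.sqrt (ψ q) ≤ (r:ℝ) ^ (-(1/2) : ℝ) :=
      hsq.trans (Real.rpow_le_rpow_of_nonpos hrR hqr (by norm_num))
    have h5 : (4:ℝ) + (r:ℝ) ^ (1/200 : ℝ) ≤ 5 * (r:ℝ) ^ (1/200 : ℝ) := by
      have := Real.one_le_rpow hr1 (show (0:ℝ) ≤ 1/200 by norm_num)
      linarith
    calc 2 * DD ψ q r * (B q:ℝ) + (xx q r : ℝ) * |(B q:ℝ) * γ - C q|
        ≤ 4 * Real.sqrt (ψ q) + (r:ℝ) ^ (1/200 : ℝ) * Real.sqrt (ψ q) :=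
          add_le_add b1 (mul_le_mul hxb hAq.eps_le (abs_nonneg _) (by positivity))
      _ = (4 + (r:ℝ) ^ (1/200 : ℝ)) * Real.sqrt (ψ q) := by ring
      _ ≤ 5 * (r:ℝ) ^ (1/200 : ℝ) * (r:ℝ) ^ (-(1/2) : ℝ) :=
          mul_le_mul h5 hq12 hs0 (by positivity)
      _ = 5 * (r:ℝ) ^ (-(99/200) : ℝ) := by rw [mul_assoc, ← Real.rpow_add hrR]; norm_num
      _ ≤ 5 * (r:ℝ) ^ (-(1/4) : ℝ) :=
          mul_le_mul_of_nonneg_left (Real.rpow_le_rpow_of_exponent_le hr1 (by norm_num))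
            (by norm_num)
      _ < 1 := by linarith
  have hr_kill : n * (B r : ℤ) ≠ mm q r * C r :=
    fun h => hn0' (nn_eq_zero_right hr.1 hAr hy2 h)
  have hx2 : 2 ≤ xx q r := by
    by_contra hx
    have hx1 : xx q r = 1 := by omega
    refine hr_kill (short_eq hnlt hmle ?_)
    rw [hx1, Nat.cast_one, max_eq_right (by exact_mod_cast (by omega : 1 ≤ yy q r))]
    have hqg : Nat.gcd q r = q := by rw [hx1, mul_one] at hgx; exact hgx
    have hre : (r:ℝ) = (q:ℝ) * yy q r := by rw [hqg] at hgy; exact_mod_cast hgy.symm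
    have hq9 := rpow_lt_of_pow_lt hbig
    have hyb : (yy q r : ℝ) ≤ (r:ℝ) ^ (1/10 : ℝ) := by
      have h : (r:ℝ) ^ (9/10 : ℝ) * yy q r ≤ r :=
        (mul_le_mul_of_nonneg_right hq9 (Nat.cast_nonneg _)).trans_eq hre.symm
      have e : (r:ℝ) ^ (9/10 : ℝ) * (r:ℝ) ^ (1/10 : ℝ) = r := by
        rw [← Real.rpow_add hrR]; norm_num
      exact le_of_mul_le_mul_left (h.trans_eq e.symm) (Real.rpow_pos_of_pos hrR _)
    have hψq' : ψ q ≤ (r:ℝ) ^ (-(9/10) : ℝ) := by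
      refine hq.2.2.2.trans ?_
      rw [Real.rpow_neg hrR.le, one_div]
      exact inv_anti₀ (Real.rpow_pos_of_pos hrR _) hq9
    have b1 : 2 * DD ψ q r * (B r:ℝ) ≤ 4 * (r:ℝ) ^ (-(59/200) : ℝ) := by
      simp only [DD]
      calc 2 * (ψ q * (yy q r : ℝ)) * (B r:ℝ)
          ≤ 2 * ((r:ℝ) ^ (-(9/10) : ℝ) * (r:ℝ) ^ (1/10 : ℝ)) * (2 * (r:ℝ) ^ (101/200 : ℝ)) := by
            gcongr
            exact B_le_rpow hr hAr
        _ = 4 * ((r:ℝ) ^ (-(9/10) : ℝ) * (r:ℝ) ^ (1/10 : ℝ) * (r:ℝ) ^ (101/200 : ℝ)) := by ring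
        _ = _ := by rw [← Real.rpow_add hrR, ← Real.rpow_add hrR]; norm_num
    have b2 : (yy q r : ℝ) * |(B r:ℝ) * γ - C r| ≤ (r:ℝ) ^ (-(2/5) : ℝ) := by
      calc (yy q r : ℝ) * |(B r:ℝ) * γ - C r| ≤ (r:ℝ) ^ (1/10 : ℝ) * (r:ℝ) ^ (-(1/2) : ℝ) :=
            mul_le_mul hyb (hAr.eps_le.trans (sqrt_psi_le hr)) (abs_nonneg _) (by positivity)
        _ = _ := by rw [← Real.rpow_add hrR]; norm_num
    have c1 : (r:ℝ) ^ (-(59/200) : ℝ) ≤ (r:ℝ) ^ (-(1/4) : ℝ) :=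
      Real.rpow_le_rpow_of_exponent_le hr1 (by norm_num)
    have c2 : (r:ℝ) ^ (-(2/5) : ℝ) ≤ (r:ℝ) ^ (-(1/4) : ℝ) :=
      Real.rpow_le_rpow_of_exponent_le hr1 (by norm_num)
    linarith
  exact ⟨hD, hbig, hle, hx2, hy2, n, hnlt,
    fun h => hn0' (nn_eq_zero_left hq.1 hAq hx2 h), hr_kill⟩

open scoped Classical in
/-- the range of much smaller first moduli -/
theorem small_range (hT : TauStmt) (hTT : TotTauStmt) :
    ∃ K : ℝ, 0 ≤ K ∧ ∀ (ψ : ℕ → ℝ) (S : Finset ℕ) (r : ℕ), 0 < r → 0 ≤ ψ r →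
      (∀ q ∈ S, 0 < q) →
      ∑ q ∈ S.filter (fun q => q ^ 10 ≤ r ^ 9), 2 * (Nat.gcd q r : ℝ) * ψ r / r
        ≤ K * lam ψ r := by
  obtain ⟨K, hK0, hK⟩ := hT (1/20) (by norm_num)
  refine ⟨2 * K ^ 2, by positivity, fun ψ S r hr hψ hS => ?_⟩
  have hrR : (0:ℝ) < r := by exact_mod_cast hr
  set F := S.filter (fun q => q ^ 10 ≤ r ^ 9) with hF
  have hsum : ∑ q ∈ F, (Nat.gcd q r : ℝ) ≤ (r.divisors.card : ℝ) * (r:ℝ) ^ (9/10 : ℝ) := by
    rw [← Finset.sum_fiberwise_of_maps_to (g := fun q => Nat.gcd q r) (t := r.divisors)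
      (fun q _ => Nat.mem_divisors.mpr ⟨Nat.gcd_dvd_right q r, hr.ne'⟩)]
    calc _ ≤ ∑ g ∈ r.divisors, (r:ℝ) ^ (9/10 : ℝ) := Finset.sum_le_sum fun g hg => ?_
      _ = _ := by rw [Finset.sum_const, nsmul_eq_mul]
    have hgpos : 0 < g := Nat.pos_of_mem_divisors hg
    have hgR : (0:ℝ) < g := by exact_mod_cast hgpos
    rw [Finset.sum_congr rfl (fun q hq => by rw [(Finset.mem_filter.mp hq).2]),
      Finset.sum_const, nsmul_eq_mul]
    have hc : (F.filter (fun q => Nat.gcd q r = g)).card ≤ ⌊(r:ℝ) ^ (9/10 : ℝ) / g⌋₊ := by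
      refine (Finset.card_le_card_of_injOn (fun q => q / g)
        (t := Finset.Icc 1 ⌊(r:ℝ) ^ (9/10 : ℝ) / g⌋₊) (fun q hq => ?_) ?_).trans (by simp)
      · obtain ⟨hqF, hqg⟩ := Finset.mem_filter.mp hq
        obtain ⟨hqS, hq10⟩ := Finset.mem_filter.mp hqF
        have hdvd : g ∣ q := hqg ▸ Nat.gcd_dvd_left q r
        simp only [Finset.mem_coe, Finset.mem_Icc]
        refine ⟨Nat.div_pos (Nat.le_of_dvd (hS q hqS) hdvd) hgpos, Nat.le_floor ?_⟩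
        rw [Nat.cast_div hdvd hgR.ne']
        exact div_le_div_of_nonneg_right (rpow_ge_of_le_pow hq10) hgR.le
      · intro a ha b hb he
        have da : g ∣ a := (Finset.mem_filter.mp ha).2 ▸ Nat.gcd_dvd_left a r
        have db : g ∣ b := (Finset.mem_filter.mp hb).2 ▸ Nat.gcd_dvd_left b r
        calc a = g * (a / g) := (Nat.mul_div_cancel' da).symm
          _ = g * (b / g) := by simp only at he; rw [he]
          _ = b := Nat.mul_div_cancel' db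
    calc ((F.filter (fun q => Nat.gcd q r = g)).card : ℝ) * g
        ≤ (r:ℝ) ^ (9/10 : ℝ) / g * g :=
          mul_le_mul_of_nonneg_right
            (le_trans (by exact_mod_cast hc) (Nat.floor_le (by positivity))) hgR.le
      _ = _ := div_mul_cancel₀ _ hgR.ne'
  have h1 : (r.divisors.card : ℝ) ^ 2 * (r:ℝ) ^ (9/10 : ℝ) ≤ K ^ 2 * r := by
    calc (r.divisors.card : ℝ) ^ 2 * (r:ℝ) ^ (9/10 : ℝ)
        ≤ (K * (r:ℝ) ^ (1/20 : ℝ)) ^ 2 * (r:ℝ) ^ (9/10 : ℝ) := by gcongr; exact hK r hr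
      _ = K ^ 2 * ((r:ℝ) ^ (1/10 : ℝ) * (r:ℝ) ^ (9/10 : ℝ)) := by
          rw [mul_pow, ← Real.rpow_natCast ((r:ℝ) ^ (1/20 : ℝ)) 2, ← Real.rpow_mul hrR.le]
          norm_num; ring
      _ = _ := by rw [← Real.rpow_add hrR]; norm_num
  have h2 : (r.divisors.card : ℝ) * (r:ℝ) ^ (9/10 : ℝ) ≤ K ^ 2 * (Nat.totient r : ℝ) := by
    have hτ : (1:ℝ) ≤ r.divisors.card := by
      exact_mod_cast Finset.card_pos.mpr ⟨1, Nat.one_mem_divisors.mpr hr.ne'⟩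
    have := mul_le_mul_of_nonneg_left (hTT r hr) (sq_nonneg K)
    nlinarith
  calc ∑ q ∈ F, 2 * (Nat.gcd q r : ℝ) * ψ r / r
      = 2 * ψ r / r * ∑ q ∈ F, (Nat.gcd q r : ℝ) := by
        rw [Finset.mul_sum]; exact Finset.sum_congr rfl fun q _ => by ring
    _ ≤ 2 * ψ r / r * (K ^ 2 * (Nat.totient r : ℝ)) :=
        mul_le_mul_of_nonneg_left (hsum.trans h2) (by positivity)
    _ = _ := by unfold lam; ring

open scoped Classical in
/-- Module `CaseB`. -/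
theorem caseB (hQ : SideQStmt) (hR : SideRStmt) (hS : SpecialStmt) (hT : TauStmt)
    (hTT : TotTauStmt) : CaseBStmt := by
  obtain ⟨K1, Q1, h1⟩ := hQ
  obtain ⟨K2, Q2, h2⟩ := hR
  obtain ⟨K3, Q3, h3⟩ := hS
  obtain ⟨K4, hK4, h4⟩ := small_range hT hTT
  refine ⟨|K1| + |K2| + |K3| + K4, max (max Q1 Q2) (max Q3 2000), fun γ ψ C B S hSA => ?_⟩
  have hmono : ∀ Q, Q ≤ max (max Q1 Q2) (max Q3 2000) →
      ∀ q ∈ S, Adm Q ψ q ∧ Approx γ ψ C B q := fun Q hQ q hq => by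
    obtain ⟨⟨a, b, c, d⟩, e⟩ := hSA q hq
    exact ⟨⟨a, hQ.trans b, c, d⟩, e⟩
  have hψ0 : ∀ q ∈ S, 0 < ψ q := fun q hq =>
    lt_of_lt_of_le (Real.rpow_pos_of_pos (by exact_mod_cast (hSA q hq).1.1) _) (hSA q hq).1.2.2.1
  set f : ℕ → ℕ → ℝ := fun q r => 2 * (Nat.gcd q r : ℝ) * ψ r / r with hf
  have hf0 : ∀ q, ∀ r ∈ S, 0 ≤ f q r := fun q r hr => by
    have := (hψ0 r hr).le; simp only [hf]; positivity
  have hW : ∀ q ∈ S, ∀ r ∈ S, 0 < WW ψ q r := fun q hq r hr => by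
    have := hψ0 q hq; have := hψ0 r hr
    have hq0 : (0:ℝ) < q := by exact_mod_cast (hSA q hq).1.1
    have hr0 : (0:ℝ) < r := by exact_mod_cast (hSA r hr).1.1
    unfold WW hw; positivity
  set A : ℕ → ℕ → ℝ := fun q r => if q ^ 10 ≤ r ^ 9 then f q r else 0 with hA
  set X : ℕ → ℕ → ℝ := fun q r =>
    if PB γ ψ C B q r ∧ Special γ ψ C B q r then f q r else 0 with hX
  set Y : ℕ → ℕ → ℝ := fun q r => if PB γ ψ C B q r then f q r * WW ψ q r else 0 with hY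
  set Z : ℕ → ℕ → ℝ := fun q r =>
    if PB γ ψ C B q r ∧ ¬ Special γ ψ C B q r then f q r / WW ψ q r else 0 with hZ
  have hnn : ∀ q ∈ S, ∀ r ∈ S, 0 ≤ A q r ∧ 0 ≤ X q r ∧ 0 ≤ Y q r ∧ 0 ≤ Z q r := by
    intro q hq r hr
    have a := hf0 q r hr
    have b := hW q hq r hr
    simp only [hA, hX, hY, hZ]
    refine ⟨?_, ?_, ?_, ?_⟩ <;> split_ifs <;> positivity
  have hpt : ∀ q ∈ S, ∀ r ∈ S.filter (fun r => r ≠ q ∧ ψ r / r ≤ ψ q / q ∧ DD ψ q r < 1/8),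
      ov γ ψ C B q r ≤ A q r + X q r + Y q r + Z q r := by
    intro q hq r hr
    obtain ⟨hrS, hne, hle, hD⟩ := Finset.mem_filter.mp hr
    obtain ⟨nA, nX, nY, nZ⟩ := hnn q hq r hrS
    by_cases hov : ov γ ψ C B q r = 0
    · linarith
    have hq0 : 0 < q := (hSA q hq).1.1
    have hfle : ov γ ψ C B q r ≤ f q r := by
      have hc : (((nset γ ψ q r).card : ℕ) : ℝ) ≤ 1 := by
        exact_mod_cast card_nset_le γ ψ q r hD
      have hs : ∑ n ∈ nset γ ψ q r, (Nn C B q r n : ℝ) ≤ (Nat.gcd q r : ℝ) := by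
        calc _ ≤ ∑ n ∈ nset γ ψ q r, (Nat.gcd q r : ℝ) :=
              Finset.sum_le_sum fun n _ => by exact_mod_cast nn_le_gcd C B r hq0 n
          _ = ((nset γ ψ q r).card : ℝ) * (Nat.gcd q r : ℝ) := by
              rw [Finset.sum_const, nsmul_eq_mul]
          _ ≤ 1 * (Nat.gcd q r : ℝ) := mul_le_mul_of_nonneg_right hc (Nat.cast_nonneg _)
          _ = _ := one_mul _
      have := mul_le_mul_of_nonneg_left hs (show 0 ≤ 2 * ψ r / r by
        have := (hψ0 r hrS).le; positivity)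
      simp only [ov, hf]
      refine this.trans_eq ?_
      ring
    by_cases hbig : q ^ 10 ≤ r ^ 9
    · have : A q r = f q r := if_pos hbig
      linarith
    have hPB : PB γ ψ C B q r :=
      pb_of_ne_zero (hmono 2000 (le_max_of_le_right (le_max_right _ _)) q hq).1
        (hmono 2000 (le_max_of_le_right (le_max_right _ _)) r hrS).1
        (hSA q hq).2 (hSA r hrS).2 hne hle hD (not_le.mp hbig) hov
    by_cases hsp : Special γ ψ C B q r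
    · have : X q r = f q r := if_pos ⟨hPB, hsp⟩
      linarith
    have eY : Y q r = f q r * WW ψ q r := if_pos hPB
    have eZ : Z q r = f q r / WW ψ q r := if_pos ⟨hPB, hsp⟩
    have hw0 := hW q hq r hrS
    have key : 1 ≤ WW ψ q r + 1 / WW ψ q r := by
      rcases le_or_gt 1 (WW ψ q r) with h | h
      · have : 0 ≤ 1 / WW ψ q r := by positivity
        linarith
      · have : 1 ≤ 1 / WW ψ q r := by rw [le_div_iff₀ hw0]; linarith
        linarith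
    have key2 := mul_le_mul_of_nonneg_left key (hf0 q r hrS)
    have e : f q r * (WW ψ q r + 1 / WW ψ q r) = Y q r + Z q r := by rw [eY, eZ]; ring
    linarith
  have hlam : ∀ q ∈ S, 0 ≤ lam ψ q := fun q hq => by
    have := (hψ0 q hq).le; unfold lam; positivity
  set s := ∑ q ∈ S, lam ψ q with hs
  have hs0 : 0 ≤ s := Finset.sum_nonneg hlam
  have sA : ∑ q ∈ S, ∑ r ∈ S, A q r ≤ K4 * s := by
    rw [Finset.sum_comm, hs, Finset.mul_sum]
    refine Finset.sum_le_sum fun r hr => ?_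
    simp only [hA, hf]
    rw [← Finset.sum_filter]
    exact h4 ψ S r (hSA r hr).1.1 (hψ0 r hr).le (fun q hq => (hSA q hq).1.1)
  have sX : ∑ q ∈ S, ∑ r ∈ S, X q r ≤ |K3| := by
    simp only [hX, hf, ← Finset.sum_filter]
    exact (h3 γ ψ C B S (hmono Q3 (le_max_of_le_right (le_max_left _ _)))).trans (le_abs_self _)
  have sY : ∑ q ∈ S, ∑ r ∈ S, Y q r ≤ |K1| * s := by
    rw [hs, Finset.mul_sum]
    refine Finset.sum_le_sum fun q hq => ?_
    simp only [hY, hf, ← Finset.sum_filter]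
    exact (h1 γ ψ C B S (hmono Q1 (le_max_of_le_left (le_max_left _ _))) q hq).trans
      (mul_le_mul_of_nonneg_right (le_abs_self _) (hlam q hq))
  have sZ : ∑ q ∈ S, ∑ r ∈ S, Z q r ≤ |K2| * s := by
    rw [Finset.sum_comm, hs, Finset.mul_sum]
    refine Finset.sum_le_sum fun r hr => ?_
    simp only [hZ, hf, ← Finset.sum_filter]
    exact (h2 γ ψ C B S (hmono Q2 (le_max_of_le_left (le_max_right _ _))) r hr).trans
      (mul_le_mul_of_nonneg_right (le_abs_self _) (hlam r hr))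
  calc _ ≤ ∑ q ∈ S, ∑ r ∈ S.filter (fun r => r ≠ q ∧ ψ r / r ≤ ψ q / q ∧ DD ψ q r < 1/8),
        (A q r + X q r + Y q r + Z q r) :=
        Finset.sum_le_sum fun q hq => Finset.sum_le_sum (hpt q hq)
    _ ≤ ∑ q ∈ S, ∑ r ∈ S, (A q r + X q r + Y q r + Z q r) := by
        refine Finset.sum_le_sum fun q hq =>
          Finset.sum_le_sum_of_subset_of_nonneg (Finset.filter_subset _ _) fun r hr _ => ?_
        obtain ⟨a, b, c, d⟩ := hnn q hq r hr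
        linarith
    _ = ∑ q ∈ S, ∑ r ∈ S, A q r + ∑ q ∈ S, ∑ r ∈ S, X q r + ∑ q ∈ S, ∑ r ∈ S, Y q r
          + ∑ q ∈ S, ∑ r ∈ S, Z q r := by simp only [Finset.sum_add_distrib]
    _ ≤ K4 * s + |K3| + |K1| * s + |K2| * s := by linarith
    _ ≤ _ := by
        have a1 := abs_nonneg K1
        have a2 := abs_nonneg K2
        have a3 := abs_nonneg K3
        have h5 : s ≤ (1 + s) ^ 2 := by nlinarith
        have h6 : (1:ℝ) ≤ (1 + s) ^ 2 := by nlinarith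
        have b1 := mul_le_mul_of_nonneg_left h5 hK4
        have b2 := mul_le_mul_of_nonneg_left h5 a1
        have b3 := mul_le_mul_of_nonneg_left h5 a2
        have b4 := mul_le_mul_of_nonneg_left h6 a3
        linarith

end Vale.P028EV
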