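import Mathlib

/-! # P028: inhomogeneous Erdős-Vaaler for every shift: definitions and module interfaces

The proof on paper: `notes/helper20/P028_EV.md`. Every `def ...Stmt : Prop` below is proved
as a theorem in the module named in its docstring. -/

open scoped BigOperators

namespace Vale.P028EV

/-- `q` is in the reduced support. -/
def Adm (Q0 : ℕ) (ψ : ℕ → ℝ) (q : ℕ) : Prop :=
  0 < q ∧ Q0 ≤ q ∧ (q:ℝ) ^ (-(1 + 1/100 : ℝ)) ≤ ψ q ∧ ψ q ≤ 1 / (q:ℝ)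

/-- the rational approximation of the shift attached to `q` -/
structure Approx (γ : ℝ) (ψ : ℕ → ℝ) (C : ℕ → ℤ) (B : ℕ → ℕ) (q : ℕ) : Prop where
  B_pos : 0 < B q
  cop : IsCoprime (C q) (B q : ℤ)
  B_le : (B q : ℝ) * Real.sqrt (ψ q) ≤ 2
  eps_le : |(B q : ℝ) * γ - C q| ≤ Real.sqrt (ψ q)
  eps_B : |(B q : ℝ) * γ - C q| * B q < 1

/-- `a` avoids the one forbidden class modulo each prime divisor of `q`. -/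
def Sel (C : ℤ) (B q : ℕ) (a : ℤ) : Prop :=
  ∀ p ∈ q.primeFactors,
    (p ∣ B → ¬ (p:ℤ) ∣ a) ∧ (¬ p ∣ B → ¬ (p:ℤ) ∣ a * B + C)

/-- the selected approximation set for one `q` -/
def ASet (γ : ℝ) (ψ : ℕ → ℝ) (C : ℕ → ℤ) (B : ℕ → ℕ) (q : ℕ) : Set ℝ :=
  {x | ∃ a : ℤ, Sel (C q) (B q) q a ∧ |(q:ℝ) * x - a - γ| < ψ q}

/-- `q / gcd q r` -/
def xx (q r : ℕ) : ℕ := q / Nat.gcd q r

/-- `r / gcd q r` -/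
def yy (q r : ℕ) : ℕ := r / Nat.gcd q r

/-- `x - y` -/
def mm (q r : ℕ) : ℤ := (xx q r : ℤ) - (yy q r : ℤ)

/-- `ψ q * y` -/
noncomputable def DD (ψ : ℕ → ℝ) (q r : ℕ) : ℝ := ψ q * (yy q r : ℝ)

open scoped Classical in
/-- the integers `n` with `|n - m γ| < 2 D` -/
noncomputable def nset (γ : ℝ) (ψ : ℕ → ℝ) (q r : ℕ) : Finset ℤ :=
  (Finset.Icc ⌊(mm q r : ℝ) * γ - 2 * DD ψ q r⌋ ⌈(mm q r : ℝ) * γ + 2 * DD ψ q r⌉).filter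
    (fun n : ℤ => |(n:ℝ) - (mm q r : ℝ) * γ| < 2 * DD ψ q r)

open scoped Classical in
/-- number of selected pairs above one `n` -/
noncomputable def Nn (C : ℕ → ℤ) (B : ℕ → ℕ) (q r : ℕ) (n : ℤ) : ℕ :=
  ((Finset.range q).filter (fun a : ℕ => Sel (C q) (B q) q a ∧
    ∃ b : ℤ, (yy q r : ℤ) * a - (xx q r : ℤ) * b = n ∧ Sel (C r) (B r) r b)).card

/-- upper bound for the overlap of the sets of `q` and `r`, when `ψ r / r ≤ ψ q / q` -/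
noncomputable def ov (γ : ℝ) (ψ : ℕ → ℝ) (C : ℕ → ℤ) (B : ℕ → ℕ) (q r : ℕ) : ℝ :=
  2 * ψ r / r * ∑ n ∈ nset γ ψ q r, (Nn C B q r n : ℝ)

/-- `φ(q) ψ(q) / q` -/
noncomputable def lam (ψ : ℕ → ℝ) (q : ℕ) : ℝ := (Nat.totient q : ℝ) * ψ q / q

/-- sum of `1/p` over prime divisors above `s` -/
noncomputable def SS (s v : ℕ) : ℝ :=
  ∑ p ∈ v.primeFactors.filter (fun p => s < p), 1 / (p:ℝ)

/-- product of `1 - 1/p` over prime divisors up to `s` -/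
noncomputable def PP (s v : ℕ) : ℝ :=
  ∏ p ∈ v.primeFactors.filter (fun p => p ≤ s), (1 - 1 / (p:ℝ))

/-- sum of `log p / p` over prime divisors -/
noncomputable def Lp (v : ℕ) : ℝ := ∑ p ∈ v.primeFactors, Real.log p / p

/-- the weight -/
noncomputable def hw (v : ℕ) : ℝ := Real.exp ((1/12 : ℝ) * Lp v)

/-- the two-sided weight of a pair -/
noncomputable def WW (ψ : ℕ → ℝ) (q r : ℕ) : ℝ :=
  (((q:ℝ) * ψ q) / ((r:ℝ) * ψ r)) ^ (1/4 : ℝ) * hw (yy q r) / hw (xx q r)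

/-- some admissible `n` is killed by neither approximation -/
def Hitk (γ : ℝ) (ψ : ℕ → ℝ) (C : ℕ → ℤ) (B : ℕ → ℕ) (q r : ℕ) : Prop :=
  ∃ n : ℤ, |(n:ℝ) - (mm q r : ℝ) * γ| < 2 * DD ψ q r ∧
    n * (B q : ℤ) ≠ mm q r * C q ∧ n * (B r : ℤ) ≠ mm q r * C r

/-- the main range of case B -/
def PB (γ : ℝ) (ψ : ℕ → ℝ) (C : ℕ → ℤ) (B : ℕ → ℕ) (q r : ℕ) : Prop :=
  DD ψ q r < 1/8 ∧ r ^ 9 < q ^ 10 ∧ ψ r / r ≤ ψ q / q ∧ 2 ≤ xx q r ∧ 2 ≤ yy q r ∧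
    Hitk γ ψ C B q r

/-- the special pairs of case B -/
def Special (γ : ℝ) (ψ : ℕ → ℝ) (C : ℕ → ℤ) (B : ℕ → ℕ) (q r : ℕ) : Prop :=
  2 * DD ψ q r * (B r : ℝ) < 1/4 ∧ (xx q r : ℝ) * |(B r : ℝ) * γ - C r| < 1/4

open scoped Classical in
/-- Module `Main`: the second moment bound. -/
def SecondMomentStmt : Prop :=
  ∃ K : ℝ, ∃ Q0 : ℕ, ∀ (γ : ℝ) (ψ : ℕ → ℝ) (C : ℕ → ℤ) (B : ℕ → ℕ) (S : Finset ℕ),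
    (∀ q ∈ S, Adm Q0 ψ q ∧ Approx γ ψ C B q) →
    ∑ q ∈ S, ∑ r ∈ S.filter (fun r => r ≠ q ∧ ψ r / r ≤ ψ q / q), ov γ ψ C B q r
      ≤ K * (1 + ∑ q ∈ S, lam ψ q) ^ 2

open scoped Classical in
/-- Module `CaseA`. -/
def CaseAStmt : Prop :=
  ∃ K : ℝ, ∃ Q0 : ℕ, ∀ (γ : ℝ) (ψ : ℕ → ℝ) (C : ℕ → ℤ) (B : ℕ → ℕ) (S : Finset ℕ),
    (∀ q ∈ S, Adm Q0 ψ q ∧ Approx γ ψ C B q) →
    ∑ q ∈ S, ∑ r ∈ S.filter (fun r => r ≠ q ∧ ψ r / r ≤ ψ q / q ∧ 1/8 ≤ DD ψ q r),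
      ov γ ψ C B q r ≤ K * (1 + ∑ q ∈ S, lam ψ q) ^ 2

open scoped Classical in
/-- Module `CaseB`. -/
def CaseBStmt : Prop :=
  ∃ K : ℝ, ∃ Q0 : ℕ, ∀ (γ : ℝ) (ψ : ℕ → ℝ) (C : ℕ → ℤ) (B : ℕ → ℕ) (S : Finset ℕ),
    (∀ q ∈ S, Adm Q0 ψ q ∧ Approx γ ψ C B q) →
    ∑ q ∈ S, ∑ r ∈ S.filter (fun r => r ≠ q ∧ ψ r / r ≤ ψ q / q ∧ DD ψ q r < 1/8),
      ov γ ψ C B q r ≤ K * (1 + ∑ q ∈ S, lam ψ q) ^ 2

open scoped Classical in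
/-- Module `SideQ`. -/
def SideQStmt : Prop :=
  ∃ K : ℝ, ∃ Q0 : ℕ, ∀ (γ : ℝ) (ψ : ℕ → ℝ) (C : ℕ → ℤ) (B : ℕ → ℕ) (S : Finset ℕ),
    (∀ q ∈ S, Adm Q0 ψ q ∧ Approx γ ψ C B q) → ∀ q ∈ S,
    ∑ r ∈ S.filter (fun r => PB γ ψ C B q r),
      2 * (Nat.gcd q r : ℝ) * ψ r / r * WW ψ q r ≤ K * lam ψ q

open scoped Classical in
/-- Module `SideR`. -/
def SideRStmt : Prop :=
  ∃ K : ℝ, ∃ Q0 : ℕ, ∀ (γ : ℝ) (ψ : ℕ → ℝ) (C : ℕ → ℤ) (B : ℕ → ℕ) (S : Finset ℕ),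
    (∀ q ∈ S, Adm Q0 ψ q ∧ Approx γ ψ C B q) → ∀ r ∈ S,
    ∑ q ∈ S.filter (fun q => PB γ ψ C B q r ∧ ¬ Special γ ψ C B q r),
      2 * (Nat.gcd q r : ℝ) * ψ r / r / WW ψ q r ≤ K * lam ψ r

open scoped Classical in
/-- Module `Special`. -/
def SpecialStmt : Prop :=
  ∃ K : ℝ, ∃ Q0 : ℕ, ∀ (γ : ℝ) (ψ : ℕ → ℝ) (C : ℕ → ℤ) (B : ℕ → ℕ) (S : Finset ℕ),
    (∀ q ∈ S, Adm Q0 ψ q ∧ Approx γ ψ C B q) →
    ∑ q ∈ S, ∑ r ∈ S.filter (fun r => PB γ ψ C B q r ∧ Special γ ψ C B q r),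
      2 * (Nat.gcd q r : ℝ) * ψ r / r ≤ K

/-- Module `Line`: weighted count on a line. -/
def LineHwStmt : Prop :=
  ∀ ε : ℝ, 0 < ε → ∃ K : ℝ, 0 ≤ K ∧ ∀ (γ : ℝ) (C : ℤ) (B : ℕ), 0 < B → IsCoprime C (B:ℤ) →
    ∀ (z : ℤ) (V : ℕ) (D E Q : ℝ), 1 ≤ V → 0 ≤ D → 0 ≤ E → 2 ≤ Q → 2 * (V:ℝ) ≤ Q ^ 2 →
    ((V:ℝ) / B ≤ E ∨ 2 * D ≤ E * |(B:ℝ) * γ - C|) →
    ∀ T : Finset (ℕ × ℤ),
      (∀ p ∈ T, V ≤ p.1 ∧ p.1 < 2 * V ∧ |(p.2:ℝ) - ((p.1:ℝ) - z) * γ| < D) →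
      ∑ p ∈ T, hw p.1 ≤
        K * (D * V + hw B * E + Q ^ ε * (D * B + V * |(B:ℝ) * γ - C| + 1))

/-- Module `Line`: plain count on a line. -/
def LineCountStmt : Prop :=
  ∃ K : ℝ, 0 ≤ K ∧ ∀ (γ : ℝ) (C : ℤ) (B : ℕ), 0 < B → IsCoprime C (B:ℤ) →
    ∀ (z : ℤ) (V : ℕ) (D E : ℝ), 1 ≤ V → 0 ≤ D → 0 ≤ E →
    ((V:ℝ) / B ≤ E ∨ 2 * D ≤ E * |(B:ℝ) * γ - C|) →
    ∀ T : Finset (ℕ × ℤ),
      (∀ p ∈ T, V ≤ p.1 ∧ p.1 < 2 * V ∧ |(p.2:ℝ) - ((p.1:ℝ) - z) * γ| < D) →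
      (T.card : ℝ) ≤ K * (D * V + E + D * B + V * |(B:ℝ) * γ - C| + 1)

/-- Module `Weights`: the divisor sum of the weight. -/
def HwDivStmt : Prop :=
  ∃ K : ℝ, 0 ≤ K ∧ ∀ q : ℕ, 0 < q →
    ∑ g ∈ q.divisors, (1 + Real.log g) * hw g / g ≤ K * ((Nat.totient q : ℝ) / q) * hw q

/-- Module `Weights`: the weight is at most logarithmic. -/
def HwLogStmt : Prop := ∃ K : ℝ, 0 ≤ K ∧ ∀ B : ℕ, 0 < B → hw B ≤ K * (1 + Real.log B)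

/-- Module `Weights`: the weight is submultiplicative. -/
def HwMulStmt : Prop := ∀ g x : ℕ, 0 < g → 0 < x → hw (g * x) ≤ hw g * hw x

/-- Module `Weights`: divisor bound. -/
def TauStmt : Prop :=
  ∀ ε : ℝ, 0 < ε → ∃ K : ℝ, 0 ≤ K ∧ ∀ q : ℕ, 0 < q → (q.divisors.card : ℝ) ≤ K * (q:ℝ) ^ ε

/-- Module `Weights`: totient against divisors. -/
def TotTauStmt : Prop := ∀ q : ℕ, 0 < q → (q:ℝ) ≤ (Nat.totient q : ℝ) * q.divisors.card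

/-- Module `Weights`: a Chebyshev bound. -/
def ChebStmt : Prop :=
  ∃ K : ℝ, 0 ≤ K ∧ ∀ n : ℕ, 1 ≤ n →
    ∑ p ∈ (Finset.range (n + 1)).filter Nat.Prime, Real.log p / p ≤ 4 * Real.log n + K

open scoped Classical in
/-- Module `Measure`: what follows from the second moment bound. -/
def FullMeasureStmt : Prop :=
  ∀ (γ : ℝ) (ψ : ℕ → ℝ) (K : ℝ), (∀ q, 0 ≤ ψ q) → (∀ q : ℕ, ψ q ≤ K / q ∨ q = 0) →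
    ¬ Summable (fun q : ℕ => (Nat.totient q : ℝ) / q * ψ q) →
    MeasureTheory.volume
      {x : ℝ | ¬ {q : ℕ | 0 < q ∧ ∃ a : ℤ, |(q:ℝ) * x - a - γ| < ψ q}.Infinite} = 0

end Vale.P028EV
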