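import Mathlib

/-! # P028: dyadic sums and decompositions by greatest common divisor and dyadic size -/

namespace Vale.P028EV

/-- dyadic powers up to `M` -/
theorem sum_dyadic_le {α : ℝ} (hα : 0 < α) {s : Finset ℕ} {M : ℝ} (hM : 0 ≤ M)
    (h : ∀ j ∈ s, (2:ℝ) ^ j ≤ M) :
    ∑ j ∈ s, ((2:ℝ) ^ j) ^ α ≤ (2:ℝ) ^ α / ((2:ℝ) ^ α - 1) * M ^ α := by
  set b : ℝ := (2:ℝ) ^ α with hb
  have hb1 : 1 < b := Real.one_lt_rpow one_lt_two hα
  have hb0 : 0 < b - 1 := by linarith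
  rcases s.eq_empty_or_nonempty with rfl | hs
  · simp only [Finset.sum_empty]
    have : 0 ≤ M ^ α := Real.rpow_nonneg hM α
    positivity
  have e : ∀ j : ℕ, ((2:ℝ) ^ j) ^ α = b ^ j := fun j => by
    rw [hb, ← Real.rpow_natCast (2:ℝ) j, ← Real.rpow_mul (by norm_num), mul_comm,
      Real.rpow_mul (by norm_num), Real.rpow_natCast]
  set n := s.max' hs with hn
  have hsub : s ⊆ Finset.range (n + 1) := fun j hj =>
    Finset.mem_range.mpr (Nat.lt_succ_of_le (s.le_max' j hj))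
  calc ∑ j ∈ s, ((2:ℝ) ^ j) ^ α = ∑ j ∈ s, b ^ j := Finset.sum_congr rfl fun j _ => e j
    _ ≤ ∑ j ∈ Finset.range (n + 1), b ^ j :=
        Finset.sum_le_sum_of_subset_of_nonneg hsub fun j _ _ => by positivity
    _ = (b ^ (n + 1) - 1) / (b - 1) := geom_sum_eq hb1.ne' _
    _ ≤ b ^ (n + 1) / (b - 1) := by gcongr; linarith
    _ = b / (b - 1) * ((2:ℝ) ^ n) ^ α := by rw [e, pow_succ]; ring
    _ ≤ b / (b - 1) * M ^ α := by
        refine mul_le_mul_of_nonneg_left ?_ (by positivity)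
        exact Real.rpow_le_rpow (by positivity) (h n (s.max'_mem hs)) hα.le

/-- inverse dyadic powers above `M` -/
theorem sum_dyadic_ge {α : ℝ} (hα : 0 < α) {s : Finset ℕ} {M : ℝ} (hM : 0 < M)
    (h : ∀ j ∈ s, M ≤ (2:ℝ) ^ j) :
    ∑ j ∈ s, ((2:ℝ) ^ j) ^ (-α) ≤ (2:ℝ) ^ α / ((2:ℝ) ^ α - 1) * M ^ (-α) := by
  set b : ℝ := (2:ℝ) ^ α with hb
  have hb1 : 1 < b := Real.one_lt_rpow one_lt_two hα
  have hb0 : 0 < b - 1 := by linarith
  rcases s.eq_empty_or_nonempty with rfl | hs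
  · simp only [Finset.sum_empty]
    have : 0 ≤ M ^ (-α) := Real.rpow_nonneg hM.le _
    positivity
  have e : ∀ j : ℕ, ((2:ℝ) ^ j) ^ (-α) = (b⁻¹) ^ j := fun j => by
    rw [hb, ← Real.rpow_neg (by norm_num), ← Real.rpow_natCast (2:ℝ) j,
      ← Real.rpow_mul (by norm_num), mul_comm, Real.rpow_mul (by norm_num), Real.rpow_natCast]
  set n := s.min' hs with hn
  set m := s.max' hs with hm
  have hnm : n ≤ m := s.min'_le _ (s.max'_mem hs)
  have hsub : s ⊆ (Finset.range (m - n + 1)).image (fun i => n + i) := fun j hj => by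
    have h1 := s.min'_le j hj
    have h2 := s.le_max' j hj
    exact Finset.mem_image.mpr ⟨j - n, Finset.mem_range.mpr (by omega), by omega⟩
  have hbi : b⁻¹ < 1 := inv_lt_one_of_one_lt₀ hb1
  calc ∑ j ∈ s, ((2:ℝ) ^ j) ^ (-α) = ∑ j ∈ s, (b⁻¹) ^ j := Finset.sum_congr rfl fun j _ => e j
    _ ≤ ∑ j ∈ (Finset.range (m - n + 1)).image (fun i => n + i), (b⁻¹) ^ j :=
        Finset.sum_le_sum_of_subset_of_nonneg hsub fun j _ _ => by positivity
    _ = (b⁻¹) ^ n * ∑ i ∈ Finset.range (m - n + 1), (b⁻¹) ^ i := by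
        rw [Finset.sum_image (fun a _ c _ hac => Nat.add_left_cancel hac), Finset.mul_sum]
        exact Finset.sum_congr rfl fun i _ => pow_add _ _ _
    _ ≤ (b⁻¹) ^ n * (b / (b - 1)) := by
        refine mul_le_mul_of_nonneg_left ?_ (by positivity)
        rw [geom_sum_eq hbi.ne, div_le_iff_of_neg (by linarith)]
        have e2 : b / (b - 1) * (b⁻¹ - 1) = -1 := by field_simp; ring
        rw [e2]
        have : (0:ℝ) ≤ (b⁻¹) ^ (m - n + 1) := by positivity
        linarith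
    _ = b / (b - 1) * ((2:ℝ) ^ n) ^ (-α) := by rw [e]; ring
    _ ≤ b / (b - 1) * M ^ (-α) := by
        refine mul_le_mul_of_nonneg_left ?_ (by positivity)
        exact Real.rpow_le_rpow_of_nonpos hM (h n (s.min'_mem hs)) (by linarith)

/-- number of dyadic powers in a range -/
theorem card_dyadic {s : Finset ℕ} {M₁ M₂ : ℝ} (h1 : 0 < M₁)
    (h : ∀ j ∈ s, M₁ ≤ (2:ℝ) ^ j ∧ (2:ℝ) ^ j ≤ M₂) :
    (s.card : ℝ) ≤ 1 + max 0 (Real.log (M₂ / M₁) / Real.log 2) := by
  rcases s.eq_empty_or_nonempty with rfl | hs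
  · simp only [Finset.card_empty, Nat.cast_zero]
    have : (0:ℝ) ≤ max 0 (Real.log (M₂ / M₁) / Real.log 2) := le_max_left _ _
    linarith
  set n := s.min' hs with hn
  set m := s.max' hs with hm
  have hnm : n ≤ m := s.min'_le _ (s.max'_mem hs)
  have hsub : s ⊆ Finset.Icc n m := fun j hj =>
    Finset.mem_Icc.mpr ⟨s.min'_le j hj, s.le_max' j hj⟩
  have hc : (s.card : ℝ) ≤ (m:ℝ) - n + 1 := by
    have := Finset.card_le_card hsub
    rw [Nat.card_Icc] at this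
    have h2 : (s.card : ℝ) ≤ ((m + 1 - n : ℕ) : ℝ) := by exact_mod_cast this
    rw [Nat.cast_sub (by omega)] at h2
    push_cast at h2
    linarith
  have hl2 : 0 < Real.log 2 := Real.log_pos one_lt_two
  have hlog : ((m:ℝ) - n) * Real.log 2 ≤ Real.log (M₂ / M₁) := by
    have a := (h n (s.min'_mem hs)).1
    have b := (h m (s.max'_mem hs)).2
    have hM2 : 0 < M₂ := lt_of_lt_of_le (by positivity) b
    rw [Real.log_div hM2.ne' h1.ne']
    have c1 := Real.log_le_log h1 a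
    have c2 := Real.log_le_log (by positivity) b
    rw [Real.log_pow] at c1 c2
    linarith
  have : (m:ℝ) - n ≤ Real.log (M₂ / M₁) / Real.log 2 := (le_div_iff₀ hl2).mpr hlog
  have := le_max_right 0 (Real.log (M₂ / M₁) / Real.log 2)
  linarith

/-- a dyadic sum that decays geometrically on both sides -/
theorem sum_dyadic_two_sided {α β : ℝ} (hβ : 0 < β) (hαβ : β < α) {s : Finset ℕ} {t : ℝ}
    (ht : 0 < t) :
    ∑ j ∈ s, min 1 (((2:ℝ) ^ j * t) ^ α) * ((2:ℝ) ^ j * t) ^ (-β) ≤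
      (2:ℝ) ^ (α - β) / ((2:ℝ) ^ (α - β) - 1) + (2:ℝ) ^ β / ((2:ℝ) ^ β - 1) := by
  classical
  rw [← Finset.sum_filter_add_sum_filter_not s (fun j => (2:ℝ) ^ j * t ≤ 1)]
  refine add_le_add ?_ ?_
  · calc ∑ j ∈ s.filter (fun j => (2:ℝ) ^ j * t ≤ 1),
          min 1 (((2:ℝ) ^ j * t) ^ α) * ((2:ℝ) ^ j * t) ^ (-β)
        ≤ ∑ j ∈ s.filter (fun j => (2:ℝ) ^ j * t ≤ 1), ((2:ℝ) ^ j) ^ (α - β) * t ^ (α - β) := by
          refine Finset.sum_le_sum fun j _ => ?_
          rw [← Real.mul_rpow (by positivity) ht.le,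
            show α - β = α + -β by ring, Real.rpow_add (by positivity)]
          exact mul_le_mul_of_nonneg_right (min_le_right _ _) (Real.rpow_nonneg (by positivity) _)
      _ ≤ (2:ℝ) ^ (α - β) / ((2:ℝ) ^ (α - β) - 1) * (1 / t) ^ (α - β) * t ^ (α - β) := by
          rw [← Finset.sum_mul]
          refine mul_le_mul_of_nonneg_right
            (sum_dyadic_le (by linarith) (by positivity) fun j hj => ?_) (Real.rpow_nonneg ht.le _)
          rw [le_div_iff₀ ht]; exact (Finset.mem_filter.mp hj).2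
      _ = _ := by
          rw [mul_assoc, ← Real.mul_rpow (by positivity) ht.le,
            one_div_mul_cancel ht.ne', Real.one_rpow, mul_one]
  · calc ∑ j ∈ s.filter (fun j => ¬ (2:ℝ) ^ j * t ≤ 1),
          min 1 (((2:ℝ) ^ j * t) ^ α) * ((2:ℝ) ^ j * t) ^ (-β)
        ≤ ∑ j ∈ s.filter (fun j => ¬ (2:ℝ) ^ j * t ≤ 1), ((2:ℝ) ^ j) ^ (-β) * t ^ (-β) := by
          refine Finset.sum_le_sum fun j _ => ?_
          rw [← Real.mul_rpow (by positivity) ht.le]
          exact mul_le_of_le_one_left (Real.rpow_nonneg (by positivity) _) (min_le_left _ _)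
      _ ≤ (2:ℝ) ^ β / ((2:ℝ) ^ β - 1) * (1 / t) ^ (-β) * t ^ (-β) := by
          rw [← Finset.sum_mul]
          refine mul_le_mul_of_nonneg_right
            (sum_dyadic_ge hβ (by positivity) fun j hj => ?_) (Real.rpow_nonneg ht.le _)
          rw [div_le_iff₀ ht]; exact (not_le.mp (Finset.mem_filter.mp hj).2).le
      _ = _ := by
          rw [mul_assoc, ← Real.mul_rpow (by positivity) ht.le,
            one_div_mul_cancel ht.ne', Real.one_rpow, mul_one]

/-- split a sum by the common divisor with `q` and the dyadic size of the cofactor -/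
theorem sum_le_gcd_dyadic {q : ℕ} (hq : 0 < q) (T : Finset ℕ) (f : ℕ → ℝ) (F : ℕ → ℕ → ℝ)
    (J : ℕ → Finset ℕ)
    (hJ : ∀ r ∈ T, Nat.log 2 (r / Nat.gcd q r) ∈ J (Nat.gcd q r))
    (h : ∀ g ∈ q.divisors, ∀ j ∈ J g,
      ∑ r ∈ T.filter (fun r => Nat.gcd q r = g ∧ Nat.log 2 (r / g) = j), f r ≤ F g j) :
    ∑ r ∈ T, f r ≤ ∑ g ∈ q.divisors, ∑ j ∈ J g, F g j := by
  rw [← Finset.sum_fiberwise_of_maps_to (g := fun r => Nat.gcd q r) (t := q.divisors)
    (fun r _ => Nat.mem_divisors.mpr ⟨Nat.gcd_dvd_left q r, hq.ne'⟩)]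
  refine Finset.sum_le_sum fun g hg => ?_
  rw [← Finset.sum_fiberwise_of_maps_to (g := fun r => Nat.log 2 (r / g)) (t := J g)
    (fun r hr => by
      obtain ⟨h1, h2⟩ := Finset.mem_filter.mp hr
      exact h2 ▸ hJ r h1)]
  refine Finset.sum_le_sum fun j hj => le_of_eq_of_le ?_ (h g hg j hj)
  rw [Finset.filter_filter]

end Vale.P028EV
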