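import Vale.Agent.P028.EV.Measure

/-! # P028: full measure from the second moment bound -/

open MeasureTheory Set Metric Filter Topology
open scoped ENNReal

namespace Vale.P028EV

/-- `τ(q) ≤ η φ(q)` for large `q`. -/
theorem tau_le_totient (hT : TauStmt) (hTT : TotTauStmt) {η : ℝ} (hη : 0 < η) :
    ∃ Q : ℕ, ∀ q : ℕ, Q ≤ q → 0 < q → (q.divisors.card : ℝ) ≤ η * (Nat.totient q : ℝ) := by
  obtain ⟨K, hK0, hK⟩ := hT (1/4) (by norm_num)
  have hev : ∀ᶠ q : ℕ in atTop, K ^ 2 ≤ η * (q:ℝ) ^ (1/2 : ℝ) :=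
    Filter.Tendsto.eventually_ge_atTop
      (((tendsto_rpow_atTop (show (0:ℝ) < 1/2 by norm_num)).comp
        tendsto_natCast_atTop_atTop).const_mul_atTop hη) _
  obtain ⟨Q, hQ⟩ := eventually_atTop.mp hev
  refine ⟨Q, fun q hq hq0 => ?_⟩
  have hqR : (0:ℝ) < q := by exact_mod_cast hq0
  have h1 : (1:ℝ) ≤ q.divisors.card := by
    exact_mod_cast Finset.card_pos.mpr ⟨1, Nat.one_mem_divisors.mpr hq0.ne'⟩
  have h2 : (q.divisors.card : ℝ) ^ 2 ≤ η * (q:ℝ) := by
    calc (q.divisors.card : ℝ) ^ 2 ≤ (K * (q:ℝ) ^ (1/4 : ℝ)) ^ 2 :=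
          pow_le_pow_left₀ (by linarith) (hK q hq0) 2
      _ = K ^ 2 * (q:ℝ) ^ (1/2 : ℝ) := by
          rw [mul_pow, ← Real.rpow_natCast ((q:ℝ) ^ (1/4 : ℝ)) 2, ← Real.rpow_mul hqR.le]; norm_num
      _ ≤ η * (q:ℝ) ^ (1/2 : ℝ) * (q:ℝ) ^ (1/2 : ℝ) :=
          mul_le_mul_of_nonneg_right (hQ q hq) (Real.rpow_nonneg hqR.le _)
      _ = η * (q:ℝ) := by rw [mul_assoc, ← Real.rpow_add hqR]; norm_num
  have h3 := hTT q hq0
  have h4 : η * (q:ℝ) ≤ η * ((Nat.totient q : ℝ) * q.divisors.card) :=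
    mul_le_mul_of_nonneg_left h3 hη.le
  nlinarith

/-- A block of weight between one and two. -/
theorem exists_unit_block {f : ℕ → ℝ} (h0 : ∀ n, 0 ≤ f n) (h1 : ∀ n, f n ≤ 1)
    (hdiv : ¬ Summable f) (M : ℕ) :
    ∃ S : Finset ℕ, (∀ n ∈ S, M ≤ n ∧ f n ≠ 0) ∧ 1 ≤ ∑ n ∈ S, f n ∧ ∑ n ∈ S, f n ≤ 2 := by
  classical
  have hd : ¬ Summable (fun k => f (k + M)) := fun h => hdiv ((summable_nat_add_iff M).mp h)
  have ht := (not_summable_iff_tendsto_nat_atTop_of_nonneg (fun k => h0 (k + M))).mp hd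
  have hex : ∃ n, 1 ≤ ∑ i ∈ Finset.range n, f (i + M) := (ht.eventually_ge_atTop 1).exists
  set n := Nat.find hex with hn
  have hn1 : 1 ≤ ∑ i ∈ Finset.range n, f (i + M) := Nat.find_spec hex
  have hn2 : ∑ i ∈ Finset.range n, f (i + M) ≤ 2 := by
    cases hcase : n with
    | zero => simp
    | succ m =>
      have h2 : ¬ (1 ≤ ∑ i ∈ Finset.range m, f (i + M)) := Nat.find_min hex (by omega)
      rw [Finset.sum_range_succ]
      linarith [h1 (m + M), not_le.mp h2]
  refine ⟨((Finset.range n).image (fun i => i + M)).filter (fun k => f k ≠ 0), fun k hk => ?_, ?_⟩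
  · obtain ⟨h, h'⟩ := Finset.mem_filter.mp hk
    obtain ⟨i, -, rfl⟩ := Finset.mem_image.mp h
    exact ⟨by omega, h'⟩
  · rw [Finset.sum_filter_ne_zero,
      Finset.sum_image (fun a _ b _ h => Nat.add_right_cancel h)]
    exact ⟨hn1, hn2⟩

/-- The points of a period missed by all selected sets from `M` on. -/
def Missed (γ : ℝ) (ψ : ℕ → ℝ) (C : ℕ → ℤ) (B : ℕ → ℕ) (M : ℕ) : Set ℝ :=
  {x | x ∈ Icc (0:ℝ) 1 ∧ ∀ q, M ≤ q → x ∉ ASet γ ψ C B q}

theorem isCompact_missed (γ : ℝ) (ψ : ℕ → ℝ) (C : ℕ → ℤ) (B : ℕ → ℕ) (M : ℕ) :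
    IsCompact (Missed γ ψ C B M) := by
  have h : Missed γ ψ C B M = Icc (0:ℝ) 1 ∩ ⋂ q, ⋂ (_ : M ≤ q), (ASet γ ψ C B q)ᶜ := by
    ext x; simp [Missed]
  rw [h]
  exact isCompact_Icc.inter_right (isClosed_iInter fun q => isClosed_iInter fun _ =>
    (isOpen_aset _ _ _ _ _).isClosed_compl)

theorem pointwise_bound' (n c : ℝ) (hc : 0 < c) : n ≤ c + n ^ 2 / c := by
  have : n * c ≤ c * c + n ^ 2 := by nlinarith [sq_nonneg (n - c / 2)]
  rw [← sub_le_iff_le_add', le_div_iff₀ hc]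
  nlinarith

open scoped Classical in
/-- The missed set is null. -/
theorem volume_missed (γ : ℝ) (ψ : ℕ → ℝ) (C : ℕ → ℤ) (B : ℕ → ℕ) (P : ℝ) (hP : 0 < P)
    (hblock : ∀ (Q : ℕ) (η : ℝ), 0 < η → ∃ S : Finset ℕ,
      (∀ q ∈ S, Q ≤ q ∧ 0 < q ∧ 0 ≤ ψ q ∧ ψ q ≤ 1/2 ∧
        ψ q / q * q.divisors.card ≤ η * lam ψ q) ∧
      1 ≤ ∑ q ∈ S, lam ψ q ∧ ∑ q ∈ S, lam ψ q ≤ 2 ∧
      ∑ q ∈ S, ∑ r ∈ S, volume.real (ASet γ ψ C B q ∩ ASet γ ψ C B r ∩ Ico 0 1) ≤ P)
    (M : ℕ) : volume (Missed γ ψ C B M) = 0 := by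
  set K := Missed γ ψ C B M with hK
  have hKc : IsCompact K := isCompact_missed γ ψ C B M
  have hKfin : volume K ≠ ∞ := hKc.measure_lt_top.ne
  by_contra hne
  set κ := volume.real K with hκ
  have hκ0 : 0 < κ := ENNReal.toReal_pos hne hKfin
  set c : ℝ := 4 * P / κ with hc
  have hc0 : 0 < c := by positivity
  set ε : ℝ := κ / (4 * c) with hε
  have hε0 : 0 < ε := by positivity
  have ht : Tendsto (fun r => volume (cthickening r K)) (𝓝 0) (𝓝 (volume K)) :=
    tendsto_measure_cthickening_of_isCompact hKc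
  have hev : ∀ᶠ r in 𝓝 (0:ℝ), volume (cthickening r K) < volume K + ENNReal.ofReal ε :=
    ht.eventually (eventually_lt_nhds (ENNReal.lt_add_right hKfin (by simpa using hε0)))
  obtain ⟨η, hη0, hη⟩ := Metric.eventually_nhds_iff.mp hev
  obtain ⟨N, hN⟩ := exists_nat_gt (2 / η)
  have hN0 : 0 < N := by
    by_contra h
    have : N = 0 := by omega
    subst this
    have : 0 < 2 / η := by positivity
    simp at hN; linarith
  have hNR : (0:ℝ) < N := by exact_mod_cast hN0
  have hrad : volume (cthickening (1 / (N:ℝ)) K) < volume K + ENNReal.ofReal ε := by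
    refine hη ?_
    rw [Real.dist_eq, sub_zero, abs_of_pos (by positivity), div_lt_iff₀ hNR]
    rw [div_lt_iff₀ hη0] at hN
    linarith
  set cell : ℕ → Set ℝ := fun j => Ico ((j:ℝ) / N) (((j:ℝ) + 1) / N) with hcell
  set J : Finset ℕ := (Finset.range N).filter (fun j => (cell j ∩ K).Nonempty) with hJ
  set U : Set ℝ := ⋃ j ∈ J, cell j with hU
  have hUI : U ⊆ Ico 0 1 := by
    intro x hx
    simp only [hU, mem_iUnion₂] at hx
    obtain ⟨j, hj, h1, h2⟩ := hx
    have hjN : (j:ℝ) + 1 ≤ N := by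
      exact_mod_cast Finset.mem_range.mp (Finset.mem_filter.mp hj).1
    refine ⟨le_trans (by positivity) h1, lt_of_lt_of_le h2 ?_⟩
    rw [div_le_one hNR]; exact hjN
  have hKU : K ∩ Ico 0 1 ⊆ U := by
    rintro x ⟨hxK, hx0, hx1⟩
    have h0 : 0 ≤ (N:ℝ) * x := by positivity
    have hl : ⌊(N:ℝ) * x⌋₊ < N := by rw [Nat.floor_lt h0]; nlinarith
    have hxc : x ∈ cell ⌊(N:ℝ) * x⌋₊ := by
      refine ⟨?_, ?_⟩
      · rw [div_le_iff₀ hNR]; linarith [Nat.floor_le h0]
      · rw [lt_div_iff₀ hNR]; linarith [Nat.lt_floor_add_one ((N:ℝ) * x)]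
    exact mem_biUnion (x := ⌊(N:ℝ) * x⌋₊)
      (Finset.mem_filter.mpr ⟨Finset.mem_range.mpr hl, x, hxc, hxK⟩) hxc
  have hUth : U ⊆ cthickening (1 / (N:ℝ)) K := by
    intro x hx
    simp only [hU, mem_iUnion₂] at hx
    obtain ⟨j, hj, h1, h2⟩ := hx
    obtain ⟨y, ⟨y1, y2⟩, hyK⟩ := (Finset.mem_filter.mp hj).2
    refine mem_cthickening_of_dist_le x y _ K hyK ?_
    rw [Real.dist_eq, abs_le]
    have e : ((j:ℝ) + 1) / N = (j:ℝ) / N + 1 / N := by ring
    constructor <;> linarith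
  have hUm : MeasurableSet U := Finset.measurableSet_biUnion _ fun j _ => measurableSet_Ico
  have hKm : MeasurableSet K := hKc.isClosed.measurableSet
  set E : Set ℝ := U \ K with hE
  have hEm : MeasurableSet E := hUm.diff hKm
  have hfinU : volume U ≠ ∞ := ne_top_of_le_ne_top (by simp [Real.volume_Ico]) (measure_mono hUI)
  have hUge : κ ≤ volume.real U := by
    have h1 : K ⊆ U ∪ {1} := by
      intro x hx
      rcases eq_or_ne x 1 with h | h
      · exact Or.inr h
      · exact Or.inl (hKU ⟨hx, hx.1.1, lt_of_le_of_ne hx.1.2 h⟩)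
    have h2 : volume K ≤ volume U := by
      calc volume K ≤ volume (U ∪ {1}) := measure_mono h1
        _ ≤ volume U + volume ({1} : Set ℝ) := measure_union_le _ _
        _ = volume U := by simp
    exact ENNReal.toReal_mono hfinU h2
  have hEle : volume.real E ≤ ε := by
    have hsub : E ⊆ cthickening (1 / (N:ℝ)) K \ K := diff_subset_diff_left hUth
    have hfin : volume (cthickening (1 / (N:ℝ)) K) ≠ ∞ := ne_top_of_lt hrad
    have h1 : volume.real E ≤ volume.real (cthickening (1 / (N:ℝ)) K \ K) :=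
      measureReal_mono hsub (ne_top_of_le_ne_top hfin (measure_mono diff_subset))
    rw [measureReal_diff (self_subset_cthickening K) hKm hfin] at h1
    have h2 : volume.real (cthickening (1 / (N:ℝ)) K) ≤ κ + ε := by
      have := ENNReal.toReal_mono (ENNReal.add_ne_top.mpr ⟨hKfin, ENNReal.ofReal_ne_top⟩) hrad.le
      rwa [ENNReal.toReal_add hKfin ENNReal.ofReal_ne_top, ENNReal.toReal_ofReal hε0.le] at this
    linarith
  -- the block
  obtain ⟨S, hS, hs1, hs2, hpairs⟩ := hblock M (κ / (64 * N)) (by positivity)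
  set s := ∑ q ∈ S, lam ψ q with hs
  set A : ℕ → Set ℝ := fun q => ASet γ ψ C B q with hA
  have hAm : ∀ q, MeasurableSet (A q) := fun q => (isOpen_aset γ ψ C B q).measurableSet
  set ν := volume.restrict (Ico (0:ℝ) 1) with hν
  have : IsFiniteMeasure ν := ⟨by rw [hν, Measure.restrict_apply_univ]; simp⟩
  have hνr : ∀ X, MeasurableSet X → ν.real X = volume.real (X ∩ Ico 0 1) := fun X hX => by
    rw [hν, measureReal_def, measureReal_def, Measure.restrict_apply hX]
  have hlam0 : ∀ q ∈ S, 0 ≤ lam ψ q := fun q hq => by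
    have := (hS q hq).2.2.1; unfold lam; positivity
  -- lower bound
  have hlow : ∀ q ∈ S, 2 * κ * lam ψ q - κ / 8 * lam ψ q ≤ ν.real (A q ∩ E) := by
    intro q hq
    obtain ⟨hM, hq0, hψ0, hhalf, hτ⟩ := hS q hq
    have e : A q ∩ E = A q ∩ U := by
      ext x
      constructor
      · exact fun h => ⟨h.1, h.2.1⟩
      · exact fun h => ⟨h.1, h.2, fun hxK => hxK.2 q hM h.1⟩
    rw [e, hνr _ ((hAm q).inter hUm), inter_assoc, inter_eq_left.mpr hUI]
    have hd : (J : Set ℕ).PairwiseDisjoint cell := by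
      intro i _ j _ hij
      refine Set.disjoint_left.mpr fun x hxi hxj => hij ?_
      have a1 := hxi.1; have a2 := hxi.2; have b1 := hxj.1; have b2 := hxj.2
      rw [div_le_iff₀ hNR] at a1 b1
      rw [lt_div_iff₀ hNR] at a2 b2
      have c1 : (i:ℝ) < j + 1 := by linarith
      have c2 : (j:ℝ) < i + 1 := by linarith
      have d1 : i < j + 1 := by exact_mod_cast c1
      have d2 : j < i + 1 := by exact_mod_cast c2
      omega
    have h1 : volume.real U = ∑ j ∈ J, volume.real (cell j) :=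
      measureReal_biUnion_finset hd (fun j _ => measurableSet_Ico)
        (fun j _ => by simp [hcell, Real.volume_Ico])
    have h2 : volume.real (A q ∩ U) = ∑ j ∈ J, volume.real (A q ∩ cell j) := by
      rw [hU, inter_iUnion₂]
      exact measureReal_biUnion_finset (hd.mono_on fun j _ => inter_subset_right)
        (fun j _ => (hAm q).inter measurableSet_Ico)
        (fun j _ => ne_top_of_le_ne_top (by simp [hcell, Real.volume_Ico])
          (measure_mono inter_subset_right))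
    have h3 : ∀ j, volume.real (cell j) = 1 / N := fun j => by
      rw [hcell, measureReal_def, Real.volume_Ico, ENNReal.toReal_ofReal (by
        rw [← sub_div, add_sub_cancel_left]; positivity)]
      ring
    have hJN : (J.card : ℝ) ≤ N := by
      exact_mod_cast (Finset.card_filter_le _ _).trans (Finset.card_range N).le
    set t := 8 * ψ q / q * q.divisors.card with ht'
    have ht0 : 0 ≤ t := by rw [ht']; positivity
    have h5 : (N:ℝ) * t ≤ κ / 8 * lam ψ q := by
      calc (N:ℝ) * t = 8 * N * (ψ q / q * q.divisors.card) := by rw [ht']; ring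
        _ ≤ 8 * N * (κ / (64 * N) * lam ψ q) := mul_le_mul_of_nonneg_left hτ (by positivity)
        _ = _ := by field_simp; ring
    have h6 : 2 * κ * lam ψ q ≤ 2 * lam ψ q * volume.real U := by
      have := mul_le_mul_of_nonneg_left hUge (hlam0 q hq)
      linarith
    calc 2 * κ * lam ψ q - κ / 8 * lam ψ q
        ≤ ∑ j ∈ J, (2 * lam ψ q * (1 / N) - t) := by
          rw [Finset.sum_sub_distrib, Finset.sum_const, Finset.sum_const, nsmul_eq_mul, nsmul_eq_mul]
          have h7 : (J.card:ℝ) * t ≤ N * t := mul_le_mul_of_nonneg_right hJN ht0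
          rw [h1, Finset.sum_congr rfl (fun j _ => h3 j), Finset.sum_const, nsmul_eq_mul] at h6
          linarith
      _ ≤ ∑ j ∈ J, volume.real (A q ∩ cell j) := Finset.sum_le_sum fun j _ => by
          refine le_trans (le_of_eq ?_)
            (aset_lower hq0 hψ0 hhalf ((j:ℝ) / N) (((j:ℝ) + 1) / N))
          rw [ht']; ring
      _ = _ := h2.symm
  -- second moment
  have hup : ∑ q ∈ S, ν.real (A q ∩ E) ≤ c * ε + P / c := by
    set n : ℝ → ℝ := fun x => ∑ q ∈ S, (A q).indicator (fun _ => (1:ℝ)) x with hn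
    have i1 : ∀ X, MeasurableSet X → Integrable (X.indicator fun _ => (1:ℝ)) ν :=
      fun X hX => (integrable_const 1).indicator hX
    have i2 : ∀ X, MeasurableSet X → ∫ x, X.indicator (fun _ => (1:ℝ)) x ∂ν = ν.real X :=
      fun X hX => by rw [integral_indicator_const _ hX, smul_eq_mul, mul_one]
    have hpt : ∀ x, ∑ q ∈ S, (A q ∩ E).indicator (fun _ => (1:ℝ)) x ≤
        c * E.indicator (fun _ => (1:ℝ)) x +
        (∑ q ∈ S, ∑ r ∈ S, (A q ∩ A r).indicator (fun _ => (1:ℝ)) x) / c := by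
      intro x
      have e2 : ∑ q ∈ S, ∑ r ∈ S, (A q ∩ A r).indicator (fun _ => (1:ℝ)) x = n x ^ 2 := by
        rw [sq, hn, Finset.sum_mul_sum]
        refine Finset.sum_congr rfl fun q _ => Finset.sum_congr rfl fun r _ => ?_
        by_cases h1 : x ∈ A q <;> by_cases h2 : x ∈ A r <;> simp [h1, h2]
      rw [e2]
      by_cases hx : x ∈ E
      · have e1 : ∑ q ∈ S, (A q ∩ E).indicator (fun _ => (1:ℝ)) x = n x :=
          Finset.sum_congr rfl fun q _ => by by_cases h1 : x ∈ A q <;> simp [h1, hx]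
        rw [e1, indicator_of_mem hx, mul_one]
        exact pointwise_bound' _ _ hc0
      · have e1 : ∑ q ∈ S, (A q ∩ E).indicator (fun _ => (1:ℝ)) x = 0 :=
          Finset.sum_eq_zero fun q _ => by simp [hx]
        rw [e1, indicator_of_notMem hx, mul_zero, zero_add]
        positivity
    have hi : Integrable (fun x => ∑ q ∈ S, ∑ r ∈ S, (A q ∩ A r).indicator (fun _ => (1:ℝ)) x) ν :=
      integrable_finset_sum _ fun q _ => integrable_finset_sum _ fun r _ =>
        i1 _ ((hAm q).inter (hAm r))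
    have hint := integral_mono (integrable_finset_sum _ fun q _ => i1 _ ((hAm q).inter hEm))
      (((i1 _ hEm).const_mul c).add (hi.div_const c)) hpt
    rw [integral_finset_sum _ (fun q _ => i1 _ ((hAm q).inter hEm)),
      Finset.sum_congr rfl (fun q _ => i2 _ ((hAm q).inter hEm))] at hint
    refine hint.trans ?_
    simp only [Pi.add_apply]
    rw [integral_add ((i1 _ hEm).const_mul c) (hi.div_const c), integral_const_mul, integral_div,
      i2 _ hEm, integral_finset_sum _ (fun q _ => integrable_finset_sum _ fun r _ =>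
        i1 _ ((hAm q).inter (hAm r)))]
    have e3 : ∀ q ∈ S, ∫ x, ∑ r ∈ S, (A q ∩ A r).indicator (fun _ => (1:ℝ)) x ∂ν
        = ∑ r ∈ S, ν.real (A q ∩ A r) := fun q _ => by
      rw [integral_finset_sum _ (fun r _ => i1 _ ((hAm q).inter (hAm r)))]
      exact Finset.sum_congr rfl fun r _ => i2 _ ((hAm q).inter (hAm r))
    rw [Finset.sum_congr rfl e3]
    have hνE : ν.real E ≤ ε := by
      rw [hνr _ hEm, inter_eq_left.mpr (diff_subset.trans hUI)]; exact hEle
    have hνP : ∑ q ∈ S, ∑ r ∈ S, ν.real (A q ∩ A r) ≤ P := by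
      refine le_of_eq_of_le ?_ hpairs
      exact Finset.sum_congr rfl fun q _ => Finset.sum_congr rfl fun r _ =>
        hνr _ ((hAm q).inter (hAm r))
    gcongr
  -- conclusion
  have hsum := Finset.sum_le_sum hlow
  rw [Finset.sum_sub_distrib, ← Finset.mul_sum, ← Finset.mul_sum, ← hs] at hsum
  have e1 : c * ε = κ / 4 := by rw [hε]; field_simp
  have e2 : P / c = κ / 4 := by rw [hc]; field_simp
  nlinarith

open scoped Classical in
/-- Module `Measure`: the second moment bound gives full measure. -/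
theorem fullMeasure (h : SecondMomentStmt) (hT : TauStmt) (hTT : TotTauStmt) :
    FullMeasureStmt := by
  intro γ ψ K hψ0 hψK hdiv
  obtain ⟨K2, Q0, hSM⟩ := h
  set c : ℝ := 1 / max K 1 with hc
  have hc0 : 0 < c := by positivity
  have hc1 : c ≤ 1 := by rw [hc, div_le_one (by positivity)]; exact le_max_right _ _
  set P : ℕ → Prop := fun q => 0 < q ∧ Q0 ≤ q ∧ (q:ℝ) ^ (-(1 + 1/100 : ℝ)) ≤ c * ψ q with hPdef
  set ψ' : ℕ → ℝ := fun q => if P q then c * ψ q else 0 with hψ'
  have hψ'0 : ∀ q, 0 ≤ ψ' q := fun q => by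
    simp only [hψ']; split_ifs
    · have := hψ0 q; positivity
    · exact le_rfl
  have hψ'le : ∀ q, ψ' q ≤ ψ q := fun q => by
    simp only [hψ']; split_ifs
    · exact mul_le_of_le_one_left (hψ0 q) hc1
    · exact hψ0 q
  have hψ'q : ∀ q, 0 < q → ψ' q ≤ 1 / (q:ℝ) := fun q hq => by
    simp only [hψ']; split_ifs
    · rcases hψK q with h1 | h1
      · have hqR : (0:ℝ) < q := by exact_mod_cast hq
        calc c * ψ q ≤ c * (max K 1 / q) := by
              refine mul_le_mul_of_nonneg_left (h1.trans ?_) hc0.le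
              gcongr; exact le_max_left _ _
          _ = _ := by rw [hc]; field_simp
      · omega
    · positivity
  have hadm : ∀ q, ψ' q ≠ 0 → Adm Q0 ψ' q := fun q hq => by
    have hP : P q := by by_contra hn; exact hq (by simp [hψ', hn])
    refine ⟨hP.1, hP.2.1, ?_, hψ'q q hP.1⟩
    simp only [hψ', if_pos hP]; exact hP.2.2
  -- approximations
  have hall : ∀ q, ∃ (C : ℤ) (B : ℕ), (0 < ψ' q ∧ ψ' q ≤ 1 → 0 < B ∧ IsCoprime C (B:ℤ) ∧
      (B:ℝ) * Real.sqrt (ψ' q) ≤ 2 ∧ |(B:ℝ) * γ - C| ≤ Real.sqrt (ψ' q) ∧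
      |(B:ℝ) * γ - C| * B < 1) := fun q => by
    by_cases hq : 0 < ψ' q ∧ ψ' q ≤ 1
    · obtain ⟨C, B, hh⟩ := exists_approx γ hq.1 hq.2
      exact ⟨C, B, fun _ => hh⟩
    · exact ⟨0, 1, fun hh => absurd hh hq⟩
  choose C B hCB using hall
  have happ : ∀ q, ψ' q ≠ 0 → Approx γ ψ' C B q := fun q hq => by
    obtain ⟨hq0, -, -, h4⟩ := hadm q hq
    have hq1 : (1:ℝ) ≤ q := by exact_mod_cast hq0
    obtain ⟨a1, a2, a3, a4, a5⟩ := hCB q ⟨lt_of_le_of_ne (hψ'0 q) (Ne.symm hq),
      h4.trans ((div_le_one (by linarith)).mpr hq1)⟩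
    exact ⟨a1, a2, a3, a4, a5⟩
  -- divergence
  have hlam0 : ∀ q, 0 ≤ lam ψ' q := fun q => by
    have := hψ'0 q; unfold lam; positivity
  have hdiv' : ¬ Summable (lam ψ') := by
    intro hs
    refine hdiv ?_
    have hS1 : Summable (fun q : ℕ => (q:ℝ) ^ (-(1 + 1/100 : ℝ))) :=
      Real.summable_nat_rpow.mpr (by norm_num)
    refine Summable.of_norm_bounded_eventually_nat ((hs.add hS1).mul_left (1 / c)) ?_
    refine Filter.eventually_atTop.mpr ⟨max Q0 1, fun q hq => ?_⟩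
    have hq0 : 0 < q := by omega
    have hqR : (0:ℝ) < q := by exact_mod_cast hq0
    have hf1 : (Nat.totient q : ℝ) / q ≤ 1 := by
      rw [div_le_one hqR]; exact_mod_cast Nat.totient_le q
    have hf0 : 0 ≤ (Nat.totient q : ℝ) / q := by positivity
    rw [Real.norm_eq_abs, abs_of_nonneg (mul_nonneg hf0 (hψ0 q))]
    rw [div_mul_eq_mul_div 1 c, one_mul, le_div_iff₀ hc0]
    by_cases hP : P q
    · have e : lam ψ' q = (Nat.totient q : ℝ) / q * ψ q * c := by
        simp only [lam, hψ', if_pos hP]; ring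
      have : (0:ℝ) ≤ (q:ℝ) ^ (-(1 + 1/100 : ℝ)) := by positivity
      linarith
    · have h3 : c * ψ q < (q:ℝ) ^ (-(1 + 1/100 : ℝ)) := by
        simp only [hPdef, not_and, not_le] at hP
        exact hP hq0 (by omega)
      have h4 : (Nat.totient q : ℝ) / q * (c * ψ q) ≤ 1 * (c * ψ q) :=
        mul_le_mul_of_nonneg_right hf1 (by have := hψ0 q; positivity)
      have := hlam0 q
      linarith
  have hlam1 : ∀ q, lam ψ' q ≤ 1 := fun q => by
    rcases Nat.eq_zero_or_pos q with h0 | h0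
    · subst h0; simp [lam]
    have hqR : (0:ℝ) < q := by exact_mod_cast h0
    have h1 := hψ'q q h0
    have h2 : (1:ℝ) / q ≤ 1 := by rw [div_le_one hqR]; exact_mod_cast h0
    have h3 : (Nat.totient q : ℝ) ≤ q := by exact_mod_cast Nat.totient_le q
    unfold lam
    rw [div_le_one hqR]
    calc (Nat.totient q : ℝ) * ψ' q ≤ q * 1 :=
          mul_le_mul h3 (h1.trans h2) (hψ'0 q) hqR.le
      _ = q := mul_one _
  -- blocks
  have hblock : ∀ (Q : ℕ) (η : ℝ), 0 < η → ∃ S : Finset ℕ,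
      (∀ q ∈ S, Q ≤ q ∧ 0 < q ∧ 0 ≤ ψ' q ∧ ψ' q ≤ 1/2 ∧
        ψ' q / q * q.divisors.card ≤ η * lam ψ' q) ∧
      1 ≤ ∑ q ∈ S, lam ψ' q ∧ ∑ q ∈ S, lam ψ' q ≤ 2 ∧
      ∑ q ∈ S, ∑ r ∈ S, volume.real (ASet γ ψ' C B q ∩ ASet γ ψ' C B r ∩ Ico 0 1)
        ≤ 20 + 18 * |K2| := by
    intro Q η hη
    obtain ⟨Q1, hQ1⟩ := tau_le_totient hT hTT (lt_min hη one_pos)
    obtain ⟨S, hS, hs1, hs2⟩ := exists_unit_block hlam0 hlam1 hdiv' (max Q (max Q1 3))
    have hne : ∀ q ∈ S, ψ' q ≠ 0 := fun q hq h0 => (hS q hq).2 (by simp [lam, h0])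
    have hfacts : ∀ q ∈ S, Q ≤ q ∧ 0 < q ∧ 0 ≤ ψ' q ∧ ψ' q ≤ 1/2 ∧
        ψ' q / q * q.divisors.card ≤ min η 1 * lam ψ' q := by
      intro q hq
      have hle := (hS q hq).1
      have hq0 : 0 < q := by omega
      have hqR : (0:ℝ) < q := by exact_mod_cast hq0
      refine ⟨by omega, hq0, hψ'0 q, (hψ'q q hq0).trans ?_, ?_⟩
      · rw [div_le_iff₀ hqR]
        have : (3:ℝ) ≤ q := by exact_mod_cast (by omega : 3 ≤ q)
        linarith
      · have h2 := hQ1 q (by omega) hq0
        calc ψ' q / q * q.divisors.card ≤ ψ' q / q * (min η 1 * (Nat.totient q : ℝ)) :=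
              mul_le_mul_of_nonneg_left h2 (by have := hψ'0 q; positivity)
          _ = _ := by unfold lam; ring
    refine ⟨S, fun q hq => ?_, hs1, hs2, ?_⟩
    · obtain ⟨a, b, c', d, e⟩ := hfacts q hq
      exact ⟨a, b, c', d, e.trans (mul_le_mul_of_nonneg_right (min_le_left _ _) (hlam0 q))⟩
    · have hSM' := hSM γ ψ' C B S (fun q hq => ⟨hadm q (hne q hq), happ q (hne q hq)⟩)
      set G : ℕ → ℕ → ℝ := fun q r =>
        if r ≠ q ∧ ψ' r / r ≤ ψ' q / q then ov γ ψ' C B q r else 0 with hG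
      have hov0 : ∀ q r, 0 ≤ ov γ ψ' C B q r := fun q r => by
        have := hψ'0 r; unfold ov; positivity
      have hG0 : ∀ q r, 0 ≤ G q r := fun q r => by
        simp only [hG]; split_ifs
        · exact hov0 q r
        · exact le_rfl
      have hp : ∀ q ∈ S, ∀ r ∈ S,
          volume.real (ASet γ ψ' C B q ∩ ASet γ ψ' C B r ∩ Ico 0 1)
            ≤ (if q = r then 10 * lam ψ' q else 0) + G q r + G r q := by
        intro q hq r hr
        obtain ⟨-, hq0, hq1, hq2, hq3⟩ := hfacts q hq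
        obtain ⟨-, hr0, hr1, hr2, -⟩ := hfacts r hr
        rcases eq_or_ne q r with rfl | hne'
        · rw [if_pos rfl, inter_self]
          have h1 := aset_upper (γ := γ) (C := C) (B := B) hq0 hq1 hq2
          have h2 : ψ' q / q * q.divisors.card ≤ lam ψ' q :=
            hq3.trans (mul_le_of_le_one_left (hlam0 q) (min_le_right _ _))
          have h3 : 8 * ψ' q / q * q.divisors.card = 8 * (ψ' q / q * q.divisors.card) := by ring
          have := hG0 q q
          linarith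
        · rw [if_neg hne', zero_add]
          rcases le_total (ψ' r / (r:ℝ)) (ψ' q / q) with h' | h'
          · have h1 := aset_pair (γ := γ) (C := C) (B := B) hq0 hr0 hq1 hq2 hr1 h'
            have h2 : G q r = ov γ ψ' C B q r := if_pos ⟨hne'.symm, h'⟩
            have := hG0 r q
            linarith
          · have h1 := aset_pair (γ := γ) (C := C) (B := B) hr0 hq0 hr1 hr2 hq1 h'
            rw [inter_comm (ASet γ ψ' C B r)] at h1
            have h2 : G r q = ov γ ψ' C B r q := if_pos ⟨hne', h'⟩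
            have := hG0 q r
            linarith
      have hGs : ∑ q ∈ S, ∑ r ∈ S, G q r ≤ 9 * |K2| := by
        have e : ∑ q ∈ S, ∑ r ∈ S, G q r = ∑ q ∈ S,
            ∑ r ∈ S.filter (fun r => r ≠ q ∧ ψ' r / r ≤ ψ' q / q), ov γ ψ' C B q r :=
          Finset.sum_congr rfl fun q _ => by simp only [hG]; rw [Finset.sum_filter]
        rw [e]
        refine hSM'.trans ?_
        have hle3 : (1 + ∑ q ∈ S, lam ψ' q) ^ 2 ≤ 9 := by
          have := pow_le_pow_left₀ (by linarith) (show 1 + ∑ q ∈ S, lam ψ' q ≤ 3 by linarith) 2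
          norm_num at this
          exact this
        calc K2 * (1 + ∑ q ∈ S, lam ψ' q) ^ 2 ≤ |K2| * (1 + ∑ q ∈ S, lam ψ' q) ^ 2 :=
              mul_le_mul_of_nonneg_right (le_abs_self K2) (sq_nonneg _)
          _ ≤ |K2| * 9 := mul_le_mul_of_nonneg_left hle3 (abs_nonneg K2)
          _ = _ := mul_comm _ _
      calc _ ≤ ∑ q ∈ S, ∑ r ∈ S, ((if q = r then 10 * lam ψ' q else 0) + G q r + G r q) :=
            Finset.sum_le_sum fun q hq => Finset.sum_le_sum fun r hr => hp q hq r hr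
        _ = 10 * ∑ q ∈ S, lam ψ' q + 2 * ∑ q ∈ S, ∑ r ∈ S, G q r := by
            rw [Finset.sum_congr rfl (fun q _ => Finset.sum_add_distrib), Finset.sum_add_distrib,
              Finset.sum_congr rfl (fun q _ => Finset.sum_add_distrib), Finset.sum_add_distrib,
              Finset.sum_comm (f := fun q r => G r q), Finset.mul_sum]
            have : ∀ q ∈ S, ∑ r ∈ S, (if q = r then 10 * lam ψ' q else 0) = 10 * lam ψ' q :=
              fun q hq => by rw [Finset.sum_ite_eq, if_pos hq]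
            rw [Finset.sum_congr rfl this]; ring
        _ ≤ _ := by linarith
  -- translate to the line
  have hsub : {x : ℝ | ¬ {q : ℕ | 0 < q ∧ ∃ a : ℤ, |(q:ℝ) * x - a - γ| < ψ q}.Infinite} ⊆
      ⋃ (m : ℤ), ⋃ (M : ℕ), (fun x : ℝ => x + (-(m:ℝ))) ⁻¹' Missed γ ψ' C B M := by
    intro x hx
    rw [mem_setOf_eq, not_infinite] at hx
    obtain ⟨U, hU⟩ := hx.bddAbove
    refine mem_iUnion₂.mpr ⟨⌊x⌋, U + 1, ?_, fun q hq hhit => ?_⟩
    · constructor <;> linarith [Int.floor_le x, Int.lt_floor_add_one x]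
    · have h1 := aset_add_int hhit ⌊x⌋
      rw [show x + -(⌊x⌋:ℝ) + (⌊x⌋:ℝ) = x by ring] at h1
      obtain ⟨a, -, ha⟩ := h1
      have := hU ⟨(show 0 < q by omega), a, ha.trans_le (hψ'le q)⟩
      omega
  refine measure_mono_null hsub (measure_iUnion_null fun m => measure_iUnion_null fun M => ?_)
  rw [measure_preimage_add_right]
  exact volume_missed γ ψ' C B (20 + 18 * |K2|) (by positivity) hblock M

end Vale.P028EV
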