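import Vale.Agent.P028.EV.Weights
import Vale.Agent.P028.Pair

/-! # P028 module `Line`: counting lattice points near a line -/

open scoped BigOperators
open Finset Real

namespace Vale.P028EV

/-- points near a line with first coordinate divisible by `d` -/
theorem line_count_dvd {γ : ℝ} {C : ℤ} {B : ℕ} (hB : 0 < B) (hcop : IsCoprime C (B:ℤ))
    (z : ℤ) {V : ℕ} {D E : ℝ} (hV : 1 ≤ V) (hD : 0 ≤ D) (hE : 0 ≤ E)
    (hVE : (V:ℝ) / B ≤ E ∨ 2 * D ≤ E * |(B:ℝ) * γ - C|)
    {d : ℕ} (hd : 0 < d) (T : Finset (ℕ × ℤ))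
    (hT : ∀ p ∈ T, V ≤ p.1 ∧ p.1 < 2 * V ∧ |(p.2:ℝ) - ((p.1:ℝ) - z) * γ| < D)
    (hdT : ∀ p ∈ T, d ∣ p.1) :
    (T.card : ℝ) ≤ 8 * (D * V / d + (Nat.gcd d B : ℝ) / d * E +
      (D * B + V * |(B:ℝ) * γ - C| + 1)) := by
  classical
  set e : ℝ := (B:ℝ) * γ - C with he
  have hBR : (0:ℝ) < B := by exact_mod_cast hB
  have hVR : (1:ℝ) ≤ V := by exact_mod_cast hV
  have hdR : (0:ℝ) < d := by exact_mod_cast hd
  set g0 : ℕ := Nat.gcd d B with hg0
  have hg0pos : 0 < g0 := Nat.gcd_pos_of_pos_left B hd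
  have hg0R : (1:ℝ) ≤ g0 := by exact_mod_cast hg0pos
  rcases T.eq_empty_or_nonempty with hT0 | hTne
  · subst hT0
    simp only [card_empty, Nat.cast_zero]
    positivity
  have hDpos : 0 < D := by
    obtain ⟨p, hp⟩ := hTne
    exact lt_of_le_of_lt (abs_nonneg _) (hT p hp).2.2
  set kk : ℕ × ℤ → ℤ := fun p => p.2 * (B:ℤ) - ((p.1:ℤ) - z) * C with hkk
  set c : ℝ := ((3/2 : ℝ) * V - z) * e with hc
  have hk : ∀ p ∈ T, |((kk p : ℤ) : ℝ) - c| < D * B + (V:ℝ) / 2 * |e| := by
    intro p hp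
    obtain ⟨h1, h2, h3⟩ := hT p hp
    have h1' : (V:ℝ) ≤ p.1 := by exact_mod_cast h1
    have h2' : (p.1:ℝ) ≤ 2 * V := by exact_mod_cast h2.le
    have eq : ((kk p : ℤ) : ℝ) - c =
        ((p.2:ℝ) - ((p.1:ℝ) - z) * γ) * B + ((p.1:ℝ) - (3/2 : ℝ) * V) * e := by
      simp only [hkk, hc, he]
      push_cast
      ring
    rw [eq]
    refine lt_of_le_of_lt (abs_add_le _ _) (add_lt_add_of_lt_of_le ?_ ?_)
    · rw [abs_mul, abs_of_pos hBR]
      exact mul_lt_mul_of_pos_right h3 hBR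
    · rw [abs_mul]
      exact mul_le_mul_of_nonneg_right (abs_le.mpr ⟨by linarith, by linarith⟩) (abs_nonneg e)
  have himg : ((T.image kk).card : ℝ) ≤ (2 * D * B + V * |e|) / g0 + 1 := by
    refine Vale.P028.card_spaced (u := c - (D * B + (V:ℝ) / 2 * |e|)) hg0pos (by positivity)
      (fun a ha => ?_) (fun a ha b hb => ?_)
    · obtain ⟨p, hp, rfl⟩ := mem_image.mp ha
      obtain ⟨u1, u2⟩ := abs_lt.mp (hk p hp)
      exact ⟨by linarith, by linarith⟩
    · obtain ⟨p, hp, rfl⟩ := mem_image.mp ha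
      obtain ⟨p', hp', rfl⟩ := mem_image.mp hb
      have hgB : (g0:ℤ) ∣ (B:ℤ) := Int.natCast_dvd_natCast.mpr (Nat.gcd_dvd_right d B)
      have hgd : (g0:ℤ) ∣ (d:ℤ) := Int.natCast_dvd_natCast.mpr (Nat.gcd_dvd_left d B)
      have a1 : (g0:ℤ) ∣ (p.1:ℤ) := hgd.trans (Int.natCast_dvd_natCast.mpr (hdT p hp))
      have a2 : (g0:ℤ) ∣ (p'.1:ℤ) := hgd.trans (Int.natCast_dvd_natCast.mpr (hdT p' hp'))
      have : kk p - kk p' = (p.2 - p'.2) * (B:ℤ) - ((p.1:ℤ) - p'.1) * C := by
        simp only [hkk]; ring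
      rw [this]
      exact dvd_sub (hgB.mul_left _) ((dvd_sub a1 a2).mul_right C)
  obtain ⟨l, hl0, hlV, hle, hlE, hfib⟩ : ∃ l : ℝ, 0 ≤ l ∧ l ≤ 2 * V ∧ l * |e| ≤ 2 * D * B ∧
      l ≤ 2 * E * B ∧ ∀ k : ℤ, ∃ u : ℝ, ∀ p ∈ T, kk p = k → u < (p.1:ℝ) ∧ (p.1:ℝ) < u + l := by
    by_cases hsmall : 2 * (V:ℝ) * |e| ≤ 2 * D * B
    · refine ⟨2 * V, by positivity, le_rfl, hsmall, ?_, fun k => ⟨(V:ℝ) - 1/2, fun p hp _ => ?_⟩⟩
      · rcases hVE with h | h
        · rw [div_le_iff₀ hBR] at h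
          linarith
        · have hh : 2 * (V:ℝ) * |e| ≤ E * B * |e| := by
            calc 2 * (V:ℝ) * |e| ≤ 2 * D * B := hsmall
              _ ≤ E * |e| * B := mul_le_mul_of_nonneg_right h hBR.le
              _ = _ := by ring
          rcases eq_or_lt_of_le (abs_nonneg e) with h0 | h0
          · rw [← h0, mul_zero] at h
            linarith
          · have := le_of_mul_le_mul_right hh h0
            have : 0 ≤ E * B := by positivity
            linarith
      · obtain ⟨h1, h2, -⟩ := hT p hp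
        have h1' : (V:ℝ) ≤ p.1 := by exact_mod_cast h1
        have h2' : (p.1:ℝ) + 1 ≤ 2 * V := by exact_mod_cast h2
        exact ⟨by linarith, by linarith⟩
    · have he0 : e ≠ 0 := fun h0 => hsmall (by rw [h0, abs_zero, mul_zero]; positivity)
      have hea : 0 < |e| := abs_pos.mpr he0
      refine ⟨2 * D * B / |e|, by positivity, ?_, by rw [div_mul_cancel₀ _ hea.ne'], ?_,
        fun k => ⟨((k:ℝ) + z * e) / e - D * B / |e|, fun p hp hpk => ?_⟩⟩
      · rw [div_le_iff₀ hea]; linarith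
      · rw [div_le_iff₀ hea]
        rcases hVE with h | h
        · rw [div_le_iff₀ hBR] at h
          have := mul_le_mul_of_nonneg_right h hea.le
          linarith
        · have := mul_le_mul_of_nonneg_right h hBR.le
          have : 0 ≤ E * |e| * B := by positivity
          linarith
      · have h3 := (hT p hp).2.2
        have eq : (p.1:ℝ) - ((k:ℝ) + z * e) / e =
            -(((p.2:ℝ) - ((p.1:ℝ) - z) * γ) * B) / e := by
          rw [← hpk]
          simp only [hkk]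
          push_cast
          field_simp
          rw [he]
          ring
        have hlt : |(p.1:ℝ) - ((k:ℝ) + z * e) / e| < D * B / |e| := by
          rw [eq, abs_div, abs_neg, abs_mul, abs_of_pos hBR]
          exact div_lt_div_of_pos_right (mul_lt_mul_of_pos_right h3 hBR) hea
        obtain ⟨u1, u2⟩ := abs_lt.mp hlt
        have : 2 * D * B / |e| = 2 * (D * B / |e|) := by ring
        exact ⟨by linarith, by linarith⟩
  have hlcm : 0 < Nat.lcm d B := Nat.pos_of_ne_zero (Nat.lcm_ne_zero hd.ne' hB.ne')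
  have hfc : ∀ k : ℤ, (((T.filter fun p => kk p = k).card : ℕ) : ℝ) ≤ l / (Nat.lcm d B : ℕ) + 1 := by
    intro k
    obtain ⟨u, hu⟩ := hfib k
    have hinj : Set.InjOn (fun p : ℕ × ℤ => (p.1:ℤ)) ↑(T.filter fun p => kk p = k) := by
      intro p hp p' hp' heq
      rw [Finset.mem_coe, mem_filter] at hp hp'
      have h1 : (p.1:ℤ) = p'.1 := heq
      have h2 : p.2 * (B:ℤ) = p'.2 * (B:ℤ) := by
        have := hp.2.trans hp'.2.symm
        simp only [hkk] at this
        rw [h1] at this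
        linarith
      exact Prod.ext (by exact_mod_cast h1) (mul_right_cancel₀ (by exact_mod_cast hB.ne') h2)
    rw [← card_image_of_injOn hinj]
    refine Vale.P028.card_spaced (u := u) hlcm hl0 (fun a ha => ?_) (fun a ha b hb => ?_)
    · obtain ⟨p, hp, rfl⟩ := mem_image.mp ha
      rw [mem_filter] at hp
      simpa using hu p hp.1 hp.2
    · obtain ⟨p, hp, rfl⟩ := mem_image.mp ha
      obtain ⟨p', hp', rfl⟩ := mem_image.mp hb
      rw [mem_filter] at hp hp'
      have hd' : (d:ℤ) ∣ (p.1:ℤ) - p'.1 :=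
        dvd_sub (Int.natCast_dvd_natCast.mpr (hdT p hp.1)) (Int.natCast_dvd_natCast.mpr (hdT p' hp'.1))
      have hB' : (B:ℤ) ∣ (p.1:ℤ) - p'.1 := by
        refine hcop.symm.dvd_of_dvd_mul_right ⟨p.2 - p'.2, ?_⟩
        have := hp.2.trans hp'.2.symm
        simp only [hkk] at this
        linarith
      have := Int.natCast_dvd.mpr (Nat.lcm_dvd (Int.natCast_dvd.mp hd') (Int.natCast_dvd.mp hB'))
      exact this
  have hcard : (T.card : ℝ) ≤ ((T.image kk).card : ℝ) * (l / (Nat.lcm d B : ℕ) + 1) := by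
    rw [card_eq_sum_card_image kk T, Nat.cast_sum]
    refine le_trans (sum_le_sum fun k _ => hfc k) ?_
    rw [sum_const, nsmul_eq_mul]
  have hl' : l / ((Nat.lcm d B : ℕ) : ℝ) = l * g0 / (d * B) := by
    have hm : (g0:ℝ) * (Nat.lcm d B : ℕ) = d * B := by exact_mod_cast Nat.gcd_mul_lcm d B
    have hlR : ((Nat.lcm d B : ℕ) : ℝ) ≠ 0 := by exact_mod_cast hlcm.ne'
    rw [← hm]
    field_simp
  have hl2 : l * g0 / (d * B) ≤ 2 * ((g0:ℝ) / d * E) := by
    calc l * g0 / (d * B) ≤ 2 * E * B * g0 / (d * B) := by gcongr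
      _ = _ := by field_simp
  have hl1 : (2 * D * B + V * |e|) * l / (d * B) ≤ 6 * (D * V / d) := by
    have h1 : (2 * D * B + V * |e|) * l ≤ 6 * (D * V) * B := by
      calc (2 * D * B + V * |e|) * l = 2 * D * B * l + V * (l * |e|) := by ring
        _ ≤ 2 * D * B * (2 * V) + V * (2 * D * B) := by gcongr
        _ = _ := by ring
    calc (2 * D * B + V * |e|) * l / (d * B) ≤ 6 * (D * V) * B / (d * B) := by gcongr
      _ = _ := by field_simp
  have hl3 : (2 * D * B + V * |e|) / g0 ≤ 2 * D * B + V * |e| :=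
    div_le_self (by positivity) hg0R
  calc (T.card : ℝ) ≤ _ := hcard
    _ ≤ ((2 * D * B + V * |e|) / g0 + 1) * (l / (Nat.lcm d B : ℕ) + 1) := by
        exact mul_le_mul_of_nonneg_right himg (by positivity)
    _ = (2 * D * B + V * |e|) * l / (d * B) + (2 * D * B + V * |e|) / g0 +
          l * g0 / (d * B) + 1 := by
        rw [hl']
        field_simp
        ring
    _ ≤ _ := by
        have : 0 ≤ D * V / d := by positivity
        have : 0 ≤ (g0:ℝ) / d * E := by positivity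
        have : 0 ≤ V * |e| := by positivity
        have : 0 ≤ D * B := by positivity
        nlinarith

/-- the plain count -/
theorem lineCount : LineCountStmt := by
  refine ⟨8, by norm_num, fun γ C B hB hcop z V D E hV hD hE hVE T hT => ?_⟩
  refine (line_count_dvd hB hcop z hV hD hE hVE one_pos T hT fun p _ => one_dvd _).trans (le_of_eq ?_)
  simp only [Nat.gcd_one_left, Nat.cast_one, div_one, one_mul]
  ring

theorem prod_hp_expand (s : Finset ℕ) :
    ∏ p ∈ s, hp p = ∑ t ∈ s.powerset, ∏ p ∈ t, (hp p - 1) := by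
  rw [← prod_one_add]
  exact prod_congr rfl fun p _ => by ring

theorem gcd_prod_le (t : Finset ℕ) (B : ℕ) :
    Nat.gcd (∏ p ∈ t, p) B ∣ ∏ p ∈ t, Nat.gcd p B := by
  induction t using Finset.induction_on with
  | empty => simp
  | insert a s ha ih =>
    rw [prod_insert ha, prod_insert ha]
    rw [Nat.gcd_comm, Nat.gcd_comm a]
    refine (Nat.gcd_mul_right_dvd_mul_gcd B a _).trans (mul_dvd_mul_left _ ?_)
    rwa [Nat.gcd_comm]

/-- the weighted count -/
theorem lineHw : LineHwStmt := by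
  obtain ⟨K1, hK1, hcheb⟩ := cheb_sum
  obtain ⟨T0, hT0, hT0'⟩ := sum_log_div_sq_le
  intro ε hε
  set A : ℝ := Real.exp ((1/12 : ℝ) * 2) with hA
  set M : ℝ := Real.exp T0 + Real.exp T0 + Real.exp (K1 + 1) * (1 + 1 / ε) with hM
  refine ⟨A * 8 * M, by positivity, fun γ C B hB hcop z V D E Q hV hD hE hQ hVQ hVE T hT => ?_⟩
  classical
  set lQ := Real.log Q with hlQ
  have hlQ0 : 0 ≤ lQ := Real.log_nonneg (by linarith)
  set P : ℕ := ⌊lQ⌋₊ + 1 with hP
  set Pr := Nat.primesLE P with hPr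
  have hbig : ∀ p ∈ T, hw p.1 ≤ A * ∑ t ∈ Pr.powerset,
      if (∏ x ∈ t, x) ∣ p.1 then ∏ x ∈ t, (hp x - 1) else 0 := by
    intro p hp'
    obtain ⟨h1, h2, -⟩ := hT p hp'
    have hv : 0 < p.1 := by omega
    rw [hw_eq_prod, ← prod_filter_mul_prod_filter_not _ (fun x => x ≤ P), mul_comm]
    refine mul_le_mul ?_ ?_ (prod_nonneg fun x _ => le_trans zero_le_one (one_le_hp x))
      (Real.exp_nonneg _)
    · simp only [hp, ← Real.exp_sum, ← mul_sum, hA]
      refine Real.exp_le_exp.mpr (mul_le_mul_of_nonneg_left ?_ (by norm_num))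
      have e : p.1.primeFactors.filter (fun x => ¬ x ≤ P) =
          p.1.primeFactors.filter (fun x => P < x) := filter_congr fun x _ => not_le
      rw [e]
      refine (sum_large_le hv).trans ?_
      rw [div_le_iff₀ (by positivity)]
      have hv2 : Real.log p.1 ≤ 2 * lQ := by
        have hh : (p.1:ℝ) ≤ Q ^ 2 := by
          have : (p.1:ℝ) ≤ 2 * V := by exact_mod_cast h2.le
          linarith
        have := Real.log_le_log (by exact_mod_cast hv) hh
        rw [Real.log_pow] at this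
        push_cast at this
        exact this
      have : lQ ≤ ((P + 1 : ℕ) : ℝ) := by
        rw [hP]; push_cast
        linarith [Nat.lt_floor_add_one lQ]
      linarith
    · rw [prod_hp_expand]
      refine le_trans (sum_le_sum fun t ht => ?_) (sum_le_sum_of_subset_of_nonneg
        (powerset_mono.mpr fun x hx => ?_) fun t _ _ => ?_)
      · rw [if_pos ?_]
        exact dvd_trans (prod_dvd_prod_of_subset _ _ _ ((mem_powerset.mp ht).trans (filter_subset _ _)))
          (Nat.prod_primeFactors_dvd p.1)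
      · rw [mem_filter] at hx
        exact Nat.mem_primesLE.mpr ⟨hx.2, Nat.prime_of_mem_primeFactors hx.1⟩
      · split_ifs
        · exact prod_nonneg fun x _ => sub_nonneg.mpr (one_le_hp x)
        · exact le_rfl
  refine (sum_le_sum hbig).trans ?_
  rw [← mul_sum, mul_assoc, mul_assoc]
  refine mul_le_mul_of_nonneg_left ?_ (Real.exp_nonneg _)
  rw [sum_comm]
  have hcount : ∀ t ∈ Pr.powerset,
      (∑ p ∈ T, if (∏ x ∈ t, x) ∣ p.1 then ∏ x ∈ t, (hp x - 1) else 0) ≤
        8 * ((D * V) * ∏ x ∈ t, ((hp x - 1) / x) +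
          E * ∏ x ∈ t, ((hp x - 1) * (Nat.gcd x B : ℝ) / x) +
          (D * B + V * |(B:ℝ) * γ - C| + 1) * ∏ x ∈ t, (hp x - 1)) := by
    intro t ht
    have hpos : 0 < ∏ x ∈ t, x :=
      prod_pos fun x hx => (Nat.mem_primesLE.mp (mem_powerset.mp ht hx)).2.pos
    have hη : 0 ≤ ∏ x ∈ t, (hp x - 1) := prod_nonneg fun x _ => sub_nonneg.mpr (one_le_hp x)
    rw [← sum_filter, sum_const, nsmul_eq_mul]
    have h := line_count_dvd hB hcop z hV hD hE hVE hpos (T.filter fun p => (∏ x ∈ t, x) ∣ p.1)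
      (fun p hp' => hT p (mem_filter.mp hp').1) (fun p hp' => (mem_filter.mp hp').2)
    refine (mul_le_mul_of_nonneg_right h hη).trans ?_
    have hg : ((Nat.gcd (∏ x ∈ t, x) B : ℕ) : ℝ) ≤ ∏ x ∈ t, (Nat.gcd x B : ℝ) := by
      rw [← Nat.cast_prod]
      exact Nat.cast_le.mpr (Nat.le_of_dvd (prod_pos fun x hx => Nat.gcd_pos_of_pos_left B
        (Nat.mem_primesLE.mp (mem_powerset.mp ht hx)).2.pos) (gcd_prod_le t B))
    rw [prod_div_distrib, prod_div_distrib, prod_mul_distrib, Nat.cast_prod]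
    have hposR : (0:ℝ) < ∏ x ∈ t, (x:ℝ) := by rw [← Nat.cast_prod]; exact_mod_cast hpos
    calc 8 * (D * V / (∏ x ∈ t, (x:ℝ)) + (Nat.gcd (∏ x ∈ t, x) B : ℝ) / (∏ x ∈ t, (x:ℝ)) * E +
          (D * B + V * |(B:ℝ) * γ - C| + 1)) * ∏ x ∈ t, (hp x - 1)
        ≤ 8 * (D * V / (∏ x ∈ t, (x:ℝ)) + (∏ x ∈ t, (Nat.gcd x B : ℝ)) / (∏ x ∈ t, (x:ℝ)) * E +
          (D * B + V * |(B:ℝ) * γ - C| + 1)) * ∏ x ∈ t, (hp x - 1) := by gcongr
      _ = _ := by ring
  refine (sum_le_sum hcount).trans ?_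
  rw [← mul_sum, sum_add_distrib, sum_add_distrib, ← mul_sum, ← mul_sum, ← mul_sum,
    ← prod_one_add, ← prod_one_add, ← prod_hp_expand]
  refine mul_le_mul_of_nonneg_left ?_ (by norm_num)
  have hpr : ∀ x ∈ Pr, x.Prime := fun x hx => (Nat.mem_primesLE.mp hx).2
  have hloc : ∀ x ∈ Pr, 1 + (hp x - 1) / x ≤ Real.exp (Real.log x / ((x:ℝ) * x)) := by
    intro x hx
    refine le_trans ?_ (Real.add_one_le_exp _)
    have h6 : (hp x - 1) / x ≤ (Real.log x / x) / x := by
      refine div_le_div_of_nonneg_right ?_ (Nat.cast_nonneg x)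
      have : 0 ≤ Real.log x / (x:ℝ) := div_nonneg (Real.log_natCast_nonneg x) (Nat.cast_nonneg x)
      linarith [hp_sub_one_le x]
    rw [div_div] at h6
    linarith
  have hexp : ∏ x ∈ Pr, Real.exp (Real.log x / ((x:ℝ) * x)) ≤ Real.exp T0 := by
    rw [← Real.exp_sum]
    exact Real.exp_le_exp.mpr (hT0' Pr hpr)
  have hnn : ∀ x : ℕ, 0 ≤ (hp x - 1) / x := fun x =>
    div_nonneg (sub_nonneg.mpr (one_le_hp x)) (Nat.cast_nonneg x)
  have s1 : ∏ x ∈ Pr, (1 + (hp x - 1) / x) ≤ Real.exp T0 :=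
    (prod_le_prod (fun x _ => by linarith [hnn x]) hloc).trans hexp
  have s2 : ∏ x ∈ Pr, (1 + (hp x - 1) * (Nat.gcd x B : ℝ) / x) ≤ Real.exp T0 * hw B := by
    have h2 : ∀ x ∈ Pr, 1 + (hp x - 1) * (Nat.gcd x B : ℝ) / x ≤
        Real.exp (Real.log x / ((x:ℝ) * x)) * (if x ∣ B then hp x else 1) := by
      intro x hx
      have hx0 : (x:ℝ) ≠ 0 := by exact_mod_cast (hpr x hx).ne_zero
      by_cases hxB : x ∣ B
      · rw [if_pos hxB, Nat.gcd_eq_left hxB, mul_div_assoc, div_self hx0, mul_one,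
          add_sub_cancel]
        refine le_mul_of_one_le_left (le_trans zero_le_one (one_le_hp x)) (Real.one_le_exp ?_)
        exact div_nonneg (Real.log_natCast_nonneg x) (mul_nonneg (Nat.cast_nonneg x) (Nat.cast_nonneg x))
      · have : Nat.gcd x B = 1 := ((hpr x hx).coprime_iff_not_dvd.mpr hxB)
        rw [if_neg hxB, this, Nat.cast_one, mul_one, mul_one]
        exact hloc x hx
    refine (prod_le_prod (fun x _ => ?_) h2).trans ?_
    · have : 0 ≤ (hp x - 1) * (Nat.gcd x B : ℝ) / x :=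
        div_nonneg (mul_nonneg (sub_nonneg.mpr (one_le_hp x)) (Nat.cast_nonneg _)) (Nat.cast_nonneg x)
      linarith
    rw [prod_mul_distrib]
    refine mul_le_mul hexp ?_ (prod_nonneg fun x _ => ?_) (Real.exp_nonneg _)
    · rw [← prod_filter, hw_eq_prod]
      refine prod_le_prod_of_subset_of_one_le (fun x hx => ?_)
        (fun x _ => le_trans zero_le_one (one_le_hp x)) fun x _ _ => one_le_hp x
      rw [mem_filter] at hx
      exact Nat.mem_primeFactors.mpr ⟨hpr x hx.1, hx.2, hB.ne'⟩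
    · split_ifs
      · exact le_trans zero_le_one (one_le_hp x)
      · exact zero_le_one
  have s3 : ∏ x ∈ Pr, hp x ≤ Real.exp (K1 + 1) * (1 + 1 / ε) * Q ^ ε := by
    have hP1 : (1:ℝ) ≤ P := by exact_mod_cast Nat.succ_le_succ (Nat.zero_le _)
    have hPl : (P:ℝ) ≤ 1 + lQ := by
      rw [hP]; push_cast
      linarith [Nat.floor_le hlQ0]
    calc ∏ x ∈ Pr, hp x = Real.exp ((1/12 : ℝ) * ∑ x ∈ Pr, Real.log x / x) := by
          rw [mul_sum, Real.exp_sum]; rfl
      _ ≤ Real.exp (Real.log P + (K1 + 1)) := by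
          refine Real.exp_le_exp.mpr ?_
          have h := hcheb P (by omega)
          rw [hPr]
          have := Real.log_nonneg hP1
          linarith
      _ = P * Real.exp (K1 + 1) := by rw [Real.exp_add, Real.exp_log (by linarith)]
      _ ≤ ((1 + 1 / ε) * Q ^ ε) * Real.exp (K1 + 1) := by
          refine mul_le_mul_of_nonneg_right (hPl.trans ?_) (Real.exp_nonneg _)
          have h1 : 1 + lQ * ε ≤ Q ^ ε := by
            rw [Real.rpow_def_of_pos (by linarith), ← hlQ]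
            linarith [Real.add_one_le_exp (lQ * ε)]
          refine le_trans ?_ (mul_le_mul_of_nonneg_left h1 (by positivity))
          have e : (1 + 1 / ε) * (1 + lQ * ε) = 1 + lQ + (lQ * ε + 1 / ε) := by field_simp; ring
          rw [e]
          have : 0 ≤ lQ * ε + 1 / ε := by positivity
          linarith
      _ = _ := by ring
  have hX : 0 ≤ D * B + V * |(B:ℝ) * γ - C| + 1 := by positivity
  have hhw : 0 ≤ hw B * E := mul_nonneg (Real.exp_nonneg _) hE
  have hDV : 0 ≤ D * V := by positivity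
  have hq : 0 ≤ Q ^ ε * (D * B + V * |(B:ℝ) * γ - C| + 1) :=
    mul_nonneg (Real.rpow_nonneg (by linarith) _) hX
  have b1 := mul_le_mul_of_nonneg_left s1 hDV
  have b2 := mul_le_mul_of_nonneg_left s2 hE
  have b3 := mul_le_mul_of_nonneg_left s3 hX
  have hme : Real.exp T0 ≤ M := by
    rw [hM]
    have : 0 ≤ Real.exp T0 + Real.exp (K1 + 1) * (1 + 1 / ε) := by positivity
    linarith
  have hmq : Real.exp (K1 + 1) * (1 + 1 / ε) ≤ M := by
    rw [hM]
    linarith [Real.exp_nonneg T0]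
  have c1 := mul_le_mul_of_nonneg_right hme hDV
  have c2 := mul_le_mul_of_nonneg_right hme hhw
  have c3 := mul_le_mul_of_nonneg_right hmq hq
  linarith

end Vale.P028EV
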