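import Vale.Agent.P028.EV.Defs

/-! # P028: the second moment from the two cases -/

namespace Vale.P028EV

open scoped Classical in
theorem secondMoment (hA : CaseAStmt) (hB : CaseBStmt) : SecondMomentStmt := by
  obtain ⟨K1, Q1, h1⟩ := hA
  obtain ⟨K2, Q2, h2⟩ := hB
  refine ⟨K1 + K2, max Q1 Q2, fun γ ψ C B S hS => ?_⟩
  have a := h1 γ ψ C B S fun q hq => by
    obtain ⟨⟨a, b, c, d⟩, e⟩ := hS q hq
    exact ⟨⟨a, (le_max_left _ _).trans b, c, d⟩, e⟩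
  have b := h2 γ ψ C B S fun q hq => by
    obtain ⟨⟨a, b, c, d⟩, e⟩ := hS q hq
    exact ⟨⟨a, (le_max_right _ _).trans b, c, d⟩, e⟩
  rw [add_mul]
  refine le_of_eq_of_le ?_ (add_le_add a b)
  rw [← Finset.sum_add_distrib]
  refine Finset.sum_congr rfl fun q _ => ?_
  rw [Finset.sum_filter, Finset.sum_filter, Finset.sum_filter, ← Finset.sum_add_distrib]
  refine Finset.sum_congr rfl fun r _ => ?_
  rcases lt_or_ge (DD ψ q r) (1/8) with h | h
  · by_cases hp : r ≠ q ∧ ψ r / r ≤ ψ q / q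
    · rw [if_pos hp, if_neg (fun hh => absurd hh.2.2 (not_le.mpr h)), if_pos ⟨hp.1, hp.2, h⟩,
        zero_add]
    · rw [if_neg hp, if_neg (fun hh => hp ⟨hh.1, hh.2.1⟩), if_neg (fun hh => hp ⟨hh.1, hh.2.1⟩),
        add_zero]
  · by_cases hp : r ≠ q ∧ ψ r / r ≤ ψ q / q
    · rw [if_pos hp, if_pos ⟨hp.1, hp.2, h⟩, if_neg (fun hh => absurd hh.2.2 (not_lt.mpr h)),
        add_zero]
    · rw [if_neg hp, if_neg (fun hh => hp ⟨hh.1, hh.2.1⟩), if_neg (fun hh => hp ⟨hh.1, hh.2.1⟩),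
        add_zero]

end Vale.P028EV
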