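import Vale.Agent.P028.EV.Weights
import Vale.Agent.P028.EV.Dyadic

/-! # P028 module `SideQ`: the sum over `r` for a fixed `q` -/

open scoped BigOperators
open Finset Real

namespace Vale.P028EV

/-- the profile `min 1 (τ^(3/2))` -/
noncomputable def prof (τ : ℝ) : ℝ := min 1 (τ ^ (3/2 : ℝ))

theorem prof_nonneg {τ : ℝ} (h : 0 ≤ τ) : 0 ≤ prof τ :=
  le_min zero_le_one (Real.rpow_nonneg h _)

theorem prof_le_one (τ : ℝ) : prof τ ≤ 1 := min_le_left _ _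

theorem prof_le_rpow {τ a : ℝ} (hτ : 0 ≤ τ) (ha : 0 ≤ a) (ha' : a ≤ 3/2) : prof τ ≤ τ ^ a := by
  rcases le_total τ 1 with h | h
  · rcases eq_or_lt_of_le hτ with h0 | h0
    · rw [← h0, prof, Real.zero_rpow (by norm_num), min_eq_right zero_le_one]
      exact Real.rpow_nonneg le_rfl _
    · exact (min_le_right _ _).trans (Real.rpow_le_rpow_of_exponent_ge h0 h ha')
  · exact (min_le_left _ _).trans (Real.one_le_rpow h ha)

theorem rpow_quarter_log_le {u : ℝ} (hu : 0 < u) : u ^ (1/4 : ℝ) * Real.log (1 / u) ≤ 4 := by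
  have h := Real.log_le_rpow_div (x := 1 / u) (by positivity) (show (0:ℝ) < 1/4 by norm_num)
  have hne : u ^ (1/4 : ℝ) ≠ 0 := (Real.rpow_pos_of_pos hu _).ne'
  refine (mul_le_mul_of_nonneg_left h (Real.rpow_nonneg hu.le _)).trans (le_of_eq ?_)
  rw [Real.div_rpow zero_le_one hu.le, Real.one_rpow]
  field_simp

/-- the main dyadic sum -/
theorem sum_main_le {u t g : ℝ} (hu : 0 < u) (hu1 : u ≤ 1) (ht : 0 < t) (hg : 1 ≤ g) (s : Finset ℕ)
    (hs : ∀ j ∈ s, (2:ℝ) ^ j * t ≤ g / Real.sqrt u) :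
    ∑ j ∈ s, u ^ (1/4 : ℝ) * prof ((2:ℝ) ^ j * t) ≤
      ((2:ℝ) ^ (3/2 : ℝ) / ((2:ℝ) ^ (3/2 : ℝ) - 1) + 8) * (1 + Real.log g) := by
  set A : ℝ := (2:ℝ) ^ (3/2 : ℝ) / ((2:ℝ) ^ (3/2 : ℝ) - 1)
  have hA : 0 ≤ A := by
    have : (1:ℝ) < (2:ℝ) ^ (3/2 : ℝ) := Real.one_lt_rpow one_lt_two (by norm_num)
    exact div_nonneg (by linarith) (by linarith)
  have hl : 0 ≤ Real.log g := Real.log_nonneg hg
  have hq0 : 0 ≤ u ^ (1/4 : ℝ) := Real.rpow_nonneg hu.le _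
  have hq1 : u ^ (1/4 : ℝ) ≤ 1 := Real.rpow_le_one hu.le hu1 (by norm_num)
  classical
  rw [← sum_filter_add_sum_filter_not s (fun j => (2:ℝ) ^ j * t ≤ 1)]
  have h1 : ∑ j ∈ s.filter (fun j => (2:ℝ) ^ j * t ≤ 1), u ^ (1/4 : ℝ) * prof ((2:ℝ) ^ j * t) ≤ A := by
    calc ∑ j ∈ s.filter (fun j => (2:ℝ) ^ j * t ≤ 1), u ^ (1/4 : ℝ) * prof ((2:ℝ) ^ j * t)
        ≤ ∑ j ∈ s.filter (fun j => (2:ℝ) ^ j * t ≤ 1), ((2:ℝ) ^ j) ^ (3/2 : ℝ) * t ^ (3/2 : ℝ) := by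
          refine sum_le_sum fun j _ => ?_
          rw [← Real.mul_rpow (by positivity) ht.le]
          refine (mul_le_of_le_one_left (prof_nonneg (by positivity)) hq1).trans ?_
          exact prof_le_rpow (by positivity) (by norm_num) le_rfl
      _ ≤ A * (1 / t) ^ (3/2 : ℝ) * t ^ (3/2 : ℝ) := by
          rw [← sum_mul]
          refine mul_le_mul_of_nonneg_right (sum_dyadic_le (by norm_num) (by positivity) fun j hj => ?_)
            (Real.rpow_nonneg ht.le _)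
          rw [le_div_iff₀ ht]; exact (mem_filter.mp hj).2
      _ = A := by
          rw [mul_assoc, ← Real.mul_rpow (by positivity) ht.le, one_div_mul_cancel ht.ne',
            Real.one_rpow, mul_one]
  have h2 : ∑ j ∈ s.filter (fun j => ¬ (2:ℝ) ^ j * t ≤ 1), u ^ (1/4 : ℝ) * prof ((2:ℝ) ^ j * t) ≤
      8 * (1 + Real.log g) := by
    set s2 := s.filter (fun j => ¬ (2:ℝ) ^ j * t ≤ 1)
    have hsu : 0 < Real.sqrt u := Real.sqrt_pos.mpr hu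
    have hc := card_dyadic (s := s2) (M₁ := 1 / t) (M₂ := g / (Real.sqrt u * t)) (by positivity)
      (fun j hj => by
        obtain ⟨a, b⟩ := mem_filter.mp hj
        constructor
        · rw [div_le_iff₀ ht]; exact (not_le.mp b).le
        · rw [le_div_iff₀ (by positivity)]
          have := hs j a
          rw [le_div_iff₀ hsu] at this
          linarith)
    have e : g / (Real.sqrt u * t) / (1 / t) = g / Real.sqrt u := by field_simp
    have elog : Real.log (g / Real.sqrt u) = Real.log g + Real.log (1 / u) / 2 := by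
      rw [Real.log_div (by linarith) hsu.ne', Real.log_sqrt hu.le, Real.log_div one_ne_zero hu.ne',
        Real.log_one]
      ring
    rw [e, elog] at hc
    have hl2 : (2/3 : ℝ) ≤ Real.log 2 := by linarith [Real.log_two_gt_d9]
    have hlu : 0 ≤ Real.log (1 / u) := Real.log_nonneg (by rw [le_div_iff₀ hu]; linarith)
    rw [max_eq_right (div_nonneg (by positivity) (by linarith))] at hc
    have hc' : (s2.card : ℝ) ≤ 1 + (3/2 : ℝ) * (Real.log g + Real.log (1 / u) / 2) := by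
      refine hc.trans (add_le_add le_rfl ?_)
      rw [div_le_iff₀ (by linarith)]
      have : 0 ≤ Real.log g + Real.log (1 / u) / 2 := by positivity
      nlinarith
    calc ∑ j ∈ s2, u ^ (1/4 : ℝ) * prof ((2:ℝ) ^ j * t) ≤ ∑ _j ∈ s2, u ^ (1/4 : ℝ) :=
          sum_le_sum fun j _ => mul_le_of_le_one_right hq0 (prof_le_one _)
      _ = (s2.card : ℝ) * u ^ (1/4 : ℝ) := by rw [sum_const, nsmul_eq_mul]
      _ ≤ (1 + (3/2 : ℝ) * (Real.log g + Real.log (1 / u) / 2)) * u ^ (1/4 : ℝ) :=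
          mul_le_mul_of_nonneg_right hc' hq0
      _ ≤ _ := by
          have h3 := rpow_quarter_log_le hu
          have h4 : Real.log g * u ^ (1/4 : ℝ) ≤ Real.log g := mul_le_of_le_one_right hl hq1
          nlinarith
  have h5 : A ≤ A * (1 + Real.log g) := le_mul_of_one_le_right hA (by linarith)
  linarith

/-- the secondary dyadic sum -/
theorem sum_extra_le {u t L c : ℝ} (hu : 0 < u) (hu1 : u ≤ 1) (ht : 0 < t) (hL : 0 < L)
    (hc : 0 < c) (hc1 : t * Real.sqrt u ≤ c * L) (s : Finset ℕ)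
    (hcase : ∀ j ∈ s, 1/32 ≤ (2:ℝ) ^ j * L ∨ (2:ℝ) ^ j * t ≤ 4 * Real.sqrt u * ((2:ℝ) ^ j * L)) :
    ∑ j ∈ s, u ^ (1/4 : ℝ) * prof ((2:ℝ) ^ j * t) / ((2:ℝ) ^ j * L) ≤
      (4 * ((2:ℝ) ^ (3/2 - 1 : ℝ) / ((2:ℝ) ^ (3/2 - 1 : ℝ) - 1) + (2:ℝ) ^ (1:ℝ) / ((2:ℝ) ^ (1:ℝ) - 1)) +
        32 * ((2:ℝ) ^ (1:ℝ) / ((2:ℝ) ^ (1:ℝ) - 1)) +
        8 * ((2:ℝ) ^ (1/2 : ℝ) / ((2:ℝ) ^ (1/2 : ℝ) - 1))) * min 1 (Real.sqrt c) := by
  set G : ℝ := (2:ℝ) ^ (3/2 - 1 : ℝ) / ((2:ℝ) ^ (3/2 - 1 : ℝ) - 1) + (2:ℝ) ^ (1:ℝ) / ((2:ℝ) ^ (1:ℝ) - 1)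
  set G1 : ℝ := (2:ℝ) ^ (1:ℝ) / ((2:ℝ) ^ (1:ℝ) - 1) with hG1
  set G2 : ℝ := (2:ℝ) ^ (1/2 : ℝ) / ((2:ℝ) ^ (1/2 : ℝ) - 1)
  set m0 := min 1 (Real.sqrt c) with hm0
  have hm : 0 ≤ m0 := le_min zero_le_one (Real.sqrt_nonneg c)
  have hq0 : 0 ≤ u ^ (1/4 : ℝ) := Real.rpow_nonneg hu.le _
  have hq1 : u ^ (1/4 : ℝ) ≤ 1 := Real.rpow_le_one hu.le hu1 (by norm_num)
  have hsu : Real.sqrt u ≤ 1 := Real.sqrt_le_one.mpr hu1
  have hsu0 : 0 < Real.sqrt u := Real.sqrt_pos.mpr hu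
  classical
  have hA : ∀ j ∈ s.filter (fun j => 1/32 ≤ (2:ℝ) ^ j * L),
      u ^ (1/4 : ℝ) * prof ((2:ℝ) ^ j * t) / ((2:ℝ) ^ j * L) ≤
        m0 * (((2:ℝ) ^ j) ^ (-(1:ℝ)) * L ^ (-(1:ℝ)) +
          ((2:ℝ) ^ j) ^ (-(1/2 : ℝ)) * L ^ (-(1/2 : ℝ))) := by
    intro j _
    set ρ := (2:ℝ) ^ j * L with hρ
    set τ := (2:ℝ) ^ j * t with hτ
    have hρ0 : 0 < ρ := by positivity
    have hτ0 : 0 < τ := by positivity
    rw [← Real.mul_rpow (by positivity) hL.le, ← Real.mul_rpow (by positivity) hL.le, ← hρ,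
      Real.rpow_neg hρ0.le, Real.rpow_neg hρ0.le, Real.rpow_one, ← Real.sqrt_eq_rpow]
    have hp0 : 0 ≤ prof τ := prof_nonneg hτ0.le
    have t1 : u ^ (1/4 : ℝ) * prof τ / ρ ≤ ρ⁻¹ := by
      rw [← one_div]
      exact div_le_div_of_nonneg_right (mul_le_one₀ hq1 hp0 (prof_le_one τ)) hρ0.le
    have t2 : u ^ (1/4 : ℝ) * prof τ / ρ ≤ Real.sqrt c * (Real.sqrt ρ)⁻¹ := by
      have h1 : prof τ ≤ Real.sqrt τ := by
        rw [Real.sqrt_eq_rpow]; exact prof_le_rpow hτ0.le (by norm_num) (by norm_num)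
      have h2 : u ^ (1/4 : ℝ) * Real.sqrt τ ≤ Real.sqrt (c * ρ) := by
        have e : u ^ (1/4 : ℝ) = Real.sqrt (Real.sqrt u) := by
          rw [Real.sqrt_eq_rpow, Real.sqrt_eq_rpow, ← Real.rpow_mul hu.le]; norm_num
        rw [e, ← Real.sqrt_mul hsu0.le]
        refine Real.sqrt_le_sqrt ?_
        have := mul_le_mul_of_nonneg_left hc1 (pow_nonneg (show (0:ℝ) ≤ 2 by norm_num) j)
        simp only [hτ, hρ]
        nlinarith
      calc u ^ (1/4 : ℝ) * prof τ / ρ ≤ Real.sqrt (c * ρ) / ρ :=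
            div_le_div_of_nonneg_right ((mul_le_mul_of_nonneg_left h1 hq0).trans h2) hρ0.le
        _ = _ := by
            rw [Real.sqrt_mul hc.le]
            have := Real.mul_self_sqrt hρ0.le
            have hr : 0 < Real.sqrt ρ := Real.sqrt_pos.mpr hρ0
            field_simp
            nlinarith
    have hi1 : 0 ≤ ρ⁻¹ := (inv_pos.mpr hρ0).le
    have hi2 : 0 ≤ (Real.sqrt ρ)⁻¹ := inv_nonneg.mpr (Real.sqrt_nonneg ρ)
    rw [hm0]
    rcases le_total 1 (Real.sqrt c) with h | h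
    · rw [min_eq_left h]; linarith
    · rw [min_eq_right h]
      have : 0 ≤ Real.sqrt c * ρ⁻¹ := mul_nonneg (Real.sqrt_nonneg c) hi1
      linarith
  have hB : ∀ j ∈ s.filter (fun j => ¬ 1/32 ≤ (2:ℝ) ^ j * L),
      u ^ (1/4 : ℝ) * prof ((2:ℝ) ^ j * t) / ((2:ℝ) ^ j * L) ≤
        4 * m0 * (min 1 (((2:ℝ) ^ j * t) ^ (3/2 : ℝ)) * ((2:ℝ) ^ j * t) ^ (-(1:ℝ))) := by
    intro j hj
    obtain ⟨hjs, hjn⟩ := mem_filter.mp hj
    have hcs := (hcase j hjs).resolve_left hjn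
    set ρ := (2:ℝ) ^ j * L with hρ
    set τ := (2:ℝ) ^ j * t with hτ
    have hρ0 : 0 < ρ := by positivity
    have hτ0 : 0 < τ := by positivity
    have hp0 : 0 ≤ prof τ := prof_nonneg hτ0.le
    change u ^ (1/4 : ℝ) * prof τ / ρ ≤ 4 * m0 * (prof τ * τ ^ (-(1:ℝ)))
    rw [Real.rpow_neg hτ0.le, Real.rpow_one]
    have hcs' : τ ≤ 4 * ρ := by nlinarith
    have hb : τ ≤ 4 * Real.sqrt c * ρ := by
      have h2 : τ * Real.sqrt u ≤ c * ρ := by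
        have := mul_le_mul_of_nonneg_left hc1 (pow_nonneg (show (0:ℝ) ≤ 2 by norm_num) j)
        simp only [hτ, hρ]
        linarith
      have h3 : τ * τ ≤ (4 * Real.sqrt c * ρ) * (4 * Real.sqrt c * ρ) := by
        have h4 : τ * τ ≤ 4 * ρ * (τ * Real.sqrt u) := by nlinarith
        have h5 : 4 * ρ * (τ * Real.sqrt u) ≤ 4 * ρ * (c * ρ) :=
          mul_le_mul_of_nonneg_left h2 (by positivity)
        have e : (4 * Real.sqrt c * ρ) * (4 * Real.sqrt c * ρ) =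
            16 * (Real.sqrt c * Real.sqrt c) * (ρ * ρ) := by ring
        rw [e, Real.mul_self_sqrt hc.le]
        have : 0 ≤ c * (ρ * ρ) := by positivity
        nlinarith
      nlinarith [mul_nonneg (mul_nonneg (show (0:ℝ) ≤ 4 by norm_num) (Real.sqrt_nonneg c)) hρ0.le]
    have hinv : ρ⁻¹ ≤ 4 * m0 * τ⁻¹ := by
      rw [← div_eq_mul_inv, le_div_iff₀ hτ0, inv_mul_le_iff₀ hρ0, hm0]
      rcases le_total 1 (Real.sqrt c) with h | h
      · rw [min_eq_left h]; linarith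
      · rw [min_eq_right h]; linarith
    calc u ^ (1/4 : ℝ) * prof τ / ρ ≤ prof τ * ρ⁻¹ := by
          rw [div_eq_mul_inv]
          exact mul_le_mul_of_nonneg_right (mul_le_of_le_one_left hp0 hq1) (inv_pos.mpr hρ0).le
      _ ≤ prof τ * (4 * m0 * τ⁻¹) := mul_le_mul_of_nonneg_left hinv hp0
      _ = _ := by ring
  rw [← sum_filter_add_sum_filter_not s (fun j => 1/32 ≤ (2:ℝ) ^ j * L)]
  refine (add_le_add (sum_le_sum hA) (sum_le_sum hB)).trans ?_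
  rw [← mul_sum, ← mul_sum, sum_add_distrib, ← sum_mul, ← sum_mul]
  have hM : 0 < 1 / (32 * L) := by positivity
  have hsub : ∀ j ∈ s.filter (fun j => 1/32 ≤ (2:ℝ) ^ j * L), 1 / (32 * L) ≤ (2:ℝ) ^ j := fun j hj => by
    rw [div_le_iff₀ (by positivity)]
    have := (mem_filter.mp hj).2
    linarith
  have e1 : ∀ α : ℝ, (1 / (32 * L)) ^ (-α) * L ^ (-α) = (32:ℝ) ^ α := fun α => by
    rw [← Real.mul_rpow (by positivity) hL.le, show 1 / (32 * L) * L = (32:ℝ)⁻¹ by field_simp,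
      Real.inv_rpow (by norm_num), Real.rpow_neg (by norm_num), inv_inv]
  have s1 := mul_le_mul_of_nonneg_right (sum_dyadic_ge (α := 1) one_pos hM hsub)
    (Real.rpow_nonneg hL.le (-(1:ℝ)))
  rw [mul_assoc, e1, ← hG1, Real.rpow_one] at s1
  have s2 := mul_le_mul_of_nonneg_right (sum_dyadic_ge (α := 1/2) (by norm_num) hM hsub)
    (Real.rpow_nonneg hL.le (-(1/2 : ℝ)))
  rw [mul_assoc, e1] at s2
  have h32 : (32:ℝ) ^ (1/2 : ℝ) ≤ 8 := by
    rw [← Real.sqrt_eq_rpow, Real.sqrt_le_left (by norm_num)]; norm_num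
  have hG2 : 0 ≤ G2 := by
    have : (1:ℝ) < (2:ℝ) ^ (1/2 : ℝ) := Real.one_lt_rpow one_lt_two (by norm_num)
    exact div_nonneg (by linarith) (by linarith)
  have s2' := s2.trans (mul_le_mul_of_nonneg_left h32 hG2)
  have s3 := sum_dyadic_two_sided (α := 3/2) (β := 1) (s := s.filter (fun j => ¬ 1/32 ≤ (2:ℝ) ^ j * L))
    one_pos (by norm_num) ht
  have k1 := mul_le_mul_of_nonneg_left (add_le_add s1 s2') hm
  have k3 := mul_le_mul_of_nonneg_left s3 (show 0 ≤ 4 * m0 by positivity)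
  simp only [G, G1, G2] at k1 k3 ⊢
  linarith

/-- the per-pair bound -/
theorem sideQ_term {q r : ℕ} {ψ : ℕ → ℝ} {g x y : ℕ} {j : ℕ} (hq : 0 < q) (hy : r = g * y)
    (hpr : 0 < ψ r) (hpr1 : ψ r ≤ 1 / r) (hpq : 0 < ψ q) (hdel : ψ r / r ≤ ψ q / q)
    (hg : 0 < g) (hlo : 2 ^ j ≤ y) (hhi : y < 2 ^ (j + 1)) :
    2 * (g:ℝ) * ψ r / r * ((((q:ℝ) * ψ q) / ((r:ℝ) * ψ r)) ^ (1/4 : ℝ) * hw y / hw x) ≤
      16 * ((q:ℝ) * ψ q) ^ (1/4 : ℝ) / ((g:ℝ) * ((2:ℝ) ^ j) ^ 2) *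
        prof ((2:ℝ) ^ j * ((g:ℝ) * Real.sqrt (ψ q / q))) * (hw y / hw x) := by
  set Y : ℝ := (2:ℝ) ^ j with hY
  set u : ℝ := (q:ℝ) * ψ q with hu
  have hgR : (0:ℝ) < g := by exact_mod_cast hg
  have hqR : (0:ℝ) < q := by exact_mod_cast hq
  have hY0 : 0 < Y := by positivity
  have hyR : Y ≤ y := by rw [hY]; exact_mod_cast hlo
  have hyR2 : (y:ℝ) ≤ 2 * Y := by
    have : (y:ℝ) ≤ (2:ℝ) ^ (j + 1) := by exact_mod_cast hhi.le
    rw [pow_succ] at this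
    linarith
  have hrR : (r:ℝ) = g * y := by rw [hy]; push_cast; ring
  have hr0 : (0:ℝ) < r := by rw [hrR]; exact mul_pos hgR (lt_of_lt_of_le hY0 hyR)
  have hratio : 0 ≤ hw y / hw x := div_nonneg (Real.exp_nonneg _) (Real.exp_nonneg _)
  have key : ψ r / r * (((r:ℝ) * ψ r) ^ (1/4 : ℝ))⁻¹ ≤
      8 / ((g:ℝ) * Y) ^ 2 * prof (Y * ((g:ℝ) * Real.sqrt (ψ q / q))) := by
    have hτ : (Y * ((g:ℝ) * Real.sqrt (ψ q / q))) ^ 2 = ((g:ℝ) * Y) ^ 2 * (ψ q / q) := by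
      rw [mul_pow, mul_pow, Real.sq_sqrt (by positivity)]; ring
    have e : ψ r / r * (((r:ℝ) * ψ r) ^ (1/4 : ℝ))⁻¹ = ((r:ℝ) * ψ r) ^ (3/4 : ℝ) / (r:ℝ) ^ 2 := by
      rw [show (3/4 : ℝ) = 1 - 1/4 by norm_num, Real.rpow_sub (by positivity), Real.rpow_one]
      field_simp
    rw [e]
    have hup : (r:ℝ) * ψ r ≤ 4 * min 1 (((g:ℝ) * Y) ^ 2 * (ψ q / q)) := by
      rw [mul_min_of_nonneg _ _ (by norm_num)]
      refine le_min ?_ ?_
      · rw [le_div_iff₀ hr0] at hpr1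
        linarith
      · rw [div_le_iff₀ hr0] at hdel
        have h1 : (r:ℝ) * ψ r ≤ (r:ℝ) ^ 2 * (ψ q / q) := by nlinarith
        refine h1.trans ?_
        rw [hrR]
        have : (g:ℝ) * y ≤ 2 * ((g:ℝ) * Y) := by nlinarith
        calc ((g:ℝ) * y) ^ 2 * (ψ q / q) ≤ (2 * ((g:ℝ) * Y)) ^ 2 * (ψ q / q) := by gcongr
          _ = _ := by ring
    have hlow : ((g:ℝ) * Y) ^ 2 ≤ (r:ℝ) ^ 2 := by rw [hrR]; gcongr
    have hmin0 : 0 ≤ min 1 (((g:ℝ) * Y) ^ 2 * (ψ q / q)) := le_min zero_le_one (by positivity)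
    calc ((r:ℝ) * ψ r) ^ (3/4 : ℝ) / (r:ℝ) ^ 2
        ≤ (4 * min 1 (((g:ℝ) * Y) ^ 2 * (ψ q / q))) ^ (3/4 : ℝ) / ((g:ℝ) * Y) ^ 2 :=
          div_le_div₀ (Real.rpow_nonneg (by positivity) _)
            (Real.rpow_le_rpow (by positivity) hup (by norm_num)) (by positivity) hlow
      _ ≤ 8 * prof (Y * ((g:ℝ) * Real.sqrt (ψ q / q))) / ((g:ℝ) * Y) ^ 2 := by
          refine div_le_div_of_nonneg_right ?_ (by positivity)
          rw [Real.mul_rpow (by norm_num) hmin0, ← hτ]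
          have h4 : (4:ℝ) ^ (3/4 : ℝ) ≤ 8 := by
            calc (4:ℝ) ^ (3/4 : ℝ) ≤ (4:ℝ) ^ (1:ℝ) :=
                  Real.rpow_le_rpow_of_exponent_le (by norm_num) (by norm_num)
              _ ≤ 8 := by norm_num
          refine mul_le_mul h4 ?_ (Real.rpow_nonneg (le_min zero_le_one (sq_nonneg _)) _) (by norm_num)
          set τ := Y * ((g:ℝ) * Real.sqrt (ψ q / q)) with hτd
          have hτ0 : 0 ≤ τ := by positivity
          have e2 : (τ ^ 2) ^ (3/4 : ℝ) = τ ^ (3/2 : ℝ) := by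
            rw [← Real.rpow_natCast, ← Real.rpow_mul hτ0]; norm_num
          refine le_min ?_ ?_
          · exact Real.rpow_le_one (le_min zero_le_one (sq_nonneg _)) (min_le_left _ _) (by norm_num)
          · rw [← e2]
            exact Real.rpow_le_rpow (le_min zero_le_one (sq_nonneg _)) (min_le_right _ _) (by norm_num)
      _ = _ := by ring
  rw [Real.div_rpow (by positivity) (by positivity)]
  calc 2 * (g:ℝ) * ψ r / r * (u ^ (1/4 : ℝ) / ((r:ℝ) * ψ r) ^ (1/4 : ℝ) * hw y / hw x)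
      = 2 * (g:ℝ) * u ^ (1/4 : ℝ) * (ψ r / r * (((r:ℝ) * ψ r) ^ (1/4 : ℝ))⁻¹) * (hw y / hw x) := by
        ring
    _ ≤ 2 * (g:ℝ) * u ^ (1/4 : ℝ) *
        (8 / ((g:ℝ) * Y) ^ 2 * prof (Y * ((g:ℝ) * Real.sqrt (ψ q / q)))) * (hw y / hw x) := by
        refine mul_le_mul_of_nonneg_right (mul_le_mul_of_nonneg_left key ?_) hratio
        exact mul_nonneg (by positivity) (Real.rpow_nonneg (by positivity) _)
    _ = _ := by
        have : (g:ℝ) ≠ 0 := hgR.ne'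
        field_simp
        ring

theorem min_one_sqrt_mul_hw : ∃ K : ℝ, 0 ≤ K ∧ ∀ g B : ℕ, 0 < g → 0 < B →
    hw B * min 1 (Real.sqrt ((g:ℝ) / B)) ≤ K * (1 + Real.log g) := by
  obtain ⟨K, hK, h⟩ := hwLog
  refine ⟨5 * K, by positivity, fun g B hg hB => ?_⟩
  have hgR : (1:ℝ) ≤ g := by exact_mod_cast hg
  have hBR : (1:ℝ) ≤ B := by exact_mod_cast hB
  have hlg := Real.log_nonneg hgR
  have hlB := Real.log_nonneg hBR
  have hw0 : 0 ≤ hw B := Real.exp_nonneg _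
  by_cases hc : (B:ℝ) ≤ (g:ℝ) ^ 2
  · have h1 : Real.log B ≤ 2 * Real.log g := by
      have := Real.log_le_log (by linarith) hc
      rw [Real.log_pow] at this
      push_cast at this
      exact this
    have h2 := h B hB
    have h3 : hw B * min 1 (Real.sqrt ((g:ℝ) / B)) ≤ hw B :=
      mul_le_of_le_one_right hw0 (min_le_left _ _)
    nlinarith
  · have hb : Real.sqrt ((g:ℝ) / B) ≤ ((B:ℝ) ^ (1/4 : ℝ))⁻¹ := by
      have hgB : (g:ℝ) / B ≤ ((B:ℝ) ^ (1/2 : ℝ))⁻¹ := by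
        rw [← Real.sqrt_eq_rpow, div_le_iff₀ (by linarith)]
        have hs : (g:ℝ) ≤ Real.sqrt B := Real.le_sqrt_of_sq_le (not_le.mp hc).le
        have := Real.mul_self_sqrt (show (0:ℝ) ≤ B by linarith)
        have hpos : 0 < Real.sqrt B := Real.sqrt_pos.mpr (by linarith)
        rw [inv_mul_eq_div, le_div_iff₀ hpos]
        nlinarith
      calc Real.sqrt ((g:ℝ) / B) ≤ Real.sqrt (((B:ℝ) ^ (1/2 : ℝ))⁻¹) := Real.sqrt_le_sqrt hgB
        _ = _ := by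
            rw [Real.sqrt_inv, Real.sqrt_eq_rpow, ← Real.rpow_mul (by linarith)]; norm_num
    have hl := Real.log_le_rpow_div (x := (B:ℝ)) (by linarith) (show (0:ℝ) < 1/4 by norm_num)
    have hpos : 0 < (B:ℝ) ^ (1/4 : ℝ) := Real.rpow_pos_of_pos (by linarith) _
    have hone : 1 ≤ (B:ℝ) ^ (1/4 : ℝ) := Real.one_le_rpow hBR (by norm_num)
    calc hw B * min 1 (Real.sqrt ((g:ℝ) / B)) ≤ (K * (1 + Real.log B)) * ((B:ℝ) ^ (1/4 : ℝ))⁻¹ :=
          mul_le_mul (h B hB) ((min_le_right _ _).trans hb) (le_min zero_le_one (Real.sqrt_nonneg _))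
            (by positivity)
      _ ≤ (K * (5 * (B:ℝ) ^ (1/4 : ℝ))) * ((B:ℝ) ^ (1/4 : ℝ))⁻¹ := by
          gcongr
          linarith
      _ = 5 * K := by field_simp
      _ ≤ _ := le_mul_of_one_le_right (by positivity) (by linarith)

/-- the lower bounds that make the error term negligible -/
theorem sideQ_size {qR r x y pq pr : ℝ} (hq : 1 ≤ qR) (hr : 0 < r) (hy : 0 < y) (hx : 0 ≤ x)
    (hpq : pq ≤ 1 / qR) (hpr : r ^ (-(1 + 1/100 : ℝ)) ≤ pr) (hdel : pr / r ≤ pq / qR)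
    (hxy : x * r = qR * y) (hk : 1 ≤ Real.sqrt pq * (9 * y + x)) :
    qR ^ (0.99 : ℝ) ≤ r ∧ qR ^ (0.49 : ℝ) ≤ 10 * y := by
  have hq0 : 0 < qR := by linarith
  have h1 : r ^ (-(2 + 1/100 : ℝ)) ≤ qR ^ (-(2:ℝ)) := by
    rw [show (-(2 + 1/100 : ℝ)) = -(1 + 1/100) - 1 by norm_num, Real.rpow_sub_one hr.ne']
    refine (div_le_div_of_nonneg_right hpr hr.le).trans (hdel.trans ?_)
    rw [Real.rpow_neg hq0.le, show (2:ℝ) = ((2:ℕ):ℝ) by norm_num, Real.rpow_natCast]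
    calc pq / qR ≤ 1 / qR / qR := div_le_div_of_nonneg_right hpq hq0.le
      _ = _ := by field_simp
  have hr' : qR ^ (0.99 : ℝ) ≤ r := by
    have h2 : qR ^ (2:ℝ) ≤ r ^ (2 + 1/100 : ℝ) := by
      rw [Real.rpow_neg hr.le, Real.rpow_neg hq0.le] at h1
      exact (inv_le_inv₀ (Real.rpow_pos_of_pos hr _) (Real.rpow_pos_of_pos hq0 _)).mp h1
    calc qR ^ (0.99 : ℝ) ≤ qR ^ ((2:ℝ) * (1 / (2 + 1/100))) :=
          Real.rpow_le_rpow_of_exponent_le hq (by norm_num)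
      _ = (qR ^ (2:ℝ)) ^ (1 / (2 + 1/100) : ℝ) := Real.rpow_mul hq0.le _ _
      _ ≤ (r ^ (2 + 1/100 : ℝ)) ^ (1 / (2 + 1/100) : ℝ) :=
          Real.rpow_le_rpow (Real.rpow_nonneg hq0.le _) h2 (by norm_num)
      _ = r := by rw [← Real.rpow_mul hr.le]; norm_num
  refine ⟨hr', ?_⟩
  have hx' : x ≤ qR ^ (0.01 : ℝ) * y := by
    have h3 : qR ≤ qR ^ (0.01 : ℝ) * r := by
      calc qR = qR ^ (0.01 : ℝ) * qR ^ (0.99 : ℝ) := by
            rw [← Real.rpow_add hq0]; norm_num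
        _ ≤ _ := mul_le_mul_of_nonneg_left hr' (Real.rpow_nonneg hq0.le _)
    have h4 : x * r ≤ qR ^ (0.01 : ℝ) * y * r := by
      rw [hxy]; nlinarith
    exact le_of_mul_le_mul_right h4 hr
  have hone : 1 ≤ qR ^ (0.01 : ℝ) := Real.one_le_rpow hq (by norm_num)
  have hs : Real.sqrt pq ≤ qR ^ (-(1/2) : ℝ) := by
    rw [Real.rpow_neg hq0.le, ← Real.sqrt_eq_rpow, ← Real.sqrt_inv, ← one_div]
    exact Real.sqrt_le_sqrt hpq
  have h5 : 1 ≤ qR ^ (-(1/2) : ℝ) * (10 * qR ^ (0.01 : ℝ) * y) := by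
    refine hk.trans (mul_le_mul hs ?_ (by positivity) (Real.rpow_nonneg hq0.le _))
    nlinarith
  have e : qR ^ (-(1/2) : ℝ) * (10 * qR ^ (0.01 : ℝ) * y) = qR ^ (-(0.49) : ℝ) * (10 * y) := by
    rw [show (-(0.49) : ℝ) = -(1/2) + 0.01 by norm_num, Real.rpow_add hq0]; ring
  rw [e, Real.rpow_neg hq0.le] at h5
  have hp := Real.rpow_pos_of_pos hq0 (0.49 : ℝ)
  rwa [inv_mul_eq_div, le_div_iff₀ hp, one_mul] at h5

/-- the error term -/
theorem sideQ_err {qR R Y pq : ℝ} (hq : 1 ≤ qR) (hR : qR ^ (0.99 : ℝ) ≤ 2 * R)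
    (hY : qR ^ (0.49 : ℝ) ≤ 20 * Y) (hp : qR ^ (-(1 + 1/100 : ℝ)) ≤ pq) :
    qR ^ (0.05 : ℝ) * (Real.sqrt pq / R + 1 / (R * Y)) ≤ 42 * pq * qR ^ (-(0.4) : ℝ) := by
  have hq0 : 0 < qR := by linarith
  have hpq : 0 < pq := lt_of_lt_of_le (Real.rpow_pos_of_pos hq0 _) hp
  have h99 := Real.rpow_pos_of_pos hq0 (0.99 : ℝ)
  have h49 := Real.rpow_pos_of_pos hq0 (0.49 : ℝ)
  have hs : qR ^ (-(0.505) : ℝ) ≤ Real.sqrt pq := by
    rw [Real.sqrt_eq_rpow, show (-(0.505) : ℝ) = -(1 + 1/100) * (1/2) by norm_num,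
      Real.rpow_mul hq0.le]
    exact Real.rpow_le_rpow (Real.rpow_nonneg hq0.le _) hp (by norm_num)
  have hmain : ∀ a : ℝ, a ≤ -(0.45) → qR ^ (0.05 : ℝ) * qR ^ a ≤ qR ^ (-(0.4) : ℝ) := fun a ha => by
    rw [← Real.rpow_add hq0]
    exact Real.rpow_le_rpow_of_exponent_le hq (by linarith)
  have t1 : Real.sqrt pq / R ≤ 2 * pq * qR ^ (-(0.485) : ℝ) := by
    calc Real.sqrt pq / R ≤ Real.sqrt pq / (qR ^ (0.99 : ℝ) / 2) :=
          div_le_div_of_nonneg_left (Real.sqrt_nonneg pq) (by positivity) (by linarith)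
      _ = 2 * Real.sqrt pq * qR ^ (-(0.485) : ℝ) * qR ^ (-(0.505) : ℝ) := by
          have hrp : qR ^ (-(0.485) : ℝ) * qR ^ (-(0.505) : ℝ) = (qR ^ (0.99 : ℝ))⁻¹ := by
            rw [← Real.rpow_add hq0, ← Real.rpow_neg hq0.le]; norm_num
          rw [mul_assoc, hrp]
          field_simp
      _ ≤ 2 * Real.sqrt pq * qR ^ (-(0.485) : ℝ) * Real.sqrt pq :=
          mul_le_mul_of_nonneg_left hs (by positivity)
      _ = _ := by
          have := Real.mul_self_sqrt hpq.le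
          linear_combination 2 * qR ^ (-(0.485) : ℝ) * this
  have t2 : 1 / (R * Y) ≤ 40 * pq * qR ^ (-(0.47) : ℝ) := by
    calc 1 / (R * Y) ≤ 1 / ((qR ^ (0.99 : ℝ) / 2) * (qR ^ (0.49 : ℝ) / 20)) := by
          refine one_div_le_one_div_of_le (by positivity) ?_
          exact mul_le_mul (by linarith) (by linarith) (by positivity) (by linarith)
      _ = 40 * qR ^ (-(0.47) : ℝ) * qR ^ (-(1 + 1/100) : ℝ) := by
          have hrp : qR ^ (-(0.47) : ℝ) * qR ^ (-(1 + 1/100) : ℝ) =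
              (qR ^ (0.99 : ℝ))⁻¹ * (qR ^ (0.49 : ℝ))⁻¹ := by
            rw [← Real.rpow_neg hq0.le, ← Real.rpow_neg hq0.le, ← Real.rpow_add hq0,
              ← Real.rpow_add hq0]
            norm_num
          rw [mul_assoc, hrp]
          field_simp
          ring
      _ ≤ 40 * qR ^ (-(0.47) : ℝ) * pq := mul_le_mul_of_nonneg_left hp (by positivity)
      _ = _ := by ring
  have e := mul_le_mul_of_nonneg_left (add_le_add t1 t2) (Real.rpow_nonneg hq0.le (0.05 : ℝ))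
  have m1 := mul_le_mul_of_nonneg_left (hmain _ (show (-(0.485) : ℝ) ≤ -(0.45) by norm_num))
    (show 0 ≤ 2 * pq by positivity)
  have m2 := mul_le_mul_of_nonneg_left (hmain _ (show (-(0.47) : ℝ) ≤ -(0.45) by norm_num))
    (show 0 ≤ 40 * pq by positivity)
  linarith

/-- the size attached to the approximation -/
noncomputable def Lam (γ pq : ℝ) (C : ℤ) (B : ℕ) : ℝ := max (B:ℝ) (|(B:ℝ) * γ - C| / pq)

/-- the bound for one pair in a dyadic fibre, without the weights -/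
noncomputable def UQ (qR pq : ℝ) (g j : ℕ) : ℝ :=
  16 * (qR * pq) ^ (1/4 : ℝ) / ((g:ℝ) * ((2:ℝ) ^ j) ^ 2) *
    prof ((2:ℝ) ^ j * ((g:ℝ) * Real.sqrt (pq / qR)))

/-- the bound for one dyadic fibre -/
noncomputable def FQ (Kl γ pq : ℝ) (C : ℤ) (B q g j : ℕ) : ℝ :=
  UQ (q:ℝ) pq g j / hw (q / g) *
    (Kl * (4 * pq * (2:ℝ) ^ j * (2:ℝ) ^ j + hw B * (8 * (2:ℝ) ^ j / Lam γ pq C B) +
      (q:ℝ) ^ (0.05 : ℝ) * (4 * pq * (2:ℝ) ^ j * (B : ℝ) + (2:ℝ) ^ j * |(B:ℝ) * γ - C| + 1)))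

/-- facts about the dyadic position of one pair -/
def QPos (γ pq : ℝ) (C : ℤ) (B q g j : ℕ) : Prop :=
  2 * 2 ^ j ≤ q ^ 2 ∧ (2:ℝ) ^ j * pq < 1/8 ∧
    (1/32 ≤ (2:ℝ) ^ j * (pq * Lam γ pq C B) ∨ 1/4 ≤ ((q / g : ℕ) : ℝ) * |(B:ℝ) * γ - C|) ∧
    (q:ℝ) ^ (0.99 : ℝ) ≤ 2 * ((g:ℝ) * (2:ℝ) ^ j) ∧ (q:ℝ) ^ (0.49 : ℝ) ≤ 20 * (2:ℝ) ^ j

/-- the facts read off from one pair -/
theorem sideQ_pair {γ : ℝ} {ψ : ℕ → ℝ} {C : ℕ → ℤ} {B : ℕ → ℕ} {q r g j : ℕ} (hAq : Adm 4 ψ q)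
    (hBq : Approx γ ψ C B q) (hAr : Adm 4 ψ r) (hr : PB γ ψ C B q r) (hg : Nat.gcd q r = g)
    (hj : Nat.log 2 (r / g) = j) :
    0 < g ∧ r = g * (r / g) ∧ 2 ^ j ≤ r / g ∧ r / g < 2 ^ (j + 1) ∧
      QPos γ (ψ q) (C q) (B q) q g j := by
  obtain ⟨hq0, hq4, hqlo, hqhi⟩ := hAq
  set qR : ℝ := (q:ℝ) with hqR
  have hqR4 : (4:ℝ) ≤ qR := by rw [hqR]; exact_mod_cast hq4
  have hqR0 : 0 < qR := by linarith
  set pq := ψ q with hpqd
  have hpq : 0 < pq := lt_of_lt_of_le (Real.rpow_pos_of_pos hqR0 _) hqlo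
  set e : ℝ := (B q : ℝ) * γ - C q with hed
  have hB0 : 0 < B q := hBq.B_pos
  have hBR : (1:ℝ) ≤ B q := by exact_mod_cast hB0
  unfold QPos Lam
  set Λ : ℝ := max (B q : ℝ) (|e| / pq) with hΛ
  have hΛ0 : 0 < Λ := lt_of_lt_of_le (by linarith) (le_max_left _ _)
  set sp := Real.sqrt pq with hspd
  have hsp : 0 < sp := Real.sqrt_pos.mpr hpq
  have hBsp : (B q : ℝ) * sp ≤ 2 := hBq.B_le
  have hesp : |e| ≤ sp := hBq.eps_le
  obtain ⟨hD, h910, hdel, hx2, hy2, n, hn, hnq, -⟩ := hr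
  obtain ⟨hr0, -, hrlo, hrhi⟩ := hAr
  have hg0 : 0 < g := hg ▸ Nat.gcd_pos_of_pos_left r hq0
  have hgr : g ∣ r := hg ▸ Nat.gcd_dvd_right q r
  have hgq : g ∣ q := hg ▸ Nat.gcd_dvd_left q r
  have er : r = g * (r / g) := (Nat.mul_div_cancel' hgr).symm
  have eq' : q = g * (q / g) := (Nat.mul_div_cancel' hgq).symm
  have hy : yy q r = r / g := by rw [yy, hg]
  have hx : xx q r = q / g := by rw [xx, hg]
  rw [hy] at hy2
  rw [hx] at hx2
  have hlo : 2 ^ j ≤ r / g := hj ▸ Nat.pow_log_le_self 2 (by omega)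
  have hhi : r / g < 2 ^ (j + 1) := hj ▸ Nat.lt_pow_succ_log_self one_lt_two _
  have hrq : 2 * 2 ^ j ≤ q ^ 2 := by
    have h1 : 2 * 2 ^ j ≤ 2 * r :=
      Nat.mul_le_mul_left 2 (hlo.trans (Nat.div_le_self r g))
    refine h1.trans (le_of_lt ?_)
    by_contra hcon
    rw [not_lt] at hcon
    have h2 : (q ^ 2) ^ 9 ≤ (2 * r) ^ 9 := Nat.pow_le_pow_left hcon 9
    have h3 : (2 * r) ^ 9 = 512 * r ^ 9 := by ring
    have h4 : 512 * r ^ 9 < 512 * q ^ 10 := Nat.mul_lt_mul_of_pos_left h910 (by norm_num)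
    have h5 : 512 * q ^ 10 ≤ q ^ 8 * q ^ 10 :=
      Nat.mul_le_mul_right _ (le_trans (by norm_num) (Nat.pow_le_pow_left hq4 8))
    have h6 : (q ^ 2) ^ 9 = q ^ 8 * q ^ 10 := by ring
    omega
  set Y : ℝ := (2:ℝ) ^ j with hY
  have hyR : Y ≤ ((r / g : ℕ) : ℝ) := by rw [hY]; exact_mod_cast hlo
  have hyR2 : ((r / g : ℕ) : ℝ) ≤ 2 * Y := by
    have : ((r / g : ℕ) : ℝ) ≤ (2:ℝ) ^ (j + 1) := by exact_mod_cast hhi.le
    rw [pow_succ] at this
    linarith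
  have hDD : DD ψ q r = pq * ((r / g : ℕ) : ℝ) := by rw [DD, hy]
  rw [hDD] at hD hn
  set yR : ℝ := ((r / g : ℕ) : ℝ)
  set xR : ℝ := ((q / g : ℕ) : ℝ)
  have hY8 : Y * pq < 1/8 := by nlinarith
  have hm : ((mm q r : ℤ) : ℝ) = xR - yR := by
    rw [mm, hx, hy, Int.cast_sub, Int.cast_natCast, Int.cast_natCast]
  rw [hm] at hn
  have hk1 : (1:ℝ) ≤ |((n:ℝ) * (B q : ℝ) - (xR - yR) * (C q : ℝ))| := by
    have h0 : n * (B q : ℤ) - mm q r * C q ≠ 0 := sub_ne_zero.mpr hnq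
    have h1 : (1:ℤ) ≤ |n * (B q : ℤ) - mm q r * C q| := Int.one_le_abs h0
    have h2 : (1:ℝ) ≤ ((|n * (B q : ℤ) - mm q r * C q| : ℤ) : ℝ) := by exact_mod_cast h1
    push_cast at h2
    rwa [hm] at h2
  have hk2 : |((n:ℝ) * (B q : ℝ) - (xR - yR) * (C q : ℝ))| ≤
      2 * (pq * yR) * (B q : ℝ) + (xR + yR) * |e| := by
    have eq2 : (n:ℝ) * (B q : ℝ) - (xR - yR) * (C q : ℝ) =
        ((n:ℝ) - (xR - yR) * γ) * (B q : ℝ) + (xR - yR) * e := by rw [hed]; ring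
    rw [eq2]
    refine (abs_add_le _ _).trans (add_le_add ?_ ?_)
    · rw [abs_mul, abs_of_nonneg (show (0:ℝ) ≤ (B q : ℝ) from Nat.cast_nonneg _)]
      exact mul_le_mul_of_nonneg_right hn.le (Nat.cast_nonneg _)
    · rw [abs_mul]
      refine mul_le_mul_of_nonneg_right (abs_le.mpr ⟨?_, ?_⟩) (abs_nonneg e) <;>
        linarith [Nat.cast_nonneg (α := ℝ) (q / g), Nat.cast_nonneg (α := ℝ) (r / g)]
  have hk := hk1.trans hk2
  have hcase : 1/32 ≤ Y * (pq * Λ) ∨ 1/4 ≤ xR * |e| := by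
    by_contra hcon
    rw [not_or, not_le, not_le] at hcon
    have hΛ1 : (B q : ℝ) ≤ Λ := le_max_left _ _
    have hΛ2 : |e| ≤ pq * Λ := by
      have : |e| / pq ≤ Λ := le_max_right _ _
      rw [div_le_iff₀ hpq] at this
      linarith
    have a1 : pq * yR * (B q : ℝ) ≤ 2 * (Y * (pq * Λ)) := by
      calc pq * yR * (B q : ℝ) ≤ pq * (2 * Y) * Λ := by gcongr
        _ = _ := by ring
    have a2 : yR * |e| ≤ 2 * (Y * (pq * Λ)) := by
      calc yR * |e| ≤ (2 * Y) * (pq * Λ) := by gcongr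
        _ = _ := by ring
    linarith [hcon.1, hcon.2]
  have hsp2 : pq = sp * sp := (Real.mul_self_sqrt hpq.le).symm
  have hk9 : 1 ≤ sp * (9 * yR + xR) := by
    refine hk.trans ?_
    have a1 : 2 * (pq * yR) * (B q : ℝ) ≤ 4 * (sp * yR) := by
      calc 2 * (pq * yR) * (B q : ℝ) = 2 * (sp * yR) * ((B q : ℝ) * sp) := by rw [hsp2]; ring
        _ ≤ 2 * (sp * yR) * 2 := by gcongr
        _ = _ := by ring
    have a2 : (xR + yR) * |e| ≤ (xR + yR) * sp := by gcongr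
    have : 0 ≤ sp * yR := by positivity
    linarith
  have hrR : (r:ℝ) = (g:ℝ) * yR := by
    conv_lhs => rw [er]
    push_cast
    rfl
  have hqR' : qR = (g:ℝ) * xR := by
    rw [hqR]
    conv_lhs => rw [eq']
    push_cast
    rfl
  have hr0' : (0:ℝ) < r := by exact_mod_cast hr0
  have hyp : 0 < yR := lt_of_lt_of_le (by positivity) hyR
  obtain ⟨z1, z2⟩ := sideQ_size (show 1 ≤ qR by linarith) hr0' hyp (Nat.cast_nonneg _) hqhi hrlo
    hdel (show xR * (r:ℝ) = qR * yR by rw [hrR, hqR']; ring) hk9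
  refine ⟨hg0, er, hlo, hhi, hrq, hY8, hcase, ?_, by linarith⟩
  rw [hrR] at z1
  have : (g:ℝ) * yR ≤ (g:ℝ) * (2 * Y) := by gcongr
  linarith

open scoped Classical in
/-- one dyadic fibre -/
theorem sideQ_fibre {Kl : ℝ}
    (hline : ∀ (γ : ℝ) (C : ℤ) (B : ℕ), 0 < B → IsCoprime C (B:ℤ) →
      ∀ (z : ℤ) (V : ℕ) (D E Q : ℝ), 1 ≤ V → 0 ≤ D → 0 ≤ E → 2 ≤ Q → 2 * (V:ℝ) ≤ Q ^ 2 →
      ((V:ℝ) / B ≤ E ∨ 2 * D ≤ E * |(B:ℝ) * γ - C|) →
      ∀ T : Finset (ℕ × ℤ),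
        (∀ p ∈ T, V ≤ p.1 ∧ p.1 < 2 * V ∧ |(p.2:ℝ) - ((p.1:ℝ) - z) * γ| < D) →
        ∑ p ∈ T, hw p.1 ≤
          Kl * (D * V + hw B * E + Q ^ (0.05:ℝ) * (D * B + V * |(B:ℝ) * γ - C| + 1)))
    {γ : ℝ} {ψ : ℕ → ℝ} {C : ℕ → ℤ} {B : ℕ → ℕ} {S : Finset ℕ}
    (hS : ∀ q ∈ S, Adm 4 ψ q ∧ Approx γ ψ C B q) {q g j r0 : ℕ} (hqS : q ∈ S)
    (hr0T : r0 ∈ S.filter (fun r => PB γ ψ C B q r)) (hg0e : Nat.gcd q r0 = g)
    (hj0 : Nat.log 2 (r0 / g) = j) :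
    ∑ r ∈ (S.filter (fun r => PB γ ψ C B q r)).filter
        (fun r => Nat.gcd q r = g ∧ Nat.log 2 (r / g) = j),
      2 * (Nat.gcd q r : ℝ) * ψ r / r * WW ψ q r ≤ FQ Kl γ (ψ q) (C q) (B q) q g j := by
  obtain ⟨hAq, hBq⟩ := hS q hqS
  have wit : ∀ r ∈ S.filter (fun r => PB γ ψ C B q r), ∀ g j : ℕ, Nat.gcd q r = g →
      Nat.log 2 (r / g) = j → 0 < g ∧ r = g * (r / g) ∧ 2 ^ j ≤ r / g ∧ r / g < 2 ^ (j + 1) ∧
        QPos γ (ψ q) (C q) (B q) q g j := fun r hr g j hg hj =>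
    sideQ_pair hAq hBq (hS r (mem_filter.mp hr).1).1 (mem_filter.mp hr).2 hg hj
  obtain ⟨hq0, hq4, hqlo, hqhi⟩ := hAq
  set qR : ℝ := (q:ℝ) with hqR
  have hqR4 : (4:ℝ) ≤ qR := by rw [hqR]; exact_mod_cast hq4
  have hqR0 : 0 < qR := by linarith
  set pq := ψ q with hpqd
  have hpq : 0 < pq := lt_of_lt_of_le (Real.rpow_pos_of_pos hqR0 _) hqlo
  set e : ℝ := (B q : ℝ) * γ - C q with hed
  have hB0 : 0 < B q := hBq.B_pos
  have hBR : (1:ℝ) ≤ B q := by exact_mod_cast hB0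
  unfold FQ UQ Lam
  set Λ : ℝ := max (B q : ℝ) (|e| / pq) with hΛ
  have hΛ0 : 0 < Λ := lt_of_lt_of_le (by linarith) (le_max_left _ _)
  set u : ℝ := qR * pq with hud
  have hu : 0 < u := by positivity
  set T := S.filter (fun r => PB γ ψ C B q r) with hTd
  set U : ℝ := 16 * u ^ (1/4 : ℝ) / ((g:ℝ) * ((2:ℝ) ^ j) ^ 2) *
    prof ((2:ℝ) ^ j * ((g:ℝ) * Real.sqrt (pq / qR))) with hUd
  obtain ⟨hg, -, -, -, hVQ, -⟩ := wit r0 hr0T g j hg0e hj0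
  set Tg := T.filter (fun r => Nat.gcd q r = g ∧ Nat.log 2 (r / g) = j) with hTg
  have hex : ∀ r ∈ Tg, ∃ n : ℤ, |(n:ℝ) - (mm q r : ℝ) * γ| < 2 * DD ψ q r := by
    intro r hr
    obtain ⟨-, -, -, -, -, -, n, hn, -, -⟩ := mem_filter.mp (mem_filter.mp hr).1
    exact ⟨n, hn⟩
  choose! nn hnn using hex
  have hU0 : 0 ≤ U := by
    refine mul_nonneg (div_nonneg (mul_nonneg (by norm_num) (Real.rpow_nonneg hu.le _)) ?_)
      (prof_nonneg ?_) <;> positivity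
  calc ∑ r ∈ Tg, 2 * (Nat.gcd q r : ℝ) * ψ r / r * WW ψ q r
      ≤ ∑ r ∈ Tg, U / hw (q / g) * hw (r / g) := by
        refine sum_le_sum fun r hr => ?_
        obtain ⟨hrT, hge, hje⟩ := mem_filter.mp hr
        obtain ⟨-, er, hlo, hhi, -⟩ := wit r hrT g j hge hje
        obtain ⟨hrS, -, -, hdel, -⟩ := mem_filter.mp hrT
        obtain ⟨⟨hr0, -, hrlo, hrhi⟩, -⟩ := hS r hrS
        have hpr : 0 < ψ r := lt_of_lt_of_le (Real.rpow_pos_of_pos (by exact_mod_cast hr0) _) hrlo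
        have := sideQ_term (x := q / g) hq0 er hpr hrhi hpq hdel hg hlo hhi
        rw [hge, WW, yy, xx, hge]
        refine this.trans (le_of_eq ?_)
        simp only [hUd, hqR, hud, hpqd]
        ring
    _ = U / hw (q / g) * ∑ p ∈ Tg.image (fun r => (r / g, -nn r)), hw p.1 := by
        rw [mul_sum, sum_image]
        intro r hr r' hr' heq
        obtain ⟨hrT, hge, hje⟩ := mem_filter.mp hr
        obtain ⟨hrT', hge', hje'⟩ := mem_filter.mp hr'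
        obtain ⟨-, er, -⟩ := wit r hrT g j hge hje
        obtain ⟨-, er', -⟩ := wit r' hrT' g j hge' hje'
        rw [er, er', show r / g = r' / g from congrArg Prod.fst heq]
    _ ≤ _ := by
        refine mul_le_mul_of_nonneg_left ?_ (div_nonneg hU0 (Real.exp_nonneg _))
        have h := hline γ (C q) (B q) hB0 hBq.cop ((q / g : ℕ) : ℤ) (2 ^ j) (4 * pq * (2:ℝ) ^ j)
          (8 * (2:ℝ) ^ j / Λ) qR Nat.one_le_two_pow (by positivity) (by positivity) (by linarith)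
          (by rw [hqR]; exact_mod_cast hVQ) ?_ (Tg.image (fun r => (r / g, -nn r))) ?_
        · simp only [Nat.cast_pow, Nat.cast_ofNat] at h
          exact h
        · simp only [Nat.cast_pow, Nat.cast_ofNat]
          rcases max_choice (B q : ℝ) (|e| / pq) with hm | hm
          · left
            rw [hΛ, hm, div_le_div_iff_of_pos_right (by linarith)]
            linarith [pow_pos (show (0:ℝ) < 2 by norm_num) j]
          · right
            have he0 : 0 < |e| := by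
              have : 0 < |e| / pq := by rw [← hm]; exact hΛ0
              exact (div_pos_iff_of_pos_right hpq).mp this
            refine le_of_eq ?_
            rw [← hed, hΛ, hm]
            field_simp
            ring
        · intro p hp
          obtain ⟨r, hr, rfl⟩ := mem_image.mp hp
          obtain ⟨hrT, hge, hje⟩ := mem_filter.mp hr
          obtain ⟨-, -, hlo, hhi, -⟩ := wit r hrT g j hge hje
          refine ⟨hlo, by rw [pow_succ] at hhi; omega, ?_⟩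
          have h1 := hnn r hr
          have hm : ((mm q r : ℤ) : ℝ) = ((q / g : ℕ) : ℝ) - ((r / g : ℕ) : ℝ) := by
            rw [mm, xx, yy, hge, Int.cast_sub, Int.cast_natCast, Int.cast_natCast]
          have hD' : DD ψ q r = pq * ((r / g : ℕ) : ℝ) := by rw [DD, yy, hge]
          rw [hm, hD', abs_sub_comm] at h1
          have hyR2 : ((r / g : ℕ) : ℝ) ≤ 2 * (2:ℝ) ^ j := by
            have : ((r / g : ℕ) : ℝ) ≤ (2:ℝ) ^ (j + 1) := by exact_mod_cast hhi.le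
            rw [pow_succ] at this
            linarith
          have h2 := mul_le_mul_of_nonneg_left hyR2 hpq.le
          simp only [Int.cast_neg, Int.cast_natCast]
          rw [show -(nn r : ℝ) - (((r / g : ℕ) : ℝ) - ((q / g : ℕ) : ℝ)) * γ =
            (((q / g : ℕ) : ℝ) - ((r / g : ℕ) : ℝ)) * γ - nn r by ring]
          linarith

/-- one dyadic term -/
theorem sideQ_one {Kl γ pq : ℝ} {C : ℤ} {B q g j : ℕ} (hKl : 0 ≤ Kl) (hq : 1 ≤ q)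
    (hqlo : (q:ℝ) ^ (-(1 + 1/100) : ℝ) ≤ pq) (hu1 : (q:ℝ) * pq ≤ 1) (hg : 0 < g) (hB0 : 0 < B)
    (hBsp : (B:ℝ) * Real.sqrt pq ≤ 2) (hesp : |(B:ℝ) * γ - C| ≤ Real.sqrt pq)
    (hR : (q:ℝ) ^ (0.99 : ℝ) ≤ 2 * ((g:ℝ) * (2:ℝ) ^ j))
    (hY : (q:ℝ) ^ (0.49 : ℝ) ≤ 20 * (2:ℝ) ^ j) :
    FQ Kl γ pq C B q g j ≤ Kl / hw (q / g) *
      (64 * (pq / g) * (((q:ℝ) * pq) ^ (1/4 : ℝ) * prof ((2:ℝ) ^ j * ((g:ℝ) * Real.sqrt (pq / q)))) +
        128 * hw B * (pq / g) * (((q:ℝ) * pq) ^ (1/4 : ℝ) *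
          prof ((2:ℝ) ^ j * ((g:ℝ) * Real.sqrt (pq / q))) / ((2:ℝ) ^ j * (pq * Lam γ pq C B))) +
        16 * 9 * 42 * (pq * (q:ℝ) ^ (-(0.4) : ℝ))) := by
  set qR : ℝ := (q:ℝ) with hqR
  have hqR1 : (1:ℝ) ≤ qR := by rw [hqR]; exact_mod_cast hq
  have hqR0 : 0 < qR := by linarith
  have hpq : 0 < pq := lt_of_lt_of_le (Real.rpow_pos_of_pos hqR0 _) hqlo
  set e : ℝ := (B : ℝ) * γ - C with hed
  set Λ : ℝ := Lam γ pq C B with hΛ
  have hΛ0 : 0 < Λ := lt_of_lt_of_le (Nat.cast_pos.mpr hB0) (le_max_left _ _)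
  set u : ℝ := qR * pq with hud
  have hu : 0 < u := by positivity
  set sp := Real.sqrt pq with hspd
  have hsp : 0 < sp := Real.sqrt_pos.mpr hpq
  set q4 : ℝ := qR ^ (-(0.4) : ℝ) with hq4d
  set t : ℝ := (g:ℝ) * Real.sqrt (pq / qR) with htd
  have hgR : (1:ℝ) ≤ g := by exact_mod_cast hg
  have ht : 0 < t := by positivity
  set Y : ℝ := (2:ℝ) ^ j
  have hY0 : 0 < Y := by positivity
  set pu := u ^ (1/4 : ℝ) * prof (Y * t) with hpu
  have hpu0 : 0 ≤ pu := mul_nonneg (Real.rpow_nonneg hu.le _) (prof_nonneg (by positivity))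
  have hpu1 : pu ≤ 1 :=
    mul_le_one₀ (Real.rpow_le_one hu.le hu1 (by norm_num)) (prof_nonneg (by positivity))
      (prof_le_one _)
  have herr : 16 * pu / ((g:ℝ) * Y ^ 2) *
      (qR ^ (0.05 : ℝ) * (4 * pq * Y * (B : ℝ) + Y * |e| + 1)) ≤ 16 * 9 * 42 * (pq * q4) := by
    have h0 := sideQ_err (R := (g:ℝ) * Y) (Y := Y) hqR1 hR hY hqlo
    have h1 : 4 * pq * Y * (B : ℝ) + Y * |e| + 1 ≤ 9 * Y * sp + 1 := by
      have a : 4 * pq * Y * (B : ℝ) ≤ 8 * (Y * sp) := by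
        calc 4 * pq * Y * (B : ℝ) = 4 * (Y * sp) * ((B : ℝ) * sp) := by
              rw [show pq = sp * sp from (Real.mul_self_sqrt hpq.le).symm]; ring
          _ ≤ 4 * (Y * sp) * 2 := by gcongr
          _ = _ := by ring
      have b : Y * |e| ≤ Y * sp := by gcongr
      linarith
    calc 16 * pu / ((g:ℝ) * Y ^ 2) * (qR ^ (0.05 : ℝ) * (4 * pq * Y * (B : ℝ) + Y * |e| + 1))
        ≤ 16 * 1 / ((g:ℝ) * Y ^ 2) * (qR ^ (0.05 : ℝ) * (9 * Y * sp + 1)) := by gcongr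
      _ = 16 * (qR ^ (0.05 : ℝ) * (9 * (sp / ((g:ℝ) * Y)) + 1 / ((g:ℝ) * Y * Y))) := by
          field_simp
      _ ≤ 16 * (qR ^ (0.05 : ℝ) * (9 * (sp / ((g:ℝ) * Y) + 1 / ((g:ℝ) * Y * Y)))) := by
          have : 0 ≤ 1 / ((g:ℝ) * Y * Y) := by positivity
          gcongr
          linarith
      _ = 16 * 9 * (qR ^ (0.05 : ℝ) * (sp / ((g:ℝ) * Y) + 1 / ((g:ℝ) * Y * Y))) := by ring
      _ ≤ 16 * 9 * (42 * pq * qR ^ (-(0.4) : ℝ)) := by gcongr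
      _ = _ := by rw [hq4d]; ring
  have e1 : FQ Kl γ pq C B q g j = Kl / hw (q / g) * (64 * (pq / g) * pu + 128 * hw B * (pq / g) * (pu / (Y * (pq * Λ)))
      + 16 * pu / ((g:ℝ) * Y ^ 2) *
      (qR ^ (0.05 : ℝ) * (4 * pq * Y * (B : ℝ) + Y * |e| + 1))) := by
    have : (g:ℝ) ≠ 0 := by positivity
    have : hw (q / g) ≠ 0 := (Real.exp_pos _).ne'
    simp only [FQ, UQ, ← hΛ, ← hed, ← hqR, ← hud, ← htd, hpu, Y]
    field_simp
    ring
  rw [e1]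
  exact mul_le_mul_of_nonneg_left (add_le_add le_rfl herr) (div_nonneg hKl (Real.exp_nonneg _))

/-- the number of dyadic positions -/
theorem sideQ_card {q : ℕ} (hq : 1 ≤ q) (J : Finset ℕ) (hJ : ∀ j ∈ J, 2 * 2 ^ j ≤ q ^ 2) :
    (J.card : ℝ) ≤ 61 * (q:ℝ) ^ (0.05 : ℝ) := by
  set qR : ℝ := (q:ℝ) with hqR
  have hqR1 : (1:ℝ) ≤ qR := by rw [hqR]; exact_mod_cast hq
  have hqR0 : 0 < qR := by linarith
  have hc := card_dyadic (s := J) (M₁ := 1) (M₂ := qR ^ 2) one_pos (fun j hj => by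
    refine ⟨one_le_pow₀ one_le_two, ?_⟩
    have h := hJ j hj
    have h' : ((2 * 2 ^ j : ℕ) : ℝ) ≤ ((q ^ 2 : ℕ) : ℝ) := Nat.cast_le.mpr h
    push_cast at h'
    rw [hqR]
    linarith [pow_pos (show (0:ℝ) < 2 by norm_num) j])
  rw [div_one, Real.log_pow] at hc
  push_cast at hc
  have hl := Real.log_nonneg (show (1:ℝ) ≤ qR by linarith)
  rw [max_eq_right (div_nonneg (by positivity) (Real.log_nonneg one_le_two))] at hc
  have hl2 : (2/3 : ℝ) ≤ Real.log 2 := by linarith [Real.log_two_gt_d9]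
  have h1 : 2 * Real.log qR / Real.log 2 ≤ 3 * Real.log qR := by
    rw [div_le_iff₀ (by linarith)]
    have := mul_le_mul_of_nonneg_left hl2 hl
    linarith
  have h2 := Real.log_le_rpow_div (x := qR) hqR0.le (show (0:ℝ) < 0.05 by norm_num)
  have h3 : 1 ≤ qR ^ (0.05 : ℝ) := Real.one_le_rpow (by linarith) (by norm_num)
  rw [le_div_iff₀ (by norm_num)] at h2
  linarith

/-- the sum over the dyadic positions for one common divisor -/
theorem sideQ_gsum {Kl Km γ : ℝ} (hKl : 0 ≤ Kl) (hKm : 0 ≤ Km)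
    (hmin : ∀ g B : ℕ, 0 < g → 0 < B → hw B * min 1 (Real.sqrt ((g:ℝ) / B)) ≤ Km * (1 + Real.log g))
    {ψ : ℕ → ℝ} {C : ℕ → ℤ} {B : ℕ → ℕ} {q g : ℕ} (hAq : Adm 4 ψ q) (hBq : Approx γ ψ C B q)
    (hgd : g ∈ q.divisors) (J : Finset ℕ) (hpos : ∀ j ∈ J, QPos γ (ψ q) (C q) (B q) q g j)
    {A E0 P : ℝ} (hA : A = (2:ℝ) ^ (3/2 : ℝ) / ((2:ℝ) ^ (3/2 : ℝ) - 1) + 8)
    (hE : E0 = 4 * ((2:ℝ) ^ (3/2 - 1 : ℝ) / ((2:ℝ) ^ (3/2 - 1 : ℝ) - 1) +
      (2:ℝ) ^ (1:ℝ) / ((2:ℝ) ^ (1:ℝ) - 1)) + 32 * ((2:ℝ) ^ (1:ℝ) / ((2:ℝ) ^ (1:ℝ) - 1)) +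
      8 * ((2:ℝ) ^ (1/2 : ℝ) / ((2:ℝ) ^ (1/2 : ℝ) - 1)))
    (hE0 : 0 ≤ E0) (hP : P = 64 * A + 128 * E0 * Km) :
    ∑ j ∈ J, FQ Kl γ (ψ q) (C q) (B q) q g j ≤
      Kl * (P * (ψ q / g) * (1 + Real.log g) * (hw g / hw q)) +
        Kl * (16 * 9 * 42 * (ψ q * (q:ℝ) ^ (-(0.4) : ℝ)) * (61 * (q:ℝ) ^ (0.05 : ℝ))) := by
  obtain ⟨hq0, hq4, hqlo, hqhi⟩ := hAq
  set qR : ℝ := (q:ℝ) with hqR
  have hqR4 : (4:ℝ) ≤ qR := by rw [hqR]; exact_mod_cast hq4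
  have hqR0 : 0 < qR := by linarith
  set pq := ψ q with hpqd
  have hpq : 0 < pq := lt_of_lt_of_le (Real.rpow_pos_of_pos hqR0 _) hqlo
  set e : ℝ := (B q : ℝ) * γ - C q with hed
  have hB0 : 0 < B q := hBq.B_pos
  have hBR : (1:ℝ) ≤ B q := by exact_mod_cast hB0
  set Λ : ℝ := Lam γ pq (C q) (B q) with hΛ
  have hΛ0 : 0 < Λ := lt_of_lt_of_le (by linarith) (le_max_left _ _)
  set u : ℝ := qR * pq with hud
  have hu : 0 < u := by positivity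
  have hu1 : u ≤ 1 := by
    rw [le_div_iff₀ hqR0] at hqhi
    linarith
  set q4 : ℝ := qR ^ (-(0.4) : ℝ) with hq4d
  have hg : 0 < g := Nat.pos_of_mem_divisors hgd
  have hgR : (1:ℝ) ≤ g := by exact_mod_cast hg
  set x := q / g with hxd
  have hxpos : 0 < x := Nat.div_pos (Nat.divisor_le hgd) hg
  have hgx : g * x = q := Nat.mul_div_cancel' (Nat.dvd_of_mem_divisors hgd)
  have hwx1 : 1 ≤ hw x := Real.one_le_exp (mul_nonneg (by norm_num) (Lp_nonneg x))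
  have hwq : 0 < hw q := Real.exp_pos _
  have hinv : 1 / hw x ≤ hw g / hw q := by
    rw [div_le_div_iff₀ (by linarith) hwq, one_mul]
    have := hwMul g x hg hxpos
    rwa [hgx] at this
  have hw' : ∀ j ∈ J, (2:ℝ) ^ j * pq < 1/8 ∧ 2 * 2 ^ j ≤ q ^ 2 ∧
      (1/32 ≤ (2:ℝ) ^ j * (pq * Λ) ∨ 1/4 ≤ (x:ℝ) * |e|) ∧
      qR ^ (0.99 : ℝ) ≤ 2 * ((g:ℝ) * (2:ℝ) ^ j) ∧ qR ^ (0.49 : ℝ) ≤ 20 * (2:ℝ) ^ j :=
    fun j hj => ⟨(hpos j hj).2.1, (hpos j hj).1, (hpos j hj).2.2.1, (hpos j hj).2.2.2⟩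
  set t : ℝ := (g:ℝ) * Real.sqrt (pq / qR) with htd
  have ht : 0 < t := by positivity
  have htu : t * Real.sqrt u = (g:ℝ) * pq := by
    rw [htd, mul_assoc, ← Real.sqrt_mul (by positivity), hud,
      show pq / qR * (qR * pq) = pq * pq by field_simp, Real.sqrt_mul_self hpq.le]
  have hsu : 0 < Real.sqrt u := Real.sqrt_pos.mpr hu
  have smain := sum_main_le hu hu1 ht hgR J (fun j hj => by
    rw [le_div_iff₀ hsu, mul_assoc, htu]
    nlinarith [(hw' j hj).1])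
  have sextra := sum_extra_le (c := (g:ℝ) / B q) hu hu1 ht (show 0 < pq * Λ by positivity)
    (by positivity) (by
      rw [htu, div_mul_eq_mul_div, le_div_iff₀ (by linarith)]
      have : (B q : ℝ) ≤ Λ := le_max_left _ _
      calc (g:ℝ) * pq * (B q : ℝ) ≤ (g:ℝ) * pq * Λ := by gcongr
        _ = _ := by ring) J (fun j hj => by
      rcases (hw' j hj).2.2.1 with h | h
      · exact Or.inl h
      · refine Or.inr ?_
        have hΛ2 : |e| ≤ pq * Λ := by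
          have : |e| / pq ≤ Λ := le_max_right _ _
          rw [div_le_iff₀ hpq] at this
          linarith
        have hxR : (g:ℝ) * x = qR := by rw [hqR]; exact_mod_cast hgx
        have h1 : (g:ℝ) / (4 * qR) ≤ pq * Λ := by
          rw [div_le_iff₀ (by positivity), ← hxR]
          have := mul_le_mul_of_nonneg_left hΛ2 (Nat.cast_nonneg (α := ℝ) x)
          nlinarith
        have h2 : t = Real.sqrt u * ((g:ℝ) / qR) := by
          have e2 : Real.sqrt u * Real.sqrt u = qR * pq := Real.mul_self_sqrt hu.le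
          have : t * Real.sqrt u * Real.sqrt u = Real.sqrt u * ((g:ℝ) / qR) * (Real.sqrt u * Real.sqrt u) := by
            rw [htu, e2]
            field_simp
          exact mul_right_cancel₀ (mul_ne_zero hsu.ne' hsu.ne')
            (by rw [← mul_assoc]; exact this)
        calc (2:ℝ) ^ j * t = 4 * Real.sqrt u * ((2:ℝ) ^ j * ((g:ℝ) / (4 * qR))) := by
              rw [h2]; field_simp
          _ ≤ _ := by gcongr)
  have hcard : (J.card : ℝ) ≤ 61 * qR ^ (0.05 : ℝ) :=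
    sideQ_card (by omega) J (fun j hj => (hw' j hj).2.1)
  have hterm : ∀ j ∈ J, FQ Kl γ pq (C q) (B q) q g j ≤
      Kl / hw x * (64 * (pq / g) * (u ^ (1/4 : ℝ) * prof ((2:ℝ) ^ j * t)) +
        128 * hw (B q) * (pq / g) * (u ^ (1/4 : ℝ) * prof ((2:ℝ) ^ j * t) / ((2:ℝ) ^ j * (pq * Λ))) +
        16 * 9 * 42 * (pq * q4)) := fun j hj =>
    sideQ_one hKl hq0 hqlo hu1 hg hB0 hBq.B_le hBq.eps_le (hw' j hj).2.2.2.1 (hw' j hj).2.2.2.2
  have hA0 : 0 ≤ A := by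
    have := Real.one_lt_rpow one_lt_two (show (0:ℝ) < 3/2 by norm_num)
    have : 0 ≤ (2:ℝ) ^ (3/2 : ℝ) / ((2:ℝ) ^ (3/2 : ℝ) - 1) := div_nonneg (by linarith) (by linarith)
    rw [hA]
    positivity
  rw [← hA] at smain
  rw [← hE] at sextra
  refine (sum_le_sum hterm).trans ?_
  rw [← mul_sum, sum_add_distrib, sum_add_distrib, sum_const, nsmul_eq_mul]
  set pg : ℝ := pq / g
  have hpg : 0 ≤ pg := by positivity
  have hwB : 0 ≤ hw (B q) := Real.exp_nonneg _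
  have hl : 0 ≤ 1 + Real.log g := by linarith [Real.log_nonneg hgR]
  have k1 := mul_le_mul_of_nonneg_left smain (show 0 ≤ 64 * pg by positivity)
  have k2 := mul_le_mul_of_nonneg_left sextra (show 0 ≤ 128 * hw (B q) * pg by positivity)
  have k3 := mul_le_mul_of_nonneg_left (hmin g (B q) hg hB0) (show 0 ≤ 128 * pg * E0 by positivity)
  have k4 := mul_le_mul_of_nonneg_right hcard (show 0 ≤ 16 * 9 * 42 * (pq * q4) by positivity)
  rw [mul_sum] at k1 k2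
  have hP0 : 0 ≤ P := by rw [hP]; positivity
  set Z : ℝ := P * pg * (1 + Real.log g)
  set W : ℝ := 16 * 9 * 42 * (pq * q4) * (61 * qR ^ (0.05 : ℝ)) with hWd
  have hW : 0 ≤ W := by positivity
  have hZ : 0 ≤ Z := by positivity
  calc Kl / hw x * _ ≤ Kl / hw x * (Z + W) := by
        refine mul_le_mul_of_nonneg_left ?_ (by positivity)
        simp only [Z, hP, hWd]
        linarith
    _ = Kl * (Z * (1 / hw x)) + Kl * (W * (1 / hw x)) := by ring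
    _ ≤ Kl * (Z * (hw g / hw q)) + Kl * W := by
        refine add_le_add ?_ ?_
        · exact mul_le_mul_of_nonneg_left (mul_le_mul_of_nonneg_left hinv hZ) hKl
        · refine mul_le_mul_of_nonneg_left (mul_le_of_le_one_right hW ?_) hKl
          rw [div_le_one (by linarith)]; exact hwx1

open scoped Classical in
/-- the sum over `r` for fixed `q` -/
theorem sideQ (hLine : LineHwStmt) : SideQStmt := by
  obtain ⟨Kl, hKl, hline⟩ := hLine (0.05 : ℝ) (by norm_num)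
  obtain ⟨Kd, hKd, hdiv⟩ := hwDiv
  obtain ⟨Kt, hKt, htau⟩ := tau (0.05 : ℝ) (by norm_num)
  obtain ⟨Km, hKm, hmin⟩ := min_one_sqrt_mul_hw
  set A : ℝ := (2:ℝ) ^ (3/2 : ℝ) / ((2:ℝ) ^ (3/2 : ℝ) - 1) + 8 with hA
  set E0 : ℝ := 4 * ((2:ℝ) ^ (3/2 - 1 : ℝ) / ((2:ℝ) ^ (3/2 - 1 : ℝ) - 1) +
      (2:ℝ) ^ (1:ℝ) / ((2:ℝ) ^ (1:ℝ) - 1)) + 32 * ((2:ℝ) ^ (1:ℝ) / ((2:ℝ) ^ (1:ℝ) - 1)) +
    8 * ((2:ℝ) ^ (1/2 : ℝ) / ((2:ℝ) ^ (1/2 : ℝ) - 1)) with hE
  have hE0 : 0 ≤ E0 := by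
    have h : ∀ a : ℝ, 0 < a → 0 ≤ (2:ℝ) ^ a / ((2:ℝ) ^ a - 1) := fun a ha => by
      have := Real.one_lt_rpow one_lt_two ha
      exact div_nonneg (by linarith) (by linarith)
    have := h (3/2 - 1) (by norm_num); have := h 1 one_pos; have := h (1/2) (by norm_num)
    positivity
  set P : ℝ := 64 * A + 128 * E0 * Km with hP
  set Rr : ℝ := 16 * 9 * 42 * 61 * Kt * Kt with hRr
  refine ⟨Kl * (P * Kd + Rr), 4, fun γ ψ C B S hS q hqS => ?_⟩
  obtain ⟨hAq, hBq⟩ := hS q hqS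
  have hq0 : 0 < q := hAq.1
  set T := S.filter (fun r => PB γ ψ C B q r) with hTd
  set J : ℕ → Finset ℕ := fun g =>
    (T.filter (fun r => Nat.gcd q r = g)).image (fun r => Nat.log 2 (r / g)) with hJd
  have hfib : ∀ g ∈ q.divisors, ∀ j ∈ J g,
      ∑ r ∈ T.filter (fun r => Nat.gcd q r = g ∧ Nat.log 2 (r / g) = j),
        2 * (Nat.gcd q r : ℝ) * ψ r / r * WW ψ q r ≤ FQ Kl γ (ψ q) (C q) (B q) q g j := by
    intro g _ j hj
    obtain ⟨r0, hr0m, hj0⟩ := mem_image.mp hj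
    obtain ⟨hr0T, hg0e⟩ := mem_filter.mp hr0m
    exact sideQ_fibre hline hS hqS hr0T hg0e hj0
  have hgsum : ∀ g ∈ q.divisors, ∑ j ∈ J g, FQ Kl γ (ψ q) (C q) (B q) q g j ≤
      Kl * (P * (ψ q / g) * (1 + Real.log g) * (hw g / hw q)) +
        Kl * (16 * 9 * 42 * (ψ q * (q:ℝ) ^ (-(0.4) : ℝ)) * (61 * (q:ℝ) ^ (0.05 : ℝ))) :=
    fun g hgd => sideQ_gsum hKl hKm hmin hAq hBq hgd (J g) (fun j hj => by
      obtain ⟨r, hrm, hje⟩ := mem_image.mp hj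
      obtain ⟨hrT, hge⟩ := mem_filter.mp hrm
      exact (sideQ_pair hAq hBq (hS r (mem_filter.mp hrT).1).1 (mem_filter.mp hrT).2 hge hje).2.2.2.2)
      hA hE hE0 hP
  refine (sum_le_gcd_dyadic hq0 T _ _ J
    (fun r hr => mem_image.mpr ⟨r, mem_filter.mpr ⟨hr, rfl⟩, rfl⟩) hfib).trans ?_
  refine (sum_le_sum hgsum).trans ?_
  set qR : ℝ := (q:ℝ) with hqR
  have hqR4 : (4:ℝ) ≤ qR := by rw [hqR]; exact_mod_cast hAq.2.1
  have hqR0 : 0 < qR := by linarith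
  set pq := ψ q with hpqd
  have hpq : 0 < pq := lt_of_lt_of_le (Real.rpow_pos_of_pos hqR0 _) hAq.2.2.1
  set q4 : ℝ := qR ^ (-(0.4) : ℝ) with hq4d
  rw [sum_add_distrib, sum_const, nsmul_eq_mul]
  have hP0 : 0 ≤ P := by
    have := Real.one_lt_rpow one_lt_two (show (0:ℝ) < 3/2 by norm_num)
    have : 0 ≤ (2:ℝ) ^ (3/2 : ℝ) / ((2:ℝ) ^ (3/2 : ℝ) - 1) := div_nonneg (by linarith) (by linarith)
    positivity
  have h1 : ∑ g ∈ q.divisors, Kl * (P * (pq / g) * (1 + Real.log g) * (hw g / hw q)) ≤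
      Kl * P * Kd * lam ψ q := by
    have e1 : ∑ g ∈ q.divisors, Kl * (P * (pq / g) * (1 + Real.log g) * (hw g / hw q)) =
        Kl * P * pq / hw q * ∑ g ∈ q.divisors, (1 + Real.log g) * hw g / g := by
      rw [mul_sum]
      refine sum_congr rfl fun g _ => ?_
      ring
    rw [e1]
    refine (mul_le_mul_of_nonneg_left (hdiv q hq0) (div_nonneg (by positivity) (Real.exp_nonneg _))).trans
      (le_of_eq ?_)
    have : hw q ≠ 0 := (Real.exp_pos _).ne'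
    rw [lam, ← hpqd, ← hqR]
    simp only [hw]
    field_simp
  have h2 : (q.divisors.card : ℝ) * (Kl * (16 * 9 * 42 * (pq * q4) * (61 * qR ^ (0.05 : ℝ)))) ≤
      Kl * Rr * lam ψ q := by
    have ht := htau q hq0
    have hφ := totTau q hq0
    rw [← hqR] at ht hφ
    have hcpos : 0 ≤ (q.divisors.card : ℝ) := Nat.cast_nonneg _
    have key : (q.divisors.card : ℝ) * (pq * q4 * qR ^ (0.05 : ℝ)) ≤ Kt * Kt * lam ψ q := by
      have hphi0 : 0 ≤ (Nat.totient q : ℝ) / qR := by positivity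
      have h1 : (1:ℝ) ≤ (Nat.totient q : ℝ) / qR * (Kt * qR ^ (0.05 : ℝ)) := by
        refine le_trans ?_ (mul_le_mul_of_nonneg_left ht hphi0)
        rw [div_mul_eq_mul_div, le_div_iff₀ hqR0]
        linarith
      have hsmall : qR ^ (0.05 : ℝ) * qR ^ (0.05 : ℝ) * qR ^ (0.05 : ℝ) * q4 ≤ 1 := by
        rw [hq4d, ← Real.rpow_add hqR0, ← Real.rpow_add hqR0, ← Real.rpow_add hqR0]
        exact Real.rpow_le_one_of_one_le_of_nonpos (by linarith) (by norm_num)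
      have hq40 : 0 ≤ q4 := Real.rpow_nonneg hqR0.le _
      calc (q.divisors.card : ℝ) * (pq * q4 * qR ^ (0.05 : ℝ))
          ≤ Kt * qR ^ (0.05 : ℝ) * (pq * q4 * qR ^ (0.05 : ℝ)) := by gcongr
        _ ≤ Kt * qR ^ (0.05 : ℝ) * (pq * q4 * qR ^ (0.05 : ℝ)) *
            ((Nat.totient q : ℝ) / qR * (Kt * qR ^ (0.05 : ℝ))) :=
            le_mul_of_one_le_right (by positivity) h1
        _ = Kt * Kt * ((Nat.totient q : ℝ) / qR * pq) *
            (qR ^ (0.05 : ℝ) * qR ^ (0.05 : ℝ) * qR ^ (0.05 : ℝ) * q4) := by ring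
        _ ≤ Kt * Kt * ((Nat.totient q : ℝ) / qR * pq) * 1 := by gcongr
        _ = _ := by rw [lam, ← hpqd, ← hqR]; ring
    have := mul_le_mul_of_nonneg_left key (show 0 ≤ Kl * (16 * 9 * 42 * 61) by positivity)
    rw [hRr]
    linarith
  linarith

end Vale.P028EV
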