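import Vale.Agent.P028.EV.Defs
import Vale.Agent.P028.EV.Dyadic

/-! # P028: the sum over `q` for a fixed `r` in case B

Fix `r`. The pairs are grouped by `g = gcd q r`, by the level `J` of `q ψ q` and by the dyadic
size of `q / g`; each group is counted on a line with the approximation attached to `r`. -/

open scoped BigOperators
open Finset

namespace Vale.P028EV

namespace SideR

/-- the level: `2 ^ lev c ≤ 1 / c < 2 ^ (lev c + 1)` -/
noncomputable def lev (c : ℝ) : ℕ := Nat.log 2 ⌊1 / c⌋₊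

theorem lev_spec {c : ℝ} (h0 : 0 < c) (h1 : c ≤ 1) :
    (2:ℝ) ^ lev c ≤ 1 / c ∧ 1 / c < (2:ℝ) ^ (lev c + 1) := by
  have hn : 1 ≤ ⌊1 / c⌋₊ := Nat.le_floor (by simpa using (one_le_div h0).mpr h1)
  constructor
  · calc (2:ℝ) ^ lev c ≤ (⌊1 / c⌋₊ : ℝ) := by
          exact_mod_cast Nat.pow_log_le_self 2 (Nat.pos_iff_ne_zero.mp hn)
      _ ≤ 1 / c := Nat.floor_le (by positivity)
  · have h := Nat.lt_pow_succ_log_self one_lt_two ⌊1 / c⌋₊
    calc 1 / c < (⌊1 / c⌋₊ : ℝ) + 1 := Nat.lt_floor_add_one _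
      _ ≤ ((2 ^ (lev c + 1) : ℕ) : ℝ) := by
          exact_mod_cast h
      _ = _ := by push_cast; ring

theorem one_le_hw (v : ℕ) : 1 ≤ hw v := by
  refine Real.one_le_exp (mul_nonneg (by norm_num) (Finset.sum_nonneg fun p hp => ?_))
  have h2 := (Nat.prime_of_mem_primeFactors hp).one_lt
  exact div_nonneg (Real.log_nonneg (by exact_mod_cast h2.le)) (Nat.cast_nonneg p)

theorem one_add_le_pow (J : ℕ) : 1 + (J:ℝ) ≤ 8 * ((2:ℝ) ^ J) ^ (1/4 : ℝ) := by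
  have h2 : (0.69:ℝ) ≤ Real.log 2 := by
    have := Real.log_two_gt_d9
    linarith
  rw [← Real.rpow_natCast (2:ℝ) J, ← Real.rpow_mul (by norm_num),
    Real.rpow_def_of_pos (by norm_num)]
  have h := Real.add_one_le_exp (Real.log 2 * ((J:ℝ) * (1/4)))
  have hJ : (0:ℝ) ≤ J := Nat.cast_nonneg J
  nlinarith [mul_nonneg (sub_nonneg.mpr h2) hJ]

theorem log_root {a : ℝ} (h0 : 0 < a) (h1 : a ≤ 1) :
    (1 + Real.log (1 / a)) * a ^ (1/4 : ℝ) ≤ 5 := by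
  have h := Real.log_le_rpow_div (x := 1 / a) (by positivity) (show (0:ℝ) < 1/4 by norm_num)
  have e : (1 / a) ^ (1/4 : ℝ) * a ^ (1/4 : ℝ) = 1 := by
    rw [← Real.mul_rpow (by positivity) h0.le, one_div_mul_cancel h0.ne', Real.one_rpow]
  have hle : a ^ (1/4 : ℝ) ≤ 1 := Real.rpow_le_one h0.le h1 (by norm_num)
  have hp : 0 ≤ a ^ (1/4 : ℝ) := Real.rpow_nonneg h0.le _
  have h2 := mul_le_mul_of_nonneg_right h hp
  rw [div_mul_eq_mul_div, e] at h2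
  nlinarith

theorem hw_min {K : ℝ} (hK : 0 ≤ K) (hlog : ∀ B : ℕ, 0 < B → hw B ≤ K * (1 + Real.log B))
    {g B : ℕ} (hg : 0 < g) (hB : 0 < B) :
    hw B * min 1 (Real.sqrt ((g:ℝ) / B)) ≤ K * (3 + Real.log g) := by
  have hg' : (0:ℝ) < g := by exact_mod_cast hg
  have hB' : (0:ℝ) < B := by exact_mod_cast hB
  have hlg : 0 ≤ Real.log (g:ℝ) := Real.log_natCast_nonneg g
  have hlB : 0 ≤ Real.log (B:ℝ) := Real.log_natCast_nonneg B
  have hm : 0 ≤ min 1 (Real.sqrt ((g:ℝ) / B)) := le_min zero_le_one (Real.sqrt_nonneg _)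
  refine (mul_le_mul_of_nonneg_right (hlog B hB) hm).trans ?_
  rw [mul_assoc]
  refine mul_le_mul_of_nonneg_left ?_ hK
  rcases le_or_gt B g with h | h
  · have : Real.log (B:ℝ) ≤ Real.log g := Real.log_le_log hB' (by exact_mod_cast h)
    nlinarith [min_le_left (1:ℝ) (Real.sqrt ((g:ℝ) / B))]
  · have h' : (g:ℝ) ≤ B := by exact_mod_cast h.le
    have hs : Real.sqrt ((g:ℝ) / B) ≤ 1 := Real.sqrt_le_one.mpr ((div_le_one hB').mpr h')
    have hlt := Real.log_le_rpow_div (x := (B:ℝ) / g) (by positivity)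
      (show (0:ℝ) < 1/2 by norm_num)
    rw [Real.log_div hB'.ne' hg'.ne', ← Real.sqrt_eq_rpow] at hlt
    have e : Real.sqrt ((B:ℝ) / g) * Real.sqrt ((g:ℝ) / B) = 1 := by
      rw [← Real.sqrt_mul (by positivity)]
      rw [show (B:ℝ) / g * ((g:ℝ) / B) = 1 by field_simp, Real.sqrt_one]
    have h2 := mul_le_mul_of_nonneg_right hlt (Real.sqrt_nonneg ((g:ℝ) / B))
    rw [div_mul_eq_mul_div, e] at h2
    have h3 := min_le_right (1:ℝ) (Real.sqrt ((g:ℝ) / B))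
    calc (1 + Real.log B) * min 1 (Real.sqrt ((g:ℝ) / B))
        ≤ (1 + Real.log B) * Real.sqrt ((g:ℝ) / B) := mul_le_mul_of_nonneg_left h3 (by linarith)
      _ ≤ 3 + Real.log g := by nlinarith [Real.sqrt_nonneg ((g:ℝ) / B)]

open scoped Classical in
/-- The weighted dyadic sums of the bound `E`. -/
theorem extra_sum {s : Finset ℕ} {c B e : ℝ} (hc : 0 < c) (hB : 0 < B) (he : 0 ≤ e)
    (h : ∀ j ∈ s, 1/4 ≤ c / (2:ℝ) ^ j * B ∨ 1/8 ≤ (2:ℝ) ^ j * e) :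
    ∑ j ∈ s, (if 1/4 ≤ c / (2:ℝ) ^ j * B then (2:ℝ) ^ j / B else 2 * (c / (2:ℝ) ^ j) / e)
      ≤ 40 * c := by
  rw [Finset.sum_ite]
  have h1 : ∑ j ∈ s.filter (fun j => 1/4 ≤ c / (2:ℝ) ^ j * B), (2:ℝ) ^ j / B ≤ 8 * c := by
    have := sum_dyadic_le (α := 1) one_pos (M := 4 * c * B)
      (s := s.filter (fun j => 1/4 ≤ c / (2:ℝ) ^ j * B)) (by positivity) fun j hj => by
        have hx : (0:ℝ) < 2 ^ j := by positivity
        have hj' := (Finset.mem_filter.mp hj).2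
        rw [div_mul_eq_mul_div, le_div_iff₀ hx] at hj'
        linarith
    simp only [Real.rpow_one] at this
    rw [← Finset.sum_div, div_le_iff₀ hB]
    linarith
  have h2 : ∑ j ∈ s.filter (fun j => ¬ 1/4 ≤ c / (2:ℝ) ^ j * B), 2 * (c / (2:ℝ) ^ j) / e
      ≤ 32 * c := by
    rcases he.eq_or_lt with rfl | hepos
    · rw [Finset.sum_eq_zero fun j _ => div_zero _]
      linarith
    have := sum_dyadic_ge (α := 1) one_pos (M := 1 / (8 * e))
      (s := s.filter (fun j => ¬ 1/4 ≤ c / (2:ℝ) ^ j * B)) (by positivity) fun j hj => by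
        obtain ⟨h1, h2⟩ := Finset.mem_filter.mp hj
        rw [div_le_iff₀ (by positivity)]
        have := (h j h1).resolve_left h2
        linarith
    simp only [Real.rpow_neg_one, Real.rpow_one, one_div, inv_inv] at this
    calc ∑ j ∈ s.filter (fun j => ¬ 1/4 ≤ c / (2:ℝ) ^ j * B), 2 * (c / (2:ℝ) ^ j) / e
        = 2 * c / e * ∑ j ∈ s.filter (fun j => ¬ 1/4 ≤ c / (2:ℝ) ^ j * B), ((2:ℝ) ^ j)⁻¹ := by
          rw [Finset.mul_sum]; exact Finset.sum_congr rfl fun j _ => by ring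
      _ ≤ 2 * c / e * (2 / (2 - 1) * (8 * e)) := by
          refine mul_le_mul_of_nonneg_left ?_ (by positivity)
          simpa only [one_div] using this
      _ = 32 * c := by field_simp; ring
  linarith

/-- The balance of the two bounds for the extra term. -/
theorem min_balance {a t u : ℝ} (ha0 : 0 < a) (ha1 : a ≤ 1) (ht : 1 ≤ t) (hu : 0 ≤ u) :
    a ^ (1/4 : ℝ) * t ^ (-(3/4) : ℝ) * min 1 (u * Real.sqrt t / Real.sqrt a)
      ≤ t ^ (-(1/2) : ℝ) * min 1 (Real.sqrt u) := by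
  have ht0 : 0 < t := by linarith
  have hA : 0 ≤ a ^ (1/4 : ℝ) * t ^ (-(3/4) : ℝ) :=
    mul_nonneg (Real.rpow_nonneg ha0.le _) (Real.rpow_nonneg ht0.le _)
  have hA1 : a ^ (1/4 : ℝ) * t ^ (-(3/4) : ℝ) ≤ t ^ (-(1/2) : ℝ) :=
    le_trans (mul_le_of_le_one_left (Real.rpow_nonneg ht0.le _)
      (Real.rpow_le_one ha0.le ha1 (by norm_num)))
      (Real.rpow_le_rpow_of_exponent_le ht (by norm_num))
  rcases le_or_gt 1 (Real.sqrt u) with h | h
  · rw [min_eq_left h, mul_one]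
    exact le_trans (mul_le_of_le_one_right hA (min_le_left _ _)) hA1
  rw [min_eq_right h.le]
  set w := u * Real.sqrt t / Real.sqrt a with hwdef
  have hw0 : 0 ≤ w := by positivity
  have hmin : min 1 w ≤ Real.sqrt w := by
    rcases le_or_gt 1 w with hw | hw
    · rw [min_eq_left hw]; exact Real.one_le_sqrt.mpr hw
    · rw [min_eq_right hw.le]; exact Real.le_sqrt_of_sq_le (by nlinarith)
  refine (mul_le_mul_of_nonneg_left hmin hA).trans (le_of_eq ?_)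
  have hqa : 0 < a ^ (1/4 : ℝ) := Real.rpow_pos_of_pos ha0 _
  rw [hwdef, Real.sqrt_div (by positivity), Real.sqrt_mul hu]
  simp only [Real.sqrt_eq_rpow, ← Real.rpow_mul ha0.le, ← Real.rpow_mul ht0.le]
  norm_num only
  have e : t ^ (-(3/4) : ℝ) * t ^ (1/4 : ℝ) = t ^ (-(1/2) : ℝ) := by
    rw [← Real.rpow_add ht0]; norm_num
  rw [← e]
  field_simp

theorem hw_pos (v : ℕ) : 0 < hw v := Real.exp_pos _

/-- The bracket of the line lemma. -/
theorem bracket_bound {r q g y X t B e pr : ℝ} (hr : 4 ≤ r) (hg : 0 < g) (hgy : g * y = r)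
    (hy : 0 ≤ y) (ht : 1 ≤ t) (hX : 0 < X) (hqX : q ≤ 2 * (g * X)) (hXq : g * X ≤ q)
    (hq9 : r ^ (9/10 : ℝ) ≤ q) (hB0 : 0 ≤ B) (hB : B ≤ 2 * r ^ (101/200 : ℝ))
    (he0 : 0 ≤ e) (he : e ≤ Real.sqrt pr) (hq2 : q ^ 2 * pr ≤ r)
    (hns : 1/4 ≤ 2 * y / (g * t) / X * B ∨ 1/8 ≤ X * e) :
    2 * y / (g * t) / X * B + X * e + 1 ≤ 60 * r ^ (61/100 : ℝ) / g := by
  have hr1 : (1:ℝ) ≤ r := by linarith
  have hr0 : (0:ℝ) < r := by linarith
  have hp : 0 < r ^ (9/10 : ℝ) := Real.rpow_pos_of_pos hr0 _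
  have hR0 : 0 ≤ r ^ (61/100 : ℝ) := Real.rpow_nonneg hr0.le _
  have hq0 : 0 ≤ q := hp.le.trans hq9
  have h605 : r * r ^ (101/200 : ℝ) / r ^ (9/10 : ℝ) ≤ r ^ (61/100 : ℝ) := by
    rw [← Real.rpow_one_add' hr0.le (by norm_num), ← Real.rpow_sub hr0]
    exact Real.rpow_le_rpow_of_exponent_le hr1 (by norm_num)
  have hden : r ^ (9/10 : ℝ) ≤ 2 * (g * X) := hq9.trans hqX
  have e1 : 2 * y / (g * t) / X * B ≤ 8 * r ^ (61/100 : ℝ) / g := by
    calc 2 * y / (g * t) / X * B ≤ 2 * y / (g * 1) / X * B := by gcongr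
      _ = 4 * r / g * B / (2 * (g * X)) := by rw [← hgy]; field_simp; ring
      _ ≤ 4 * r / g * (2 * r ^ (101/200 : ℝ)) / r ^ (9/10 : ℝ) := by gcongr
      _ = 8 * (r * r ^ (101/200 : ℝ) / r ^ (9/10 : ℝ)) / g := by ring
      _ ≤ _ := by gcongr
  have e2 : X * e ≤ r ^ (61/100 : ℝ) / g := by
    rw [le_div_iff₀ hg]
    calc X * e * g = g * X * e := by ring
      _ ≤ q * Real.sqrt pr := mul_le_mul hXq he he0 hq0
      _ = Real.sqrt (q ^ 2 * pr) := by rw [Real.sqrt_mul (sq_nonneg q), Real.sqrt_sq hq0]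
      _ ≤ Real.sqrt r := Real.sqrt_le_sqrt hq2
      _ = r ^ (1/2 : ℝ) := Real.sqrt_eq_rpow _
      _ ≤ _ := Real.rpow_le_rpow_of_exponent_le hr1 (by norm_num)
  have e3 : (1:ℝ) ≤ 32 * (r ^ (61/100 : ℝ) / g) := by
    have h0 : 0 ≤ r ^ (61/100 : ℝ) / g := by positivity
    have e1' := e1.trans_eq (mul_div_assoc _ _ _)
    rcases hns with h | h <;> linarith
  have e1' := e1.trans_eq (mul_div_assoc _ _ _)
  rw [mul_div_assoc (60:ℝ)]
  linarith [div_nonneg hR0 hg.le]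

/-- The weight of a pair against `c = q ψ q` of level `t`. -/
theorem term_bound {p a c t u v : ℝ} (hp : 0 ≤ p) (ha : 0 < a) (hc : 0 < c) (ht : 1 ≤ t)
    (htc : t * c ≤ 1) (htc' : 1 ≤ 2 * (t * c)) (hu : 0 < u) (hv : 0 < v) :
    p / ((c / a) ^ (1/4 : ℝ) * u / v) ≤ 2 * p * a ^ (1/4 : ℝ) * t ^ (1/4 : ℝ) / u * v := by
  have hca : 0 < c ^ (1/4 : ℝ) := Real.rpow_pos_of_pos hc _
  have haa : 0 < a ^ (1/4 : ℝ) := Real.rpow_pos_of_pos ha _
  have h2 : 1 ≤ 2 * t ^ (1/4 : ℝ) * c ^ (1/4 : ℝ) := by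
    rw [mul_assoc, ← Real.mul_rpow (by linarith) hc.le]
    have : (1/2 : ℝ) ≤ (t * c) ^ (1/4 : ℝ) :=
      le_trans (by linarith) (Real.self_le_rpow_of_le_one (by positivity) htc (by norm_num))
    linarith
  rw [Real.div_rpow hc.le ha.le]
  calc p / (c ^ (1/4 : ℝ) / a ^ (1/4 : ℝ) * u / v)
      = p * a ^ (1/4 : ℝ) / u * v / c ^ (1/4 : ℝ) := by field_simp
    _ ≤ p * a ^ (1/4 : ℝ) / u * v * (2 * t ^ (1/4 : ℝ)) := by
        rw [div_le_iff₀ hca, mul_assoc _ (2 * _)]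
        exact le_mul_of_one_le_right (by positivity) h2
    _ = _ := by ring

/-- What is used about one pair. -/
structure Facts (γ : ℝ) (ψ : ℕ → ℝ) (C : ℕ → ℤ) (B : ℕ → ℕ) (q r g J j : ℕ) : Prop where
  term : 2 * (g:ℝ) * ψ r / r / WW ψ q r ≤
    4 * g * ψ r / r * ((r:ℝ) * ψ r) ^ (1/4 : ℝ) * ((2:ℝ) ^ J) ^ (1/4 : ℝ) / hw (r / g) * hw (q / g)
  near : ∃ n : ℤ, |(n:ℝ) - (((q / g : ℕ) : ℝ) - ((r / g : ℕ) : ℤ)) * γ| <
    2 * ((r / g : ℕ) : ℝ) / ((g:ℝ) * 2 ^ J) / 2 ^ j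
  low : 2 * ((r / g : ℕ) : ℝ) / ((g:ℝ) * 2 ^ J) ≤ 2 ^ j
  xpos : q / g ≠ 0
  top : (2:ℝ) ^ j * Real.sqrt (2 ^ J * ((r:ℝ) * ψ r)) ≤ ((r / g : ℕ) : ℝ)
  nonspecial : 1/4 ≤ 2 * ((r / g : ℕ) : ℝ) / ((g:ℝ) * 2 ^ J) / 2 ^ j * B r ∨
    1/8 ≤ (2:ℝ) ^ j * |(B r : ℝ) * γ - C r|
  size : (2:ℝ) ^ J ≤ (r:ℝ) ^ (2/100 : ℝ) ∧ (2:ℝ) ^ j ≤ (r:ℝ) ^ 2 ∧ 2 * (2:ℝ) ^ j ≤ (r:ℝ) ^ 2
  bracket : 2 * ((r / g : ℕ) : ℝ) / ((g:ℝ) * 2 ^ J) / 2 ^ j * B r +
    (2:ℝ) ^ j * |(B r : ℝ) * γ - C r| + 1 ≤ 60 * (r:ℝ) ^ (61/100 : ℝ) / g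

/-- The bound on `q` and on the top of the dyadic ranges. -/
theorem size_bounds {q r g x y c t a X : ℝ} (hr : 4 ≤ r) (hq : 0 < q) (hg : 0 < g)
    (hx : g * x = q) (hy : g * y = r) (hy0 : 0 ≤ y) (hc1 : c ≤ 1) (ha0 : 0 ≤ a)
    (ht : 1 ≤ t) (htc : t * c ≤ 1) (hX0 : 0 ≤ X) (hXx : X ≤ x) (hle : q ^ 2 * a ≤ c * r ^ 2)
    (hal : 1 ≤ a * r) :
    X * Real.sqrt (t * a) ≤ y ∧ q ^ 2 * a ≤ r ^ 2 ∧ 2 * q ≤ r ^ 2 := by
  have hqa : q ^ 2 * a ≤ r ^ 2 :=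
    hle.trans (mul_le_of_le_one_left (sq_nonneg r) hc1)
  refine ⟨?_, hqa, ?_⟩
  · have h1 : (g * X) ^ 2 * (t * a) ≤ (g * y) ^ 2 := by
      calc (g * X) ^ 2 * (t * a) ≤ (g * x) ^ 2 * (t * a) := by gcongr
        _ = t * (q ^ 2 * a) := by rw [hx]; ring
        _ ≤ t * (c * r ^ 2) := by gcongr
        _ = (t * c) * r ^ 2 := by ring
        _ ≤ r ^ 2 := mul_le_of_le_one_left (sq_nonneg r) htc
        _ = _ := by rw [hy]
    have h2 := Real.sqrt_le_sqrt h1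
    rw [Real.sqrt_mul (sq_nonneg _), Real.sqrt_sq (by positivity), Real.sqrt_sq (by positivity),
      mul_assoc] at h2
    exact le_of_mul_le_mul_left h2 hg
  · have h3 : q ^ 2 ≤ r ^ 3 := by
      calc q ^ 2 ≤ q ^ 2 * (a * r) := le_mul_of_one_le_right (sq_nonneg q) hal
        _ = q ^ 2 * a * r := by ring
        _ ≤ r ^ 2 * r := by gcongr
        _ = r ^ 3 := by ring
    refine (pow_le_pow_iff_left₀ (by positivity) (by positivity) two_ne_zero).mp ?_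
    calc (2 * q) ^ 2 = 4 * q ^ 2 := by ring
      _ ≤ 4 * r ^ 3 := by gcongr
      _ ≤ r * r ^ 3 := by gcongr
      _ = (r ^ 2) ^ 2 := by ring

theorem facts {γ : ℝ} {ψ : ℕ → ℝ} {C : ℕ → ℤ} {B : ℕ → ℕ} {q r : ℕ} (hq : Adm 4 ψ q)
    (hr : Adm 4 ψ r) (hA : Approx γ ψ C B r) (hPB : PB γ ψ C B q r)
    (hS : ¬ Special γ ψ C B q r) :
    Facts γ ψ C B q r (Nat.gcd q r) (lev ((q:ℝ) * ψ q)) (Nat.log 2 (q / Nat.gcd q r)) := by
  obtain ⟨hD8, h910, hle, hx2, hy2, n, hn, -, -⟩ := hPB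
  obtain ⟨hq0, -, hql, hqu⟩ := hq
  obtain ⟨hr0, hr4, hrl, hru⟩ := hr
  set g := Nat.gcd q r with hg
  set x := q / g with hx
  set y := r / g with hy
  have hxe : xx q r = x := rfl
  have hye : yy q r = y := rfl
  rw [hxe] at hx2
  rw [hye] at hy2
  have hg0 : (0:ℝ) < g := by exact_mod_cast Nat.gcd_pos_of_pos_left r hq0
  have hx0 : (0:ℝ) < x := by exact_mod_cast (show 0 < x by omega)
  have hy0 : (0:ℝ) < y := by exact_mod_cast (show 0 < y by omega)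
  have hgxR : (g:ℝ) * x = q := by exact_mod_cast Nat.mul_div_cancel' (Nat.gcd_dvd_left q r)
  have hgyR : (g:ℝ) * y = r := by exact_mod_cast Nat.mul_div_cancel' (Nat.gcd_dvd_right q r)
  have hqR : (0:ℝ) < q := by exact_mod_cast hq0
  have hrR : (4:ℝ) ≤ r := by exact_mod_cast hr4
  have hr1 : (1:ℝ) ≤ r := by linarith
  have hψq : 0 < ψ q := lt_of_lt_of_le (Real.rpow_pos_of_pos hqR _) hql
  have hψr : 0 < ψ r := lt_of_lt_of_le (Real.rpow_pos_of_pos (by linarith) _) hrl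
  set a := (r:ℝ) * ψ r with ha
  set c := (q:ℝ) * ψ q with hc
  have hc0 : 0 < c := by positivity
  have hc1 : c ≤ 1 := by
    have := (le_div_iff₀ hqR).mp hqu
    linarith [mul_comm (q:ℝ) (ψ q)]
  have ha0 : 0 < a := by positivity
  obtain ⟨hJ1, hJ2⟩ := lev_spec hc0 hc1
  set J := lev c
  set t := (2:ℝ) ^ J with ht
  have ht1 : 1 ≤ t := one_le_pow₀ (by norm_num)
  rw [pow_succ, ← ht] at hJ2
  rw [le_div_iff₀ hc0] at hJ1
  rw [div_lt_iff₀ hc0] at hJ2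
  set j := Nat.log 2 x
  set X := (2:ℝ) ^ j with hX
  have hX0 : 0 < X := by positivity
  have hXx : X ≤ x := by
    have h' : ((2 ^ j : ℕ) : ℝ) ≤ x := by
      exact_mod_cast Nat.pow_log_le_self 2 (x := x) (by omega)
    push_cast at h'
    exact h'
  have hxX : (x:ℝ) < 2 * X := by
    have h' : (x:ℝ) < ((2 ^ (j + 1) : ℕ) : ℝ) := by
      exact_mod_cast Nat.lt_pow_succ_log_self one_lt_two x
    push_cast at h'
    rw [pow_succ] at h'
    linarith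
  set D := DD ψ q r with hD
  have hDe : D * (g * x) = c * y := by
    rw [hD, DD, hye, hgxR, hc]; ring
  have hD0 : 0 < D := by rw [hD, DD, hye]; positivity
  -- `2 D ≤ D'`
  have hDD : 2 * D ≤ 2 * (y:ℝ) / (g * t) / X := by
    rw [le_div_iff₀ hX0, le_div_iff₀ (by positivity)]
    calc 2 * D * X * ((g:ℝ) * t) ≤ 2 * D * x * (g * t) := by gcongr
      _ = 2 * (D * (g * x)) * t := by ring
      _ = 2 * (y:ℝ) * (t * c) := by rw [hDe]; ring
      _ ≤ 2 * y := mul_le_of_le_one_right (by positivity) hJ1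
  have hqr : (q:ℝ) ^ 2 * a ≤ c * (r:ℝ) ^ 2 := by
    have h := hle
    rw [div_le_div_iff₀ (by linarith) hqR] at h
    rw [ha, hc]
    have := mul_le_mul_of_nonneg_left h (mul_nonneg hqR.le (by linarith : (0:ℝ) ≤ r))
    linarith
  have hal : 1 ≤ a * r := by
    have e : (r:ℝ) ^ (-(1 + 1/100 : ℝ)) * ((r:ℝ) * r) = (r:ℝ) ^ (99/100 : ℝ) := by
      rw [← sq, ← Real.rpow_natCast (r:ℝ) 2, ← Real.rpow_add (by linarith)]; norm_num
    calc (1:ℝ) ≤ (r:ℝ) ^ (99/100 : ℝ) := Real.one_le_rpow hr1 (by norm_num)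
      _ = (r:ℝ) ^ (-(1 + 1/100 : ℝ)) * ((r:ℝ) * r) := e.symm
      _ ≤ ψ r * ((r:ℝ) * r) := by gcongr
      _ = a * r := by rw [ha]; ring
  obtain ⟨htop, hq2, h2q⟩ := size_bounds hrR hqR hg0 hgxR hgyR hy0.le hc1 ha0.le ht1 hJ1
    hX0.le hXx hqr hal
  have hXq : X ≤ q := by
    have : (x:ℝ) ≤ q := by exact_mod_cast Nat.div_le_self q g
    linarith
  have hns : 1/4 ≤ 2 * (y:ℝ) / (g * t) / X * B r ∨
      1/8 ≤ X * |(B r : ℝ) * γ - C r| := by
    rw [Special, not_and_or, not_lt, not_lt, hxe] at hS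
    rcases hS with h | h
    · left
      exact le_trans h (mul_le_mul_of_nonneg_right hDD (Nat.cast_nonneg _))
    · right
      have := mul_le_mul_of_nonneg_right hxX.le (abs_nonneg ((B r : ℝ) * γ - C r))
      linarith
  refine ⟨?_, ⟨n, ?_⟩, ?_, (by omega), htop, hns, ⟨?_, ?_, ?_⟩, ?_⟩
  · rw [WW, hxe, hye, ← hc, ← ha, ← ht]
    refine (term_bound (by positivity) ha0 hc0 ht1 hJ1 (by linarith) (hw_pos y) (hw_pos x)).trans
      (le_of_eq ?_)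
    ring
  · have h := hn
    rw [mm, hxe, hye] at h
    push_cast at h ⊢
    exact lt_of_lt_of_le h hDD
  · rw [div_le_iff₀ (by positivity)]
    refine le_of_lt ?_
    -- `c y = D g x < g x / 8` and `1 < 2 t c`
    calc 2 * (y:ℝ) = 2 * (y:ℝ) * 1 := by ring
      _ ≤ 2 * (y:ℝ) * (t * 2 * c) := by gcongr
      _ = 4 * t * (D * (g * x)) := by rw [hDe]; ring
      _ < 4 * t * ((1/8) * (g * x)) := by gcongr
      _ ≤ 4 * t * ((1/8) * (g * (2 * X))) := by gcongr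
      _ = X * ((g:ℝ) * t) := by ring
  · calc t ≤ 1 / c := (le_div_iff₀ hc0).mpr hJ1
      _ ≤ (q:ℝ) ^ (1/100 : ℝ) := by
          rw [div_le_iff₀ hc0, hc]
          calc (1:ℝ) = (q:ℝ) ^ (1/100 : ℝ) * ((q:ℝ) * (q:ℝ) ^ (-(1 + 1/100 : ℝ))) := by
                rw [← Real.rpow_one_add' hqR.le (by norm_num), ← Real.rpow_add hqR]
                norm_num
            _ ≤ _ := by gcongr
      _ ≤ ((r:ℝ) ^ 2) ^ (1/100 : ℝ) := Real.rpow_le_rpow hqR.le (by linarith) (by norm_num)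
      _ = (r:ℝ) ^ (2/100 : ℝ) := by
          rw [← Real.rpow_natCast (r:ℝ) 2, ← Real.rpow_mul (by linarith)]; norm_num
  · linarith
  · linarith
  · refine bracket_bound (q := (q:ℝ)) (pr := ψ r) hrR hg0 hgyR hy0.le ht1 hX0 ?_ ?_ ?_
      (Nat.cast_nonneg _) ?_ (abs_nonneg _) hA.eps_le ?_ hns
    · rw [← hgxR]; nlinarith
    · rw [← hgxR]; gcongr
    · have h' : ((r:ℝ)) ^ 9 ≤ (q:ℝ) ^ 10 := by exact_mod_cast h910.le
      calc (r:ℝ) ^ (9/10 : ℝ) = ((r:ℝ) ^ 9) ^ (1/10 : ℝ) := by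
            rw [← Real.rpow_natCast (r:ℝ) 9, ← Real.rpow_mul (by linarith)]; norm_num
        _ ≤ ((q:ℝ) ^ 10) ^ (1/10 : ℝ) := by gcongr
        _ = q := by
            rw [← Real.rpow_natCast (q:ℝ) 10, ← Real.rpow_mul hqR.le]; norm_num
    · have hs : (r:ℝ) ^ (-(101/200) : ℝ) ≤ Real.sqrt (ψ r) := by
        refine le_trans (le_of_eq ?_) (Real.sqrt_le_sqrt hrl)
        rw [Real.sqrt_eq_rpow, ← Real.rpow_mul (by linarith)]
        norm_num
      have h' : (B r : ℝ) * (r:ℝ) ^ (-(101/200) : ℝ) ≤ 2 :=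
        le_trans (mul_le_mul_of_nonneg_left hs (Nat.cast_nonneg _)) hA.B_le
      rw [Real.rpow_neg (by linarith), ← div_eq_mul_inv,
        div_le_iff₀ (Real.rpow_pos_of_pos (by linarith) _)] at h'
      exact h'
    · refine le_of_mul_le_mul_left ?_ (show (0:ℝ) < r by linarith)
      rw [ha] at hq2
      linarith

open scoped Classical in
/-- One dyadic range of `q / g` on the line. -/
theorem range_sum {K : ℝ} (hK : 0 ≤ K) {γ : ℝ} {ψ : ℕ → ℝ} {C : ℕ → ℤ} {B : ℕ → ℕ}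
    {r g J j : ℕ} {E : ℝ} {T : Finset ℕ}
    (hKL : ∀ (γ : ℝ) (C : ℤ) (B : ℕ), 0 < B → IsCoprime C (B:ℤ) →
      ∀ (z : ℤ) (V : ℕ) (D E Q : ℝ), 1 ≤ V → 0 ≤ D → 0 ≤ E → 2 ≤ Q → 2 * (V:ℝ) ≤ Q ^ 2 →
      ((V:ℝ) / B ≤ E ∨ 2 * D ≤ E * |(B:ℝ) * γ - C|) →
      ∀ T : Finset (ℕ × ℤ),
        (∀ p ∈ T, V ≤ p.1 ∧ p.1 < 2 * V ∧ |(p.2:ℝ) - ((p.1:ℝ) - z) * γ| < D) →
        ∑ p ∈ T, hw p.1 ≤
          K * (D * V + hw B * E + Q ^ (1/100 : ℝ) * (D * B + V * |(B:ℝ) * γ - C| + 1)))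
    (hr4 : 4 ≤ r) (hB : 0 < B r) (hcop : IsCoprime (C r) (B r : ℤ))
    (hT : ∀ q ∈ T, g * (q / g) = q ∧ Nat.log 2 (q / g) = j ∧ Facts γ ψ C B q r g J j)
    (hne : T.Nonempty) (hE : 0 ≤ E)
    (hEc : (2:ℝ) ^ j / B r ≤ E ∨
      2 * (2 * ((r / g : ℕ) : ℝ) / ((g:ℝ) * 2 ^ J) / 2 ^ j) ≤ E * |(B r : ℝ) * γ - C r|) :
    ∑ q ∈ T, hw (q / g) ≤ K * (2 * ((r / g : ℕ) : ℝ) / ((g:ℝ) * 2 ^ J) + hw (B r) * E +
      (r:ℝ) ^ (1/100 : ℝ) * (60 * (r:ℝ) ^ (61/100 : ℝ) / g)) := by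
  obtain ⟨q₀, hq₀⟩ := hne
  have F₀ := (hT q₀ hq₀).2.2
  have hrR : (4:ℝ) ≤ r := by exact_mod_cast hr4
  let nq : ℕ → ℤ := fun q => if hq : q ∈ T then (hT q hq).2.2.near.choose else 0
  have hinj : Set.InjOn (fun q => (q / g, nq q)) T := by
    intro p hp q hq hpq
    have e : p / g = q / g := (Prod.ext_iff.mp hpq).1
    rw [← (hT p hp).1, ← (hT q hq).1, e]
  have key := hKL γ (C r) (B r) hB hcop ((r / g : ℕ) : ℤ) (2 ^ j)
    (2 * ((r / g : ℕ) : ℝ) / ((g:ℝ) * 2 ^ J) / 2 ^ j) E r Nat.one_le_two_pow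
    (by positivity) hE (by linarith) (by push_cast; exact F₀.size.2.2)
    (by push_cast; exact hEc) (T.image fun q => (q / g, nq q)) (by
      intro p hp
      obtain ⟨q, hq, rfl⟩ := Finset.mem_image.mp hp
      obtain ⟨-, h2, F⟩ := hT q hq
      refine ⟨?_, ?_, ?_⟩
      · show 2 ^ j ≤ q / g
        exact h2 ▸ Nat.pow_log_le_self 2 F.xpos
      · show q / g < 2 * 2 ^ j
        rw [← h2, ← pow_succ']
        exact Nat.lt_pow_succ_log_self one_lt_two _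
      · simp only [nq, dif_pos hq]
        exact (hT q hq).2.2.near.choose_spec)
  rw [Finset.sum_image hinj] at key
  refine key.trans (mul_le_mul_of_nonneg_left (add_le_add (add_le_add ?_ le_rfl) ?_) hK)
  · push_cast; exact (div_mul_cancel₀ _ (by positivity)).le
  · push_cast
    exact mul_le_mul_of_nonneg_left F₀.bracket (Real.rpow_nonneg (by linarith) _)

/-- The main term of one level. -/
theorem main_bound {p lg la A T n : ℝ} {J : ℕ} (hp : 0 ≤ p) (hlg : 0 ≤ lg) (hla : 0 ≤ la)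
    (hA : 0 ≤ A) (hT : 0 < T) (hAl : (1 + la) * A ≤ 5) (hT4 : T = (2:ℝ) ^ J)
    (hn : n ≤ 1 + 2 * (lg + J + la)) :
    n * (8 * p * (A * T ^ (-(3/4) : ℝ))) ≤ 1000 * (p * (1 + lg) * T ^ (-(1/2) : ℝ)) := by
  subst hT4
  have hJ : (0:ℝ) ≤ J := Nat.cast_nonneg J
  have h34 : (1 + (J:ℝ)) * ((2:ℝ) ^ J) ^ (-(3/4) : ℝ) ≤ 8 * ((2:ℝ) ^ J) ^ (-(1/2) : ℝ) := by
    refine (mul_le_mul_of_nonneg_right (one_add_le_pow J) (Real.rpow_nonneg hT.le _)).trans
      (le_of_eq ?_)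
    rw [mul_assoc, ← Real.rpow_add hT]; norm_num
  have hn2 : n ≤ 2 * (1 + lg) * (1 + J) * (1 + la) := by
    linarith [mul_nonneg hlg hJ, mul_nonneg hlg hla, mul_nonneg hJ hla,
      mul_nonneg (mul_nonneg hlg hJ) hla]
  calc n * (8 * p * (A * ((2:ℝ) ^ J) ^ (-(3/4) : ℝ)))
      ≤ 2 * (1 + lg) * (1 + J) * (1 + la) * (8 * p * (A * ((2:ℝ) ^ J) ^ (-(3/4) : ℝ))) := by
        gcongr
    _ = 16 * p * (1 + lg) * ((1 + la) * A) * ((1 + J) * ((2:ℝ) ^ J) ^ (-(3/4) : ℝ)) := by ring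
    _ ≤ 16 * p * (1 + lg) * 5 * (8 * ((2:ℝ) ^ J) ^ (-(1/2) : ℝ)) := by gcongr
    _ ≤ _ := by
        have : 0 ≤ p * (1 + lg) * ((2:ℝ) ^ J) ^ (-(1/2) : ℝ) := by positivity
        linarith

/-- The error term of one level. -/
theorem err_bound {p g r u A T n : ℝ} (hp : 0 ≤ p) (hr : 4 ≤ r) (hg : 0 < g) (hu : 1 ≤ u)
    (hA0 : 0 ≤ A) (hA : A ≤ 1) (hT0 : 0 ≤ T) (hT : T ≤ r ^ (5/1000 : ℝ))
    (hn : n ≤ 1 + max 0 (2 * Real.log r / Real.log 2)) :
    n * (4 * g * p / r * A * T / u * (r ^ (1/100 : ℝ) * (60 * r ^ (61/100 : ℝ) / g))) ≤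
      70000 * (p * r ^ (-(35/100) : ℝ)) := by
  have hr1 : (1:ℝ) ≤ r := by linarith
  have hr0 : (0:ℝ) < r := by linarith
  have h0 : 0 ≤ r ^ (2/100 : ℝ) := Real.rpow_nonneg hr0.le _
  have hcard : n ≤ 250 * r ^ (2/100 : ℝ) := by
    have h1 := Real.log_le_rpow_div hr0.le (show (0:ℝ) < 2/100 by norm_num)
    have h2 : (0.69:ℝ) ≤ Real.log 2 := by have := Real.log_two_gt_d9; linarith
    have h3 : 1 ≤ r ^ (2/100 : ℝ) := Real.one_le_rpow hr1 (by norm_num)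
    have h4 : max 0 (2 * Real.log r / Real.log 2) ≤ 145 * r ^ (2/100 : ℝ) := by
      refine max_le (by positivity) ?_
      rw [div_le_iff₀ (by linarith)]
      nlinarith [mul_nonneg (sub_nonneg.mpr h2) h0]
    linarith
  calc n * (4 * g * p / r * A * T / u * (r ^ (1/100 : ℝ) * (60 * r ^ (61/100 : ℝ) / g)))
      ≤ 250 * r ^ (2/100 : ℝ) * (4 * g * p / r * 1 * r ^ (5/1000 : ℝ) / 1 *
          (r ^ (1/100 : ℝ) * (60 * r ^ (61/100 : ℝ) / g))) := by gcongr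
    _ = 60000 * p * (r ^ (2/100 : ℝ) * r ^ (5/1000 : ℝ) *
          (r ^ (1/100 : ℝ) * r ^ (61/100 : ℝ)) / r) := by field_simp; ring
    _ = 60000 * p * r ^ (-(355/1000) : ℝ) := by
        rw [← Real.rpow_add hr0, ← Real.rpow_add hr0, ← Real.rpow_add hr0,
          ← Real.rpow_sub_one hr0.ne']
        norm_num
    _ ≤ 70000 * p * r ^ (-(35/100) : ℝ) := by
        refine mul_le_mul (by linarith) (Real.rpow_le_rpow_of_exponent_le hr1 (by norm_num))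
          (Real.rpow_nonneg hr0.le _) (by positivity)
    _ = _ := by ring

/-- The number of dyadic ranges. -/
theorem count_bound {g y t a : ℝ} {J : ℕ} {s : Finset ℕ} (hg : 1 ≤ g) (hy : 0 < y)
    (ha0 : 0 < a) (ha1 : a ≤ 1) (ht : t = (2:ℝ) ^ J)
    (h : ∀ j ∈ s, 2 * y / (g * t) ≤ (2:ℝ) ^ j ∧ (2:ℝ) ^ j * Real.sqrt (t * a) ≤ y) :
    (s.card : ℝ) ≤ 1 + 2 * (Real.log g + J + Real.log (1 / a)) := by
  have hlg : 0 ≤ Real.log g := Real.log_nonneg hg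
  have ht0 : 0 < t := by rw [ht]; positivity
  have hla : 0 ≤ Real.log (1 / a) := Real.log_nonneg ((one_le_div ha0).mpr ha1)
  refine (card_dyadic (M₁ := 2 * y / (g * t)) (M₂ := y / Real.sqrt (t * a)) (by positivity)
    fun j hj => ⟨(h j hj).1, (le_div_iff₀ (by positivity)).mpr (h j hj).2⟩).trans ?_
  gcongr
  refine max_le (by positivity) ?_
  rw [div_le_iff₀ (Real.log_pos one_lt_two)]
  have e1 : y / Real.sqrt (t * a) / (2 * y / (g * t)) = g * t / (2 * Real.sqrt (t * a)) := by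
    field_simp
  rw [e1, Real.log_div (by positivity) (by positivity), Real.log_mul (by positivity)
    (by positivity), Real.log_mul (by norm_num) (by positivity), Real.log_sqrt (by positivity),
    Real.log_mul (by positivity) ha0.ne', one_div, Real.log_inv, ht, Real.log_pow]
  have h2 : (0.69:ℝ) ≤ Real.log 2 := by have := Real.log_two_gt_d9; linarith
  rw [one_div, Real.log_inv] at hla
  have hJ : (0:ℝ) ≤ J := Nat.cast_nonneg J
  nlinarith [mul_nonneg (sub_nonneg.mpr h2) hJ, mul_nonneg (sub_nonneg.mpr h2) hlg,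
    mul_nonneg (sub_nonneg.mpr h2) hla]

/-- The weighted dyadic sums of the bound `E` up to the top. -/
theorem top_sum {g y t a B : ℝ} {s : Finset ℕ} (hg : 0 < g) (hy : 0 ≤ y) (ht : 0 < t)
    (ha : 0 < a) (hB : 0 < B) (h : ∀ j ∈ s, (2:ℝ) ^ j * Real.sqrt (t * a) ≤ y) :
    ∑ j ∈ s, (2:ℝ) ^ j / B ≤
      40 * (2 * y / (g * t)) * (g / B * Real.sqrt t / Real.sqrt a) := by
  have := sum_dyadic_le (α := 1) one_pos (s := s) (M := y / Real.sqrt (t * a))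
    (by positivity) fun j hj => (le_div_iff₀ (by positivity)).mpr (h j hj)
  simp only [Real.rpow_one] at this
  rw [← Finset.sum_div]
  have hsa : 0 < Real.sqrt a := Real.sqrt_pos.mpr ha
  have hst : 0 < Real.sqrt t := Real.sqrt_pos.mpr ht
  have e2 : 40 * (2 * y / (g * t)) * (g / B * Real.sqrt t / Real.sqrt a) =
      40 * (2 * (y / Real.sqrt (t * a))) / B := by
    rw [Real.sqrt_mul ht.le]
    nth_rw 1 [show t = Real.sqrt t * Real.sqrt t from (Real.mul_self_sqrt ht.le).symm]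
    field_simp
  rw [e2]
  refine div_le_div_of_nonneg_right ?_ hB.le
  have : 0 ≤ y / Real.sqrt (t * a) := by positivity
  linarith

open scoped Classical in
/-- The weights of one level. -/
theorem group_sum {K : ℝ} (hK : 0 ≤ K) {γ : ℝ} {ψ : ℕ → ℝ} {C : ℕ → ℤ} {B : ℕ → ℕ} {r g J : ℕ}
    {T s : Finset ℕ} {c R w : ℝ} (hc : c = 2 * ((r / g : ℕ) : ℝ) / ((g:ℝ) * 2 ^ J))
    (hw' : w = min 1 ((g:ℝ) / B r * Real.sqrt (2 ^ J) / Real.sqrt ((r:ℝ) * ψ r)))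
    (hB : 0 < B r) (hg : 0 < g) (hy : 0 < r / g) (ha : 0 < (r:ℝ) * ψ r)
    (hs : s = T.image (fun q => Nat.log 2 (q / g)))
    (hF : ∀ q ∈ T, Facts γ ψ C B q r g J (Nat.log 2 (q / g)))
    (hj : ∀ j ∈ s, ∀ E : ℝ, 0 ≤ E →
      ((2:ℝ) ^ j / B r ≤ E ∨ 2 * (c / 2 ^ j) ≤ E * |(B r : ℝ) * γ - C r|) →
      ∑ q ∈ T.filter (fun q => Nat.log 2 (q / g) = j), hw (q / g) ≤
        K * (c + hw (B r) * E + R)) :
    ∑ q ∈ T, hw (q / g) ≤ K * (s.card * (c + R) + hw (B r) * (40 * c * w)) := by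
  set e := |(B r : ℝ) * γ - C r|
  have he0 : 0 ≤ e := abs_nonneg _
  have hBR : (0:ℝ) < B r := by exact_mod_cast hB
  have hgR : (0:ℝ) < g := by exact_mod_cast hg
  have hyR : (0:ℝ) < ((r / g : ℕ) : ℝ) := by exact_mod_cast hy
  have hc0 : 0 < c := by rw [hc]; positivity
  have hwB := (hw_pos (B r)).le
  have hfs : ∀ j ∈ s, ∃ q ∈ T, Facts γ ψ C B q r g J j := fun j hj => by
    obtain ⟨q, hq, rfl⟩ := Finset.mem_image.mp (hs ▸ hj)
    exact ⟨q, hq, hF q hq⟩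
  have hsum : ∀ E : ℕ → ℝ, (∀ j ∈ s, 0 ≤ E j) →
      (∀ j ∈ s, (2:ℝ) ^ j / B r ≤ E j ∨ 2 * (c / 2 ^ j) ≤ E j * e) →
      ∑ q ∈ T, hw (q / g) ≤ K * (s.card * (c + R) + hw (B r) * ∑ j ∈ s, E j) := by
    intro E h1 h2
    rw [← Finset.sum_fiberwise_of_maps_to (g := fun q => Nat.log 2 (q / g)) (t := s)
      (fun q hq => hs ▸ Finset.mem_image_of_mem _ hq)]
    refine (Finset.sum_le_sum fun j hjs => hj j hjs (E j) (h1 j hjs) (h2 j hjs)).trans
      (le_of_eq ?_)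
    rw [← Finset.mul_sum, Finset.sum_add_distrib, Finset.sum_add_distrib, Finset.sum_const,
      Finset.sum_const, ← Finset.mul_sum, nsmul_eq_mul, nsmul_eq_mul]
    ring
  have hns : ∀ j ∈ s, 1/4 ≤ c / (2:ℝ) ^ j * B r ∨ 1/8 ≤ (2:ℝ) ^ j * e := fun j hjs => by
    obtain ⟨q, -, F⟩ := hfs j hjs
    rw [hc]; exact F.nonspecial
  rcases le_total 1 ((g:ℝ) / B r * Real.sqrt (2 ^ J) / Real.sqrt ((r:ℝ) * ψ r)) with h | h
  · rw [hw', min_eq_left h, mul_one]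
    refine (hsum _ (fun j _ => ?_) (fun j hjs => ?_)).trans (mul_le_mul_of_nonneg_left
      (add_le_add le_rfl (mul_le_mul_of_nonneg_left (extra_sum hc0 hBR he0 hns) hwB)) hK)
    · split_ifs <;> positivity
    · split_ifs with h'
      · exact Or.inl le_rfl
      · have hepos : 0 < e := by
          rcases he0.eq_or_lt with h0 | h0
          · have := (hns j hjs).resolve_left h'
            rw [← h0, mul_zero] at this; norm_num at this
          · exact h0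
        exact Or.inr (div_mul_cancel₀ _ hepos.ne').ge
  · rw [hw', min_eq_right h]
    refine (hsum _ (fun j _ => by positivity) (fun j _ => Or.inl le_rfl)).trans
      (mul_le_mul_of_nonneg_left (add_le_add le_rfl (mul_le_mul_of_nonneg_left ?_ hwB)) hK)
    rw [hc]
    refine top_sum hgR hyR.le (by positivity) ha hBR fun j hjs => ?_
    obtain ⟨q, -, F⟩ := hfs j hjs
    exact F.top

open scoped Classical in
/-- The sum over one value of the common divisor and one level. -/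
theorem level_bound (hline : LineHwStmt) (hlog : HwLogStmt) :
    ∃ K : ℝ, 0 ≤ K ∧ ∀ (γ : ℝ) (ψ : ℕ → ℝ) (C : ℕ → ℤ) (B : ℕ → ℕ) (r g J : ℕ) (T : Finset ℕ),
      4 ≤ r → 0 < ψ r → (r:ℝ) * ψ r ≤ 1 → g * (r / g) = r → 0 < B r →
      IsCoprime (C r) (B r : ℤ) →
      (∀ q ∈ T, g * (q / g) = q ∧ Facts γ ψ C B q r g J (Nat.log 2 (q / g))) →
      ∑ q ∈ T, 2 * (g:ℝ) * ψ r / r / WW ψ q r ≤
        K * (ψ r * (1 + Real.log g) / g / hw (r / g) * ((2:ℝ) ^ J) ^ (-(1/2) : ℝ) +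
          ψ r * (r:ℝ) ^ (-(35/100) : ℝ)) := by
  obtain ⟨KL, hKL0, hKL⟩ := hline (1/100) (by norm_num)
  obtain ⟨KB, hKB0, hKB⟩ := hlog
  refine ⟨KL * (71000 + 960 * KB), by positivity, ?_⟩
  intro γ ψ C B r g J T hr4 hψr ha1 hgy hB hcop hT
  rcases T.eq_empty_or_nonempty with rfl | ⟨q₀, hq₀⟩
  · rw [Finset.sum_empty]
    have := hw_pos (r / g)
    have := Real.log_natCast_nonneg g
    positivity
  have F₀ := (hT q₀ hq₀).2
  have hrR : (4:ℝ) ≤ r := by exact_mod_cast hr4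
  have hgpos : 0 < g := Nat.pos_of_ne_zero fun h => by rw [h, zero_mul] at hgy; omega
  have hg1 : (1:ℝ) ≤ g := by exact_mod_cast hgpos
  have hy : 0 < r / g := Nat.pos_of_ne_zero fun h => by rw [h, mul_zero] at hgy; omega
  have hy0 : (0:ℝ) < ((r / g : ℕ) : ℝ) := by exact_mod_cast hy
  have hgyR : (g:ℝ) * ((r / g : ℕ) : ℝ) = r := by exact_mod_cast hgy
  have ha0 : 0 < (r:ℝ) * ψ r := by positivity
  set t := (2:ℝ) ^ J with ht
  have ht1 : 1 ≤ t := one_le_pow₀ (by norm_num)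
  have ht0 : 0 < t := by linarith
  set s := T.image (fun q => Nat.log 2 (q / g)) with hs
  have hfs : ∀ j ∈ s, ∃ q ∈ T, Facts γ ψ C B q r g J j := fun j hj => by
    obtain ⟨q, hq, rfl⟩ := Finset.mem_image.mp hj
    exact ⟨q, hq, (hT q hq).2⟩
  have hH := group_sum (T := T) (s := s) (R := (r:ℝ) ^ (1/100 : ℝ) * (60 * (r:ℝ) ^ (61/100 : ℝ) / g))
    hKL0 rfl rfl hB hgpos hy ha0 hs (fun q hq => (hT q hq).2) (fun j hj E hE hEc => by
      obtain ⟨q, hq, F⟩ := hfs j hj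
      refine range_sum (ψ := ψ) hKL0 hKL hr4 hB hcop (fun p hp => ?_) ?_ hE hEc
      · obtain ⟨h1, h2⟩ := Finset.mem_filter.mp hp
        exact ⟨(hT p h1).1, h2, h2 ▸ (hT p h1).2⟩
      · rw [hs] at hj
        obtain ⟨p, hp, hpj⟩ := Finset.mem_image.mp hj
        exact ⟨p, Finset.mem_filter.mpr ⟨hp, hpj⟩⟩)
  rw [← ht] at hH
  have hu := one_le_hw (r / g)
  set u := hw (r / g) with hu'
  have hu0 : 0 < u := by linarith
  refine (Finset.sum_le_sum fun q hq => (hT q hq).2.term).trans ?_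
  rw [← Finset.mul_sum, ← ht, ← hu']
  set U := 4 * (g:ℝ) * ψ r / r * ((r:ℝ) * ψ r) ^ (1/4 : ℝ) * t ^ (1/4 : ℝ) / u with hU
  refine (mul_le_mul_of_nonneg_left hH (by positivity)).trans ?_
  set n : ℝ := (s.card : ℝ)
  set c := 2 * ((r / g : ℕ) : ℝ) / ((g:ℝ) * t) with hc
  set w := min 1 ((g:ℝ) / B r * Real.sqrt t / Real.sqrt ((r:ℝ) * ψ r)) with hw'
  set R := (r:ℝ) ^ (1/100 : ℝ) * (60 * (r:ℝ) ^ (61/100 : ℝ) / g) with hR
  set p := ψ r / g / u with hp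
  have hlg : 0 ≤ Real.log (g:ℝ) := Real.log_natCast_nonneg g
  have hp0 : 0 ≤ p := by positivity
  have eUc : U * c = 8 * p * (((r:ℝ) * ψ r) ^ (1/4 : ℝ) * t ^ (-(3/4) : ℝ)) := by
    rw [hU, hc, hp, show (-(3/4) : ℝ) = 1/4 - 1 by norm_num, Real.rpow_sub_one ht0.ne',
      ← hgyR]
    field_simp
    ring
  have b1 : n * (U * c) ≤ 1000 * (p * (1 + Real.log g) * t ^ (-(1/2) : ℝ)) := by
    rw [eUc]
    refine main_bound hp0 hlg (Real.log_nonneg ((one_le_div ha0).mpr ha1))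
      (Real.rpow_nonneg ha0.le _) ht0 (log_root ha0 ha1) ht
      (count_bound hg1 hy0 ha0 ha1 ht fun j hj => ?_)
    obtain ⟨q, -, F⟩ := hfs j hj
    exact ⟨F.low, F.top⟩
  have b2 : hw (B r) * (U * c * (40 * w)) ≤
      960 * KB * (p * (1 + Real.log g) * t ^ (-(1/2) : ℝ)) := by
    rw [eUc]
    have hbal := min_balance ha0 ha1 ht1 (u := (g:ℝ) / B r) (by positivity)
    rw [← hw'] at hbal
    have hwm := hw_min hKB0 hKB hgpos hB
    have hwB := (hw_pos (B r)).le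
    calc hw (B r) * (8 * p * (((r:ℝ) * ψ r) ^ (1/4 : ℝ) * t ^ (-(3/4) : ℝ)) * (40 * w))
        = 320 * p * (hw (B r) * (((r:ℝ) * ψ r) ^ (1/4 : ℝ) * t ^ (-(3/4) : ℝ) * w)) := by ring
      _ ≤ 320 * p * (hw (B r) * (t ^ (-(1/2) : ℝ) * min 1 (Real.sqrt ((g:ℝ) / B r)))) := by
          gcongr
      _ = 320 * p * t ^ (-(1/2) : ℝ) * (hw (B r) * min 1 (Real.sqrt ((g:ℝ) / B r))) := by ring
      _ ≤ 320 * p * t ^ (-(1/2) : ℝ) * (KB * (3 + Real.log g)) := by gcongr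
      _ ≤ 320 * p * t ^ (-(1/2) : ℝ) * (KB * (3 * (1 + Real.log g))) := by gcongr; linarith
      _ = _ := by ring
  have b3 : n * (U * R) ≤ 70000 * (ψ r * (r:ℝ) ^ (-(35/100) : ℝ)) := by
    refine err_bound hψr.le hrR (by linarith) hu (Real.rpow_nonneg ha0.le _)
      (Real.rpow_le_one ha0.le ha1 (by norm_num)) (Real.rpow_nonneg ht0.le _) ?_ ?_
    · refine (Real.rpow_le_rpow ht0.le F₀.size.1 (by norm_num)).trans (le_of_eq ?_)
      rw [← Real.rpow_mul (by linarith)]; norm_num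
    · refine (card_dyadic (M₁ := 1) (M₂ := (r:ℝ) ^ 2) one_pos fun j hj => ?_).trans (le_of_eq ?_)
      · obtain ⟨q, -, F⟩ := hfs j hj
        exact ⟨one_le_pow₀ (by norm_num), F.size.2.1⟩
      · rw [div_one, Real.log_pow]; norm_num
  calc U * (KL * (n * (c + R) + hw (B r) * (40 * c * w)))
      = KL * (n * (U * c) + hw (B r) * (U * c * (40 * w)) + n * (U * R)) := by ring
    _ ≤ KL * (1000 * (p * (1 + Real.log g) * t ^ (-(1/2) : ℝ)) +
          960 * KB * (p * (1 + Real.log g) * t ^ (-(1/2) : ℝ)) +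
          70000 * (ψ r * (r:ℝ) ^ (-(35/100) : ℝ))) :=
        mul_le_mul_of_nonneg_left (add_le_add (add_le_add b1 b2) b3) hKL0
    _ ≤ _ := by
        have e : ψ r * (1 + Real.log g) / g / u * t ^ (-(1/2) : ℝ) =
            p * (1 + Real.log g) * t ^ (-(1/2) : ℝ) := by rw [hp]; ring
        rw [e]
        set P := p * (1 + Real.log g) * t ^ (-(1/2) : ℝ)
        set E := ψ r * (r:ℝ) ^ (-(35/100) : ℝ)
        have hP : 0 ≤ P := by positivity
        have hE : 0 ≤ E := by positivity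
        linarith [mul_nonneg hKL0 hP, mul_nonneg hKL0 hE, mul_nonneg (mul_nonneg hKL0 hKB0) hE]

open scoped Classical in
theorem sideR (hline : LineHwStmt) (hdiv : HwDivStmt) (hlog : HwLogStmt) (hmul : HwMulStmt)
    (htau : TauStmt) (htot : TotTauStmt) : SideRStmt := by
  obtain ⟨K, hK0, hK⟩ := level_bound hline hlog
  obtain ⟨KD, hKD0, hKD⟩ := hdiv
  obtain ⟨KT, hKT0, hKT⟩ := htau (1/100) (by norm_num)
  refine ⟨4 * K * KD + 250 * K * (KT * KT), 4, ?_⟩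
  intro γ ψ C B S hS r hr
  obtain ⟨hrA, hrC⟩ := hS r hr
  obtain ⟨hr0, hr4, hrl, hru⟩ := id hrA
  have hrR : (4:ℝ) ≤ r := by exact_mod_cast hr4
  have hr1 : (1:ℝ) ≤ r := by linarith
  have hrpos : (0:ℝ) < r := by linarith
  have hψr : 0 < ψ r := lt_of_lt_of_le (Real.rpow_pos_of_pos hrpos _) hrl
  have ha1 : (r:ℝ) * ψ r ≤ 1 := by
    have := (le_div_iff₀ hrpos).mp hru
    linarith [mul_comm (r:ℝ) (ψ r)]
  set T := S.filter (fun q => PB γ ψ C B q r ∧ ¬ Special γ ψ C B q r) with hT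
  have hF : ∀ q ∈ T, Facts γ ψ C B q r (Nat.gcd q r) (lev ((q:ℝ) * ψ q))
      (Nat.log 2 (q / Nat.gcd q r)) := fun q hq => by
    obtain ⟨h1, h2, h3⟩ := Finset.mem_filter.mp hq
    exact facts (hS q h1).1 hrA hrC h2 h3
  set Js := T.image (fun q : ℕ => lev ((q:ℝ) * ψ q)) with hJs
  have hJ2 : ∀ J ∈ Js, (2:ℝ) ^ J ≤ (r:ℝ) ^ (2/100 : ℝ) := fun J hJ => by
    obtain ⟨q, hq, rfl⟩ := Finset.mem_image.mp hJ
    exact (hF q hq).size.1
  have hG : ∀ g ∈ r.divisors, ∑ q ∈ T.filter (fun q => Nat.gcd q r = g),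
      2 * (Nat.gcd q r : ℝ) * ψ r / r / WW ψ q r ≤
      K * (ψ r * (1 + Real.log g) / g / hw (r / g) * 4 +
        Js.card * (ψ r * (r:ℝ) ^ (-(35/100) : ℝ))) := by
    intro g hg
    have hgy : g * (r / g) = r := Nat.mul_div_cancel' (Nat.mem_divisors.mp hg).1
    rw [← Finset.sum_fiberwise_of_maps_to (g := fun q : ℕ => lev ((q:ℝ) * ψ q)) (t := Js)
      (fun q hq => Finset.mem_image_of_mem _ (Finset.mem_filter.mp hq).1)]
    refine (Finset.sum_le_sum (g := fun J => K * (ψ r * (1 + Real.log g) / g / hw (r / g) *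
      ((2:ℝ) ^ J) ^ (-(1/2) : ℝ) + ψ r * (r:ℝ) ^ (-(35/100) : ℝ))) fun J _ => ?_).trans ?_
    · refine le_of_eq_of_le (Finset.sum_congr rfl fun q hq => ?_)
        (hK γ ψ C B r g J _ hr4 hψr ha1 hgy hrC.B_pos hrC.cop fun q hq => ?_)
      · obtain ⟨h1, -⟩ := Finset.mem_filter.mp hq
        rw [(Finset.mem_filter.mp h1).2]
      · obtain ⟨h1, h2⟩ := Finset.mem_filter.mp hq
        obtain ⟨h3, h4⟩ := Finset.mem_filter.mp h1
        refine ⟨?_, ?_⟩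
        · rw [← h4]; exact Nat.mul_div_cancel' (Nat.gcd_dvd_left q r)
        · rw [← h4, ← h2]; exact hF q h3
    · rw [← Finset.mul_sum, Finset.sum_add_distrib, Finset.sum_const, nsmul_eq_mul,
        ← Finset.mul_sum]
      have hlg : 0 ≤ Real.log (g:ℝ) := Real.log_natCast_nonneg g
      have := one_le_hw (r / g)
      gcongr
      have h2 := sum_dyadic_ge (α := 1/2) (by norm_num) (s := Js) one_pos
        fun j _ => one_le_pow₀ (by norm_num)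
      rw [Real.one_rpow, mul_one] at h2
      refine h2.trans ?_
      have h14 : (1.4:ℝ) ≤ (2:ℝ) ^ (1/2 : ℝ) := by
        rw [← Real.sqrt_eq_rpow]; exact Real.le_sqrt_of_sq_le (by norm_num)
      rw [div_le_iff₀ (by linarith)]
      linarith
  rw [← Finset.sum_fiberwise_of_maps_to (g := fun q => Nat.gcd q r) (t := r.divisors)
    (fun q _ => Nat.mem_divisors.mpr ⟨Nat.gcd_dvd_right q r, by omega⟩)]
  refine (Finset.sum_le_sum hG).trans ?_
  rw [← Finset.mul_sum, Finset.sum_add_distrib, Finset.sum_const, nsmul_eq_mul, ← Finset.sum_mul]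
  have hw0 : 0 < hw r := Real.exp_pos _
  have hlam : lam ψ r = (Nat.totient r : ℝ) / r * ψ r := by rw [lam]; ring
  have m1 : ∑ g ∈ r.divisors, ψ r * (1 + Real.log g) / g / hw (r / g) ≤ KD * lam ψ r := by
    have h1 : ∀ g ∈ r.divisors, ψ r * (1 + Real.log g) / g / hw (r / g) ≤
        ψ r / hw r * ((1 + Real.log g) * hw g / g) := fun g hg => by
      have hgd := (Nat.mem_divisors.mp hg).1
      have hg0 : 0 < g := Nat.pos_of_mem_divisors hg
      have hy0 : 0 < r / g := Nat.div_pos (Nat.le_of_dvd (by omega) hgd) hg0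
      have hm := hmul g (r / g) hg0 hy0
      rw [Nat.mul_div_cancel' hgd] at hm
      have hlg : 0 ≤ Real.log (g:ℝ) := Real.log_natCast_nonneg g
      have hy : 0 < hw (r / g) := Real.exp_pos _
      calc ψ r * (1 + Real.log g) / g / hw (r / g)
          = ψ r * (1 + Real.log g) / g / hw r * (hw r / hw (r / g)) := by field_simp
        _ ≤ ψ r * (1 + Real.log g) / g / hw r * hw g := by
            refine mul_le_mul_of_nonneg_left ((div_le_iff₀ hy).mpr hm) (by positivity)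
        _ = _ := by ring
    refine (Finset.sum_le_sum h1).trans ?_
    rw [← Finset.mul_sum]
    refine (mul_le_mul_of_nonneg_left (hKD r (by omega)) (by positivity)).trans (le_of_eq ?_)
    rw [hlam]; field_simp
  have m2 : (r.divisors.card : ℝ) * ((Js.card : ℝ) * (ψ r * (r:ℝ) ^ (-(35/100) : ℝ))) ≤
      250 * (KT * KT) * lam ψ r := by
    have hd := hKT r (by omega)
    have hphi : (1:ℝ) ≤ (Nat.totient r : ℝ) / r * (KT * (r:ℝ) ^ (1/100 : ℝ)) := by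
      rw [div_mul_eq_mul_div, le_div_iff₀ hrpos, one_mul]
      exact le_trans (by exact_mod_cast htot r (by omega))
        (mul_le_mul_of_nonneg_left hd (Nat.cast_nonneg _))
    have hJc : (Js.card : ℝ) ≤ 250 * (r:ℝ) ^ (2/100 : ℝ) := by
      refine (card_dyadic (M₁ := 1) (M₂ := (r:ℝ) ^ (2/100 : ℝ)) one_pos fun J hJ =>
        ⟨one_le_pow₀ (by norm_num), hJ2 J hJ⟩).trans ?_
      rw [div_one, Real.log_rpow hrpos]
      have h1 := Real.log_le_rpow_div hrpos.le (show (0:ℝ) < 2/100 by norm_num)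
      have h2 : (0.69:ℝ) ≤ Real.log 2 := by have := Real.log_two_gt_d9; linarith
      have h3 : 1 ≤ (r:ℝ) ^ (2/100 : ℝ) := Real.one_le_rpow hr1 (by norm_num)
      have h4 : max 0 ((2/100 : ℝ) * Real.log r / Real.log 2) ≤ 145 * (r:ℝ) ^ (2/100 : ℝ) := by
        refine max_le (by positivity) ?_
        rw [div_le_iff₀ (by linarith)]
        nlinarith [mul_nonneg (sub_nonneg.mpr h2) (by linarith : (0:ℝ) ≤ (r:ℝ) ^ (2/100 : ℝ)),
          Real.log_nonneg hr1]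
      linarith
    calc (r.divisors.card : ℝ) * ((Js.card : ℝ) * (ψ r * (r:ℝ) ^ (-(35/100) : ℝ)))
        ≤ KT * (r:ℝ) ^ (1/100 : ℝ) *
            (250 * (r:ℝ) ^ (2/100 : ℝ) * (ψ r * (r:ℝ) ^ (-(35/100) : ℝ))) * 1 := by
          rw [mul_one]; gcongr
      _ ≤ KT * (r:ℝ) ^ (1/100 : ℝ) *
            (250 * (r:ℝ) ^ (2/100 : ℝ) * (ψ r * (r:ℝ) ^ (-(35/100) : ℝ))) *
            ((Nat.totient r : ℝ) / r * (KT * (r:ℝ) ^ (1/100 : ℝ))) :=
          mul_le_mul_of_nonneg_left hphi (by positivity)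
      _ = 250 * (KT * KT) * lam ψ r * ((r:ℝ) ^ (1/100 : ℝ) * (r:ℝ) ^ (2/100 : ℝ) *
            (r:ℝ) ^ (-(35/100) : ℝ) * (r:ℝ) ^ (1/100 : ℝ)) := by rw [hlam]; ring
      _ ≤ 250 * (KT * KT) * lam ψ r := by
          refine mul_le_of_le_one_right (by rw [hlam]; positivity) ?_
          rw [← Real.rpow_add hrpos, ← Real.rpow_add hrpos, ← Real.rpow_add hrpos]
          exact Real.rpow_le_one_of_one_le_of_nonpos hr1 (by norm_num)
  nlinarith [mul_le_mul_of_nonneg_left m1 hK0, mul_le_mul_of_nonneg_left m2 hK0]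

end SideR

theorem sideR (hline : LineHwStmt) (hdiv : HwDivStmt) (hlog : HwLogStmt) (hmul : HwMulStmt)
    (htau : TauStmt) (htot : TotTauStmt) : SideRStmt :=
  SideR.sideR hline hdiv hlog hmul htau htot

end Vale.P028EV
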