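import Vale.Agent.P028.EV.Defs
import Vale.Agent.P028.EV.Dyadic

/-! # P028: the special pairs contribute an absolute constant -/

open scoped BigOperators

namespace Vale.P028EV

/-- coprime approximations `C/B` of one number with `|γ - C/B| < 1/B²`: `∑ B^(-1/2)` is bounded -/
theorem sum_approx_le (γ : ℝ) (P : Finset (ℤ × ℕ))
    (h : ∀ c ∈ P, 0 < c.2 ∧ IsCoprime c.1 (c.2:ℤ) ∧ |(c.2:ℝ) * γ - c.1| * c.2 < 1) :
    ∑ c ∈ P, ((c.2:ℝ)) ^ (-(1/2 : ℝ)) ≤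
      8 * ((2:ℝ) ^ (1/2 : ℝ) / ((2:ℝ) ^ (1/2 : ℝ) - 1)) := by
  classical
  let key : ℤ × ℕ → ℕ × ℤ := fun c =>
    (Nat.log 2 c.2, ⌊((c.1:ℝ) / c.2 - γ) * (4 * ((2:ℝ) ^ Nat.log 2 c.2) ^ 2)⌋)
  have hpow : ∀ c ∈ P, (2:ℝ) ^ Nat.log 2 c.2 ≤ (c.2:ℝ) ∧
      (c.2:ℝ) < 2 * (2:ℝ) ^ Nat.log 2 c.2 := fun c hc => by
    have h1 := Nat.pow_log_le_self 2 (h c hc).1.ne'
    have h2 := Nat.lt_pow_succ_log_self Nat.one_lt_two c.2
    rw [pow_succ'] at h2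
    exact ⟨by exact_mod_cast h1, by exact_mod_cast h2⟩
  have hmem : ∀ c ∈ P, key c ∈ P.image (fun c => Nat.log 2 c.2) ×ˢ Finset.Ico (-4:ℤ) 4 := by
    intro c hc
    refine Finset.mem_product.mpr ⟨Finset.mem_image_of_mem _ hc, ?_⟩
    obtain ⟨hB, -, happ⟩ := h c hc
    have hB' : (0:ℝ) < c.2 := by exact_mod_cast hB
    obtain ⟨hp1, -⟩ := hpow c hc
    set N : ℝ := (2:ℝ) ^ Nat.log 2 c.2
    have hN : 0 < N := by positivity
    have e : (c.1:ℝ) / c.2 - γ = -(((c.2:ℝ) * γ - c.1) / c.2) := by field_simp; ring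
    have hb : |((c.1:ℝ) / c.2 - γ) * (4 * N ^ 2)| < 4 := by
      rw [e, abs_mul, abs_neg, abs_div, abs_of_pos hB', abs_of_pos (by positivity : 0 < 4 * N ^ 2),
        div_mul_eq_mul_div, div_lt_iff₀ hB']
      have h2 : N ^ 2 ≤ (c.2:ℝ) * c.2 := by rw [pow_two]; gcongr
      nlinarith [abs_nonneg ((c.2:ℝ) * γ - c.1),
        mul_le_mul_of_nonneg_left h2 (abs_nonneg ((c.2:ℝ) * γ - c.1))]
    rw [abs_lt] at hb
    exact Finset.mem_Ico.mpr ⟨Int.le_floor.mpr (by push_cast; linarith [hb.1]),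
      Int.floor_lt.mpr (by push_cast; linarith [hb.2])⟩
  have hinj : Set.InjOn key P := by
    intro c hc c' hc' he
    obtain ⟨hB, hco, -⟩ := h c hc
    obtain ⟨hB', hco', -⟩ := h c' hc'
    obtain ⟨-, hu⟩ := hpow c hc
    obtain ⟨-, hu'⟩ := hpow c' hc'
    simp only [key, Prod.mk.injEq] at he
    obtain ⟨he1, he2⟩ := he
    rw [← he1] at hu' he2
    set N : ℝ := (2:ℝ) ^ Nat.log 2 c.2
    have hb : (0:ℝ) < c.2 := by exact_mod_cast hB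
    have hb' : (0:ℝ) < c'.2 := by exact_mod_cast hB'
    have hd := Int.abs_sub_lt_one_of_floor_eq_floor he2
    have e : ((c.1:ℝ) / c.2 - γ) * (4 * N ^ 2) - ((c'.1:ℝ) / c'.2 - γ) * (4 * N ^ 2) =
        ((c.1 * c'.2 - c'.1 * c.2 : ℤ) : ℝ) * (4 * N ^ 2) / ((c.2:ℝ) * c'.2) := by
      push_cast; field_simp; ring
    rw [e, abs_div, abs_mul, abs_of_pos (by positivity : 0 < (c.2:ℝ) * c'.2),
      abs_of_nonneg (by positivity : (0:ℝ) ≤ 4 * N ^ 2), div_lt_iff₀ (by positivity), one_mul] at hd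
    have hz : c.1 * c'.2 - c'.1 * c.2 = 0 := by
      by_contra hne
      have h1 : (1:ℝ) ≤ |((c.1 * c'.2 - c'.1 * c.2 : ℤ) : ℝ)| := by
        exact_mod_cast Int.one_le_abs hne
      nlinarith [mul_lt_mul'' hu hu' hb.le hb'.le]
    have d1 : (c.2:ℤ) ∣ (c'.2:ℤ) :=
      hco.symm.dvd_of_dvd_mul_left ⟨c'.1, by linarith⟩
    have d2 : (c'.2:ℤ) ∣ (c.2:ℤ) :=
      hco'.symm.dvd_of_dvd_mul_left ⟨c.1, by linarith⟩
    have hBB : c.2 = c'.2 :=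
      Nat.dvd_antisymm (Int.natCast_dvd_natCast.mp d1) (Int.natCast_dvd_natCast.mp d2)
    refine Prod.ext ?_ hBB
    rw [hBB] at hz
    have : (c.1 - c'.1) * (c'.2:ℤ) = 0 := by rw [sub_mul]; exact hz
    rcases mul_eq_zero.mp this with h0 | h0
    · omega
    · omega
  have hk : (∑ c ∈ P, ((c.2:ℝ)) ^ (-(1/2 : ℝ))) ≤
      ∑ p ∈ P.image key, ((2:ℝ) ^ p.1) ^ (-(1/2 : ℝ)) := by
    rw [Finset.sum_image hinj]
    exact Finset.sum_le_sum fun c hc =>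
      Real.rpow_le_rpow_of_nonpos (by positivity) (hpow c hc).1 (by norm_num)
  refine hk.trans ((Finset.sum_le_sum_of_subset_of_nonneg (Finset.image_subset_iff.mpr hmem)
    fun p _ _ => by positivity).trans ?_)
  rw [Finset.sum_product]
  simp only [Finset.sum_const, Int.card_Ico, nsmul_eq_mul]
  rw [← Finset.mul_sum]
  have := sum_dyadic_ge (α := 1/2) (by norm_num) one_pos
    (s := P.image (fun c => Nat.log 2 c.2)) (fun j _ => one_le_pow₀ (by norm_num))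
  rw [Real.one_rpow, mul_one] at this
  rw [show (((4:ℤ) - -4).toNat) = 8 from rfl]
  push_cast
  exact mul_le_mul_of_nonneg_left this (by norm_num)

/-- the three terms of one cell -/
theorem cell_alg {g B X Y e Dp E : ℝ} (hg : 1 ≤ g) (hB : 1 ≤ B) (hX : 1 ≤ X) (hY : 1 ≤ Y)
    (he : 0 < e) (hXe : X * e ≤ 1) (hYe : 1/4 ≤ Y * e) (hge : g * e ≤ 2) (heB : e * B ≤ 1)
    (hD0 : 0 ≤ Dp) (hD : Dp ^ 2 ≤ Y / (g * X * B))
    (hE0 : 0 ≤ E) (hE : E ^ 4 ≤ (X / B) ^ 3 * (8 * Y / (g * X * e))) :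
    (Dp * X + E + 2) / (g * Y) ≤
      42 * g ^ (-(5/4) : ℝ) * (X ^ (1/4 : ℝ) * e ^ (1/4 : ℝ)) *
        (Y ^ (-(1/4) : ℝ) * e ^ (-(1/4) : ℝ)) * B ^ (-(1/2) : ℝ) := by
  have r4 : ∀ t : ℝ, 0 ≤ t → (t ^ (1/4 : ℝ)) ^ 4 = t := fun t ht => by
    rw [← Real.rpow_natCast, ← Real.rpow_mul ht]; norm_num
  set G : ℝ := g ^ (1/4 : ℝ) with hGdef
  set Q : ℝ := B ^ (1/4 : ℝ) with hQdef
  set P : ℝ := e ^ (1/4 : ℝ) with hPdef
  set U : ℝ := (X * e) ^ (1/4 : ℝ) with hUdef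
  set W : ℝ := (Y * e) ^ (1/4 : ℝ) with hWdef
  have hG0 : 0 < G := Real.rpow_pos_of_pos (by linarith) _
  have hQ0 : 0 < Q := Real.rpow_pos_of_pos (by linarith) _
  have hP0 : 0 < P := Real.rpow_pos_of_pos he _
  have hU0 : 0 < U := Real.rpow_pos_of_pos (by positivity) _
  have hW0 : 0 < W := Real.rpow_pos_of_pos (by positivity) _
  have eG : G ^ 4 = g := r4 g (by linarith)
  have eQ : Q ^ 4 = B := r4 B (by linarith)
  have eP : P ^ 4 = e := r4 e he.le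
  have eX : X = U ^ 4 / P ^ 4 := by
    rw [r4 _ (by positivity), eP, mul_div_assoc, div_self he.ne', mul_one]
  have eY : Y = W ^ 4 / P ^ 4 := by
    rw [r4 _ (by positivity), eP, mul_div_assoc, div_self he.ne', mul_one]
  have hG1 : 1 ≤ G := Real.one_le_rpow hg (by norm_num)
  have hQ1 : 1 ≤ Q := Real.one_le_rpow hB (by norm_num)
  have hU1 : U ≤ 1 := Real.rpow_le_one (by positivity) hXe (by norm_num)
  have hPU : P ≤ U := Real.rpow_le_rpow he.le (le_mul_of_one_le_left he.le hX) (by norm_num)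
  have hW2 : 1/2 ≤ W := (pow_le_pow_iff_left₀ (by norm_num) hW0.le (by norm_num)).mp
    (by rw [r4 _ (by positivity)]; linarith : (1/2:ℝ) ^ 4 ≤ W ^ 4)
  have hGP : G * P ≤ 2 := (pow_le_pow_iff_left₀ (by positivity) (by norm_num) (by norm_num)).mp
    (by rw [mul_pow, eG, eP]; linarith : (G * P) ^ 4 ≤ 2 ^ 4)
  have hQP : P * Q ≤ 1 := (pow_le_pow_iff_left₀ (by positivity) (by norm_num) (by norm_num)).mp
    (by rw [mul_pow, eQ, eP]; linarith : (P * Q) ^ 4 ≤ 1 ^ 4)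
  have hD' : Dp ≤ W ^ 2 / (G ^ 2 * U ^ 2 * Q ^ 2) := by
    refine (pow_le_pow_iff_left₀ hD0 (by positivity) two_ne_zero).mp (hD.trans_eq ?_)
    rw [eX, eY, ← eG, ← eQ]; field_simp
  have hE' : E ≤ 2 * (U ^ 2 * W / (P ^ 4 * Q ^ 3 * G)) := by
    refine (pow_le_pow_iff_left₀ hE0 (by positivity) (by norm_num : 4 ≠ 0)).mp (hE.trans ?_)
    have : (X / B) ^ 3 * (8 * Y / (g * X * e)) = 8 * (U ^ 2 * W / (P ^ 4 * Q ^ 3 * G)) ^ 4 := by
      rw [eX, eY, ← eG, ← eQ, ← eP]; field_simp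
    rw [this, mul_pow]
    exact mul_le_mul_of_nonneg_right (by norm_num) (by positivity)
  have e1 : g ^ (-(5/4) : ℝ) = 1 / G ^ 5 := by
    rw [hGdef, ← Real.rpow_natCast (g ^ (1/4 : ℝ)) 5, ← Real.rpow_mul (by linarith : (0:ℝ) ≤ g),
      Real.rpow_neg (by linarith : (0:ℝ) ≤ g), ← one_div]
    norm_num
  have e2 : B ^ (-(1/2) : ℝ) = 1 / Q ^ 2 := by
    rw [hQdef, ← Real.rpow_natCast (B ^ (1/4 : ℝ)) 2, ← Real.rpow_mul (by linarith : (0:ℝ) ≤ B),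
      Real.rpow_neg (by linarith : (0:ℝ) ≤ B), ← one_div]
    norm_num
  have e3 : X ^ (1/4 : ℝ) * e ^ (1/4 : ℝ) = U := by
    rw [hUdef, Real.mul_rpow (by linarith) he.le]
  have e4 : Y ^ (-(1/4) : ℝ) * e ^ (-(1/4) : ℝ) = 1 / W := by
    rw [hWdef, one_div W, ← Real.mul_rpow (by linarith) he.le,
      ← Real.rpow_neg (by positivity)]
  rw [e1, e2, e3, e4]
  have t1 : Dp * X / (g * Y) ≤ 2 * (U / (G ^ 5 * Q ^ 2 * W)) := by
    calc Dp * X / (g * Y) ≤ W ^ 2 / (G ^ 2 * U ^ 2 * Q ^ 2) * X / (g * Y) := by gcongr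
      _ = U / (G ^ 5 * Q ^ 2 * W) * (U / (G * W)) := by rw [eX, eY, ← eG]; field_simp
      _ ≤ U / (G ^ 5 * Q ^ 2 * W) * 2 := by
          refine mul_le_mul_of_nonneg_left ?_ (by positivity)
          rw [div_le_iff₀ (by positivity)]
          linarith [mul_le_mul hG1 hW2 (by norm_num) hG0.le]
      _ = _ := by ring
  have t2 : E / (g * Y) ≤ 8 * (U / (G ^ 5 * Q ^ 2 * W)) := by
    calc E / (g * Y) ≤ 2 * (U ^ 2 * W / (P ^ 4 * Q ^ 3 * G)) / (g * Y) := by gcongr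
      _ = U / (G ^ 5 * Q ^ 2 * W) * (2 * U / (Q * W ^ 2)) := by rw [eY, ← eG]; field_simp
      _ ≤ U / (G ^ 5 * Q ^ 2 * W) * 8 := by
          refine mul_le_mul_of_nonneg_left ?_ (by positivity)
          rw [div_le_iff₀ (by positivity)]
          linarith [mul_le_mul hQ1 (pow_le_pow_left₀ (by norm_num) hW2 2) (by norm_num) hQ0.le]
      _ = _ := by ring
  have t3 : 2 / (g * Y) ≤ 32 * (U / (G ^ 5 * Q ^ 2 * W)) := by
    calc 2 / (g * Y) = U / (G ^ 5 * Q ^ 2 * W) * (2 * ((P * Q) ^ 2 * (G * P) * P) / (U * W ^ 3)) := by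
          rw [eY, ← eG]; field_simp
      _ ≤ U / (G ^ 5 * Q ^ 2 * W) * 32 := by
          refine mul_le_mul_of_nonneg_left ?_ (by positivity)
          rw [div_le_iff₀ (by positivity)]
          have a1 : (P * Q) ^ 2 * (G * P) * P ≤ 1 * 2 * U := by
            gcongr
            exact pow_le_one₀ (by positivity) hQP
          have a2 : (1/2:ℝ) ^ 3 ≤ W ^ 3 := pow_le_pow_left₀ (by norm_num) hW2 3
          linarith [mul_le_mul_of_nonneg_left a2 hU0.le]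
      _ = _ := by ring
  rw [add_div, add_div]
  calc _ ≤ 2 * (U / (G ^ 5 * Q ^ 2 * W)) + 8 * (U / (G ^ 5 * Q ^ 2 * W))
        + 32 * (U / (G ^ 5 * Q ^ 2 * W)) := by gcongr
    _ = _ := by field_simp; ring

/-- what is known about one special pair -/
theorem special_facts {γ : ℝ} {ψ : ℕ → ℝ} {C : ℕ → ℤ} {B : ℕ → ℕ} {Q0 q r : ℕ}
    (hq : Adm Q0 ψ q) (hr : Adm Q0 ψ r) (ha : Approx γ ψ C B r)
    (hP : PB γ ψ C B q r) (hS : Special γ ψ C B q r) :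
    1/2 ≤ (yy q r : ℝ) * |(B r : ℝ) * γ - C r| ∧
    (Nat.gcd q r : ℝ) * |(B r : ℝ) * γ - C r| ≤ 2 ∧
    2 * DD ψ q r ≤ 2 * (yy q r : ℝ) / ((Nat.gcd q r : ℝ) * xx q r) ∧
    2 * DD ψ q r ≤ 1 / (4 * (B r : ℝ)) ∧
    2 * (Nat.gcd q r : ℝ) * ψ r / r ≤ 2 / ((Nat.gcd q r : ℝ) * (yy q r : ℝ) ^ 2) := by
  obtain ⟨-, -, -, hx, hy, n, hn, -, hne⟩ := hP
  obtain ⟨hDB, hxe⟩ := hS
  set g := Nat.gcd q r with hg
  have hg0 : 0 < g := Nat.gcd_pos_of_pos_left _ hq.1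
  have eq' : q = g * xx q r := (Nat.mul_div_cancel' (Nat.gcd_dvd_left q r)).symm
  have er' : r = g * yy q r := (Nat.mul_div_cancel' (Nat.gcd_dvd_right q r)).symm
  set x := xx q r
  set y := yy q r
  set ε := (B r : ℝ) * γ - C r with hε
  have hB : (0:ℝ) < B r := by exact_mod_cast ha.B_pos
  have hg' : (0:ℝ) < g := by exact_mod_cast hg0
  have hx' : (0:ℝ) < x := by exact_mod_cast (show 0 < x by omega)
  have hy' : (0:ℝ) < y := by exact_mod_cast (show 0 < y by omega)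
  have eqR : (q:ℝ) = (g:ℝ) * x := by rw [eq']; push_cast; ring
  have erR : (r:ℝ) = (g:ℝ) * y := by rw [er']; push_cast; ring
  have hye : 1/2 ≤ (y:ℝ) * |ε| := by
    have h1 : (1:ℝ) ≤ |((n * (B r : ℤ) - mm q r * C r : ℤ) : ℝ)| := by
      exact_mod_cast Int.one_le_abs (sub_ne_zero.mpr hne)
    have e : ((n * (B r : ℤ) - mm q r * C r : ℤ) : ℝ) =
        ((n:ℝ) - (mm q r : ℝ) * γ) * B r + (mm q r : ℝ) * ε := by
      push_cast [hε]; ring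
    rw [e] at h1
    have h2 := abs_add_le (((n:ℝ) - (mm q r : ℝ) * γ) * B r) ((mm q r : ℝ) * ε)
    rw [abs_mul, abs_mul, abs_of_pos hB] at h2
    have h3 : |(mm q r : ℝ)| ≤ (x:ℝ) + y := by
      rw [mm]; push_cast
      exact abs_le.mpr ⟨by linarith, by linarith⟩
    nlinarith [mul_le_mul_of_nonneg_right h3 (abs_nonneg ε),
      mul_le_mul_of_nonneg_right hn.le hB.le]
  have hge : (g:ℝ) * |ε| ≤ 2 := by
    have hψ0 : 0 ≤ ψ r := (Real.rpow_nonneg (by positivity) _).trans hr.2.2.1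
    have h1 : |ε| ^ 2 ≤ 1 / ((g:ℝ) * y) := by
      rw [← erR]
      refine le_trans ?_ hr.2.2.2
      calc |ε| ^ 2 ≤ Real.sqrt (ψ r) ^ 2 := pow_le_pow_left₀ (abs_nonneg _) ha.eps_le 2
        _ = ψ r := Real.sq_sqrt hψ0
    rw [le_div_iff₀ (by positivity)] at h1
    nlinarith [mul_le_mul_of_nonneg_left hye (mul_nonneg hg'.le (abs_nonneg ε))]
  refine ⟨hye, hge, ?_, ?_, ?_⟩
  · have h1 := hq.2.2.2
    rw [eqR] at h1
    calc 2 * DD ψ q r = 2 * (y:ℝ) * ψ q := by rw [DD]; ring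
      _ ≤ 2 * (y:ℝ) * (1 / ((g:ℝ) * x)) := by gcongr
      _ = _ := by ring
  · rw [le_div_iff₀ (by positivity)]
    nlinarith
  · have h1 := hr.2.2.2
    rw [erR] at h1 ⊢
    calc 2 * (g:ℝ) * ψ r / ((g:ℝ) * y) ≤ 2 * (g:ℝ) * (1 / ((g:ℝ) * y)) / ((g:ℝ) * y) := by gcongr
      _ = _ := by field_simp

open scoped Classical in
/-- Module `Special`. -/
theorem special (hL : LineCountStmt) : SpecialStmt := by
  obtain ⟨K, hK0, hK⟩ := hL
  set c₁ : ℝ := (2:ℝ) ^ (1/4 : ℝ) / ((2:ℝ) ^ (1/4 : ℝ) - 1) with hc₁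
  set c₂ : ℝ := (2:ℝ) ^ (1/2 : ℝ) / ((2:ℝ) ^ (1/2 : ℝ) - 1) with hc₂
  set Z : ℝ := ∑' g : ℕ, (g:ℝ) ^ (-(5/4) : ℝ) with hZ
  have hc₁0 : 0 ≤ c₁ :=
    div_nonneg (by positivity) (by linarith [Real.one_lt_rpow one_lt_two (show (0:ℝ) < 1/4 by norm_num)])
  have hZ0 : 0 ≤ Z := tsum_nonneg fun g => by positivity
  refine ⟨84 * K * (Z * (c₁ * (c₁ * (1/4 : ℝ) ^ (-(1/4) : ℝ)))) * (8 * c₂), 0,
    fun γ ψ C B S hS => ?_⟩
  set T := (S ×ˢ S).filter (fun p : ℕ × ℕ => PB γ ψ C B p.1 p.2 ∧ Special γ ψ C B p.1 p.2)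
    with hT
  have hsum : ∑ q ∈ S, ∑ r ∈ S.filter (fun r => PB γ ψ C B q r ∧ Special γ ψ C B q r),
      2 * (Nat.gcd q r : ℝ) * ψ r / r = ∑ p ∈ T, 2 * (Nat.gcd p.1 p.2 : ℝ) * ψ p.2 / p.2 := by
    rw [hT, Finset.sum_filter, Finset.sum_product]
    exact Finset.sum_congr rfl fun q _ => Finset.sum_filter _ _
  rw [hsum, ← Finset.sum_fiberwise_of_maps_to (g := fun p : ℕ × ℕ => (C p.2, B p.2))
    (t := T.image fun p : ℕ × ℕ => (C p.2, B p.2)) (fun p hp => Finset.mem_image_of_mem _ hp)]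
  set K' : ℝ := 84 * K * (Z * (c₁ * (c₁ * (1/4 : ℝ) ^ (-(1/4) : ℝ)))) with hK'
  have hP : ∀ c ∈ T.image (fun p : ℕ × ℕ => (C p.2, B p.2)),
      0 < c.2 ∧ IsCoprime c.1 (c.2:ℤ) ∧ |(c.2:ℝ) * γ - c.1| * c.2 < 1 := by
    intro c hc
    obtain ⟨p, hp, rfl⟩ := Finset.mem_image.mp hc
    have ha := (hS p.2 (Finset.mem_product.mp (Finset.mem_filter.mp hp).1).2).2
    exact ⟨ha.B_pos, ha.cop, ha.eps_B⟩
  refine le_trans (Finset.sum_le_sum (g := fun c => K' * ((c.2:ℝ)) ^ (-(1/2) : ℝ))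
    fun c hc => ?_) ?_
  swap
  · rw [← Finset.mul_sum]
    exact mul_le_mul_of_nonneg_left (sum_approx_le γ _ hP) (by positivity)
  obtain ⟨hB0, hcop, hεB⟩ := hP c hc
  obtain ⟨Cc, Bc⟩ := c
  set e : ℝ := |(Bc:ℝ) * γ - Cc| with he
  set Tc := T.filter (fun p : ℕ × ℕ => (C p.2, B p.2) = (Cc, Bc)) with hTc
  have facts : ∀ p ∈ Tc, 0 < Nat.gcd p.1 p.2 ∧ 2 ≤ xx p.1 p.2 ∧ 2 ≤ yy p.1 p.2 ∧
      p.1 ∈ S ∧ p.2 ∈ S ∧
      (∃ n : ℤ, |(n:ℝ) - (mm p.1 p.2 : ℝ) * γ| < 2 * DD ψ p.1 p.2) ∧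
      (xx p.1 p.2 : ℝ) * e < 1/4 ∧ 1/2 ≤ (yy p.1 p.2 : ℝ) * e ∧
      (Nat.gcd p.1 p.2 : ℝ) * e ≤ 2 ∧
      2 * DD ψ p.1 p.2 ≤ 2 * (yy p.1 p.2 : ℝ) / ((Nat.gcd p.1 p.2 : ℝ) * xx p.1 p.2) ∧
      2 * DD ψ p.1 p.2 ≤ 1 / (4 * (Bc:ℝ)) ∧
      2 * (Nat.gcd p.1 p.2 : ℝ) * ψ p.2 / p.2 ≤
        2 / ((Nat.gcd p.1 p.2 : ℝ) * (yy p.1 p.2 : ℝ) ^ 2) := by
    intro p hp
    obtain ⟨hpT, hpc⟩ := Finset.mem_filter.mp hp
    obtain ⟨hpS, hPB, hSp⟩ := Finset.mem_filter.mp hpT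
    obtain ⟨hq, hr⟩ := Finset.mem_product.mp hpS
    simp only [Prod.mk.injEq] at hpc
    have hf := special_facts (hS _ hq).1 (hS _ hr).1 (hS _ hr).2 hPB hSp
    have hxe := hSp.2
    rw [hpc.1, hpc.2] at hf hxe
    obtain ⟨n, hn, -⟩ := hPB.2.2.2.2.2
    exact ⟨Nat.gcd_pos_of_pos_left _ (hS _ hq).1.1, hPB.2.2.2.1, hPB.2.2.2.2.1, hq, hr,
      ⟨n, hn⟩, hxe, hf⟩
  rcases Tc.eq_empty_or_nonempty with hemp | ⟨p₀, hp₀⟩
  · simp only [hemp, Finset.sum_empty]; positivity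
  have he0 : 0 < e := by
    obtain ⟨-, -, -, -, -, -, -, h1, -⟩ := facts p₀ hp₀
    rcases (abs_nonneg ((Bc:ℝ) * γ - Cc)).lt_or_eq with h | h
    · exact h
    · rw [he, ← h, mul_zero] at h1; linarith
  set M := S.sup id + 1 with hM
  set I := (Finset.range M).filter (fun i : ℕ => (2:ℝ) ^ i ≤ 1 / e) with hI
  set Jy := (Finset.range M).filter (fun j : ℕ => (1/4) / e ≤ (2:ℝ) ^ j) with hJy
  have hmaps : ∀ p ∈ Tc,
      (Nat.gcd p.1 p.2, Nat.log 2 (xx p.1 p.2), Nat.log 2 (yy p.1 p.2)) ∈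
        Finset.range M ×ˢ I ×ˢ Jy := by
    intro p hp
    obtain ⟨hg, hx, hy, hq, hr, -, hxe, hye, -⟩ := facts p hp
    have hqM : p.1 < M := Nat.lt_succ_of_le (Finset.le_sup (f := id) hq)
    have hrM : p.2 < M := Nat.lt_succ_of_le (Finset.le_sup (f := id) hr)
    have hq0 : 0 < p.1 := (hS _ hq).1.1
    have hr0 : 0 < p.2 := (hS _ hr).1.1
    refine Finset.mem_product.mpr ⟨Finset.mem_range.mpr
      ((Nat.le_of_dvd hq0 (Nat.gcd_dvd_left _ _)).trans_lt hqM),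
      Finset.mem_product.mpr ⟨?_, ?_⟩⟩
    · refine Finset.mem_filter.mpr ⟨Finset.mem_range.mpr
        (((Nat.log_le_self 2 _).trans (Nat.div_le_self _ _)).trans_lt hqM), ?_⟩
      rw [le_div_iff₀ he0]
      have : ((2:ℝ) ^ Nat.log 2 (xx p.1 p.2)) ≤ (xx p.1 p.2 : ℝ) := by
        exact_mod_cast Nat.pow_log_le_self 2 (show xx p.1 p.2 ≠ 0 by omega)
      linarith [mul_le_mul_of_nonneg_right this he0.le]
    · refine Finset.mem_filter.mpr ⟨Finset.mem_range.mpr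
        (((Nat.log_le_self 2 _).trans (Nat.div_le_self _ _)).trans_lt hrM), ?_⟩
      rw [div_le_iff₀ he0]
      have : (yy p.1 p.2 : ℝ) ≤ 2 * (2:ℝ) ^ Nat.log 2 (yy p.1 p.2) := by
        have h2 := Nat.lt_pow_succ_log_self Nat.one_lt_two (yy p.1 p.2)
        rw [pow_succ'] at h2
        exact_mod_cast h2.le
      linarith [mul_le_mul_of_nonneg_right this he0.le]
  rw [← Finset.sum_fiberwise_of_maps_to hmaps]
  set F : ℕ × ℕ × ℕ → ℝ := fun k => 84 * K *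
    ((k.1:ℝ) ^ (-(5/4) : ℝ) * ((((2:ℝ) ^ k.2.1) ^ (1/4 : ℝ) * e ^ (1/4 : ℝ)) *
      (((2:ℝ) ^ k.2.2) ^ (-(1/4) : ℝ) * e ^ (-(1/4) : ℝ)))) * (Bc:ℝ) ^ (-(1/2) : ℝ) with hF
  refine le_trans (Finset.sum_le_sum (g := F) fun k _ => ?_) ?_
  swap
  · simp only [hF]
    rw [← Finset.sum_mul, ← Finset.mul_sum, Finset.sum_product]
    refine mul_le_mul_of_nonneg_right ?_ (by positivity)
    rw [hK']
    refine mul_le_mul_of_nonneg_left ?_ (by positivity)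
    simp only [← Finset.mul_sum, Finset.sum_product, ← Finset.sum_mul]
    refine mul_le_mul ?_ (mul_le_mul ?_ ?_ (by positivity) hc₁0) (by positivity) hZ0
    · exact ((Real.summable_nat_rpow).mpr (by norm_num)).sum_le_tsum _ fun g _ => by positivity
    · have := sum_dyadic_le (α := 1/4) (s := I) (M := 1 / e) (by norm_num) (by positivity)
        fun j hj => (Finset.mem_filter.mp hj).2
      calc _ ≤ c₁ * (1 / e) ^ (1/4 : ℝ) * e ^ (1/4 : ℝ) := by gcongr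
        _ = c₁ := by
            rw [mul_assoc, ← Real.mul_rpow (by positivity) he0.le,
              one_div_mul_cancel he0.ne', Real.one_rpow, mul_one]
    · have := sum_dyadic_ge (α := 1/4) (s := Jy) (M := (1/4) / e) (by norm_num) (by positivity)
        fun j hj => (Finset.mem_filter.mp hj).2
      calc _ ≤ c₁ * ((1/4) / e) ^ (-(1/4) : ℝ) * e ^ (-(1/4) : ℝ) := by gcongr
        _ = _ := by
            rw [mul_assoc, ← Real.mul_rpow (by positivity) he0.le, div_mul_cancel₀ _ he0.ne']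
  -- one cell
  obtain ⟨g, i, j⟩ := k
  set Fib := Tc.filter (fun p : ℕ × ℕ =>
    (Nat.gcd p.1 p.2, Nat.log 2 (xx p.1 p.2), Nat.log 2 (yy p.1 p.2)) = (g, i, j)) with hFib
  rcases Fib.eq_empty_or_nonempty with hemp | ⟨p₁, hp₁⟩
  · simp only [hemp, Finset.sum_empty, hF]; positivity
  have cell : ∀ p ∈ Fib, p ∈ Tc ∧ Nat.gcd p.1 p.2 = g ∧
      (2 ^ i ≤ xx p.1 p.2 ∧ xx p.1 p.2 < 2 * 2 ^ i) ∧
      (2 ^ j ≤ yy p.1 p.2 ∧ yy p.1 p.2 < 2 * 2 ^ j) := by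
    intro p hp
    obtain ⟨hpc, hk⟩ := Finset.mem_filter.mp hp
    simp only [Prod.mk.injEq] at hk
    obtain ⟨-, hx, hy, -⟩ := facts p hpc
    refine ⟨hpc, hk.1, ⟨hk.2.1 ▸ Nat.pow_log_le_self 2 (by omega), ?_⟩,
      hk.2.2 ▸ Nat.pow_log_le_self 2 (by omega), ?_⟩
    · rw [← hk.2.1, ← pow_succ']; exact Nat.lt_pow_succ_log_self Nat.one_lt_two _
    · rw [← hk.2.2, ← pow_succ']; exact Nat.lt_pow_succ_log_self Nat.one_lt_two _
  set X : ℕ := 2 ^ i with hX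
  set Y : ℕ := 2 ^ j with hY
  obtain ⟨hp₁c, hgp, ⟨hx1, -⟩, ⟨-, hy2⟩⟩ := cell p₁ hp₁
  obtain ⟨hg0, -, -, -, -, -, hxe, hye, hge, -⟩ := facts p₁ hp₁c
  rw [hgp] at hg0 hge
  have hg' : (1:ℝ) ≤ g := by exact_mod_cast hg0
  have hB' : (1:ℝ) ≤ Bc := by exact_mod_cast hB0
  have hX' : (1:ℝ) ≤ X := by exact_mod_cast Nat.one_le_two_pow
  have hY' : (1:ℝ) ≤ Y := by exact_mod_cast Nat.one_le_two_pow
  have hXe : (X:ℝ) * e ≤ 1/4 := by
    have : (X:ℝ) ≤ xx p₁.1 p₁.2 := by exact_mod_cast hx1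
    linarith [mul_le_mul_of_nonneg_right this he0.le]
  have hYe : 1/4 ≤ (Y:ℝ) * e := by
    have : (yy p₁.1 p₁.2 : ℝ) ≤ 2 * Y := by exact_mod_cast hy2.le
    linarith [mul_le_mul_of_nonneg_right this he0.le]
  set Dp : ℝ := min (4 * (Y:ℝ) / (g * X)) (1 / (4 * (Bc:ℝ))) with hDp
  set E : ℝ := min ((X:ℝ) / Bc) (2 * Dp / e) with hE
  have hDp0 : 0 ≤ Dp := le_min (by positivity) (by positivity)
  have hE0 : 0 ≤ E := le_min (by positivity) (by positivity)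
  have hcount : (Fib.card : ℝ) ≤ Y * (K * (Dp * X + E + 2)) := by
    rw [Finset.card_eq_sum_card_fiberwise (f := fun p : ℕ × ℕ => yy p.1 p.2)
      (t := Finset.Ico Y (2 * Y))
      (fun p hp => by
        obtain ⟨-, -, -, h1, h2⟩ := cell p hp
        exact Finset.mem_Ico.mpr ⟨h1, h2⟩)]
    push_cast
    refine le_trans (Finset.sum_le_card_nsmul _ _ (K * (Dp * X + E + 2)) fun y _ => ?_) ?_
    swap
    · rw [nsmul_eq_mul, Nat.card_Ico]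
      exact le_of_eq (by rw [show 2 * Y - Y = Y by omega])
    set Fy := Fib.filter (fun p : ℕ × ℕ => yy p.1 p.2 = y) with hFy
    let nf : ℕ × ℕ → ℤ := fun p =>
      if h : ∃ n : ℤ, |(n:ℝ) - (mm p.1 p.2 : ℝ) * γ| < 2 * DD ψ p.1 p.2 then h.choose else 0
    have hcard : Fy.card = (Fy.image fun p : ℕ × ℕ => (xx p.1 p.2, nf p)).card := by
      refine (Finset.card_image_of_injOn fun p hp p' hp' heq => ?_).symm
      obtain ⟨hpF, hpy⟩ := Finset.mem_filter.mp hp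
      obtain ⟨hpF', hpy'⟩ := Finset.mem_filter.mp hp'
      simp only [Prod.mk.injEq] at heq
      have a : ∀ s : ℕ × ℕ, s ∈ Fib → s = (g * xx s.1 s.2, g * yy s.1 s.2) := fun s hs =>
        Prod.ext (by rw [← (cell s hs).2.1]; exact (Nat.mul_div_cancel' (Nat.gcd_dvd_left _ _)).symm)
          (by rw [← (cell s hs).2.1]; exact (Nat.mul_div_cancel' (Nat.gcd_dvd_right _ _)).symm)
      rw [a p hpF, a p' hpF', heq.1, hpy, hpy']
    rw [hcard]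
    refine le_trans (hK γ Cc Bc hB0 hcop (y:ℤ) X Dp E Nat.one_le_two_pow hDp0 hE0 ?_ _ ?_) ?_
    · rcases min_choice ((X:ℝ) / Bc) (2 * Dp / e) with h | h
      · exact Or.inl (le_of_eq (hE.trans h).symm)
      · refine Or.inr (le_of_eq ?_)
        rw [hE, h, ← he, div_mul_cancel₀ _ he0.ne']
    · intro v hv
      obtain ⟨p, hp, rfl⟩ := Finset.mem_image.mp hv
      obtain ⟨hpF, hpy⟩ := Finset.mem_filter.mp hp
      obtain ⟨hpc, hgg, ⟨hxl, hxu⟩, -, hyu⟩ := cell p hpF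
      obtain ⟨-, hx2, -, -, -, hn, -, -, -, hD1, hD2, -⟩ := facts p hpc
      refine ⟨hxl, hxu, ?_⟩
      have h := hn.choose_spec
      simp only [nf, dif_pos hn]
      generalize hn.choose = n at h ⊢
      simp only [mm] at h
      push_cast at h ⊢
      rw [← hpy]
      rw [hDp]
      refine lt_of_lt_of_le h (le_min ?_ hD2)
      refine hD1.trans ?_
      rw [hgg]
      have h1 : (yy p.1 p.2 : ℝ) ≤ 2 * Y := by exact_mod_cast hyu.le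
      have h2 : (X:ℝ) ≤ xx p.1 p.2 := by exact_mod_cast hxl
      calc 2 * (yy p.1 p.2 : ℝ) / ((g:ℝ) * xx p.1 p.2) ≤ 2 * (2 * (Y:ℝ)) / ((g:ℝ) * X) := by
            gcongr
        _ = _ := by ring
    · refine mul_le_mul_of_nonneg_left ?_ hK0
      have h1 : Dp * Bc ≤ 1/4 := by
        calc Dp * Bc ≤ 1 / (4 * (Bc:ℝ)) * Bc := by gcongr; exact min_le_right _ _
          _ = 1/4 := by field_simp
      rw [← he]
      linarith
  have hterm : ∀ p ∈ Fib, 2 * (Nat.gcd p.1 p.2 : ℝ) * ψ p.2 / p.2 ≤ 2 / ((g:ℝ) * (Y:ℝ) ^ 2) := by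
    intro p hp
    obtain ⟨hpc, hgg, -, hyl, -⟩ := cell p hp
    obtain ⟨-, -, -, -, -, -, -, -, -, -, -, h⟩ := facts p hpc
    refine h.trans ?_
    rw [hgg]
    have : (Y:ℝ) ≤ yy p.1 p.2 := by exact_mod_cast hyl
    gcongr
  calc _ ≤ (Fib.card : ℝ) * (2 / ((g:ℝ) * (Y:ℝ) ^ 2)) := by
        rw [← nsmul_eq_mul]; exact Finset.sum_le_card_nsmul _ _ _ hterm
    _ ≤ (Y * (K * (Dp * X + E + 2))) * (2 / ((g:ℝ) * (Y:ℝ) ^ 2)) := by gcongr
    _ = 2 * K * ((Dp * X + E + 2) / ((g:ℝ) * Y)) := by field_simp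
    _ ≤ 2 * K * (42 * (g:ℝ) ^ (-(5/4) : ℝ) * ((X:ℝ) ^ (1/4 : ℝ) * e ^ (1/4 : ℝ)) *
          ((Y:ℝ) ^ (-(1/4) : ℝ) * e ^ (-(1/4) : ℝ)) * (Bc:ℝ) ^ (-(1/2) : ℝ)) := by
        refine mul_le_mul_of_nonneg_left (cell_alg hg' hB' hX' hY' he0 (by linarith) hYe hge
          hεB.le hDp0 ?_ hE0 ?_) (by positivity)
        · calc Dp ^ 2 = Dp * Dp := pow_two _
            _ ≤ (4 * (Y:ℝ) / (g * X)) * (1 / (4 * (Bc:ℝ))) :=
                mul_le_mul (min_le_left _ _) (min_le_right _ _) hDp0 (by positivity)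
            _ = _ := by field_simp
        · calc E ^ 4 = E ^ 3 * E := pow_succ _ _
            _ ≤ ((X:ℝ) / Bc) ^ 3 * (2 * Dp / e) :=
                mul_le_mul (pow_le_pow_left₀ hE0 (min_le_left _ _) 3) (min_le_right _ _) hE0
                  (by positivity)
            _ ≤ ((X:ℝ) / Bc) ^ 3 * (2 * (4 * (Y:ℝ) / (g * X)) / e) := by
                gcongr; exact min_le_left _ _
            _ = _ := by field_simp; ring
    _ = F (g, i, j) := by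
        simp only [hF, hX, hY]; push_cast; ring

end Vale.P028EV
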