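import Vale.Agent.P028.EV.FullMeasure
import Vale.Agent.P028.EV.Moment
import Vale.Agent.P028.EV.CaseA
import Vale.Agent.P028.EV.CaseB
import Vale.Agent.P028.EV.SideQ
import Vale.Agent.P028.EV.SideR
import Vale.Agent.P028.EV.Special
import Vale.Agent.P028.EV.Line
import Vale.Agent.P028.EV.Weights

/-! # P028: the inhomogeneous theorem for radii bounded by a multiple of `1/q` -/

namespace Vale.P028EV

theorem main : FullMeasureStmt :=
  fullMeasure
    (secondMoment caseA
      (caseB (sideQ lineHw) (sideR lineHw hwDiv hwLog hwMul tau totTau)
        (special lineCount) tau totTau))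
    tau totTau

end Vale.P028EV
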