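import Vale.Agent.P028.EV.Defs

/-! # P028: the selection of one class per prime divisor -/

namespace Vale.P028EV

theorem exists_class (C : ℤ) {B p : ℕ} (hp : p.Prime) :
    ∃ c : ℤ, ∀ a : ℤ,
      ((p ∣ B → ¬ (p:ℤ) ∣ a) ∧ (¬ p ∣ B → ¬ (p:ℤ) ∣ a * B + C)) ↔ ¬ (p:ℤ) ∣ a - c := by
  by_cases h : p ∣ B
  · exact ⟨0, fun a => by simp [h]⟩
  · have hcop : IsCoprime (B:ℤ) (p:ℤ) :=
      Int.isCoprime_iff_nat_coprime.mpr (by simpa using ((hp.coprime_iff_not_dvd).mpr h).symm)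
    obtain ⟨u, v, huv⟩ := hcop
    refine ⟨-C * u, fun a => ?_⟩
    have e : a * B + C = (a - -C * u) * B + C * v * p := by linear_combination -C * huv
    constructor
    · intro hh hd
      refine hh.2 h ?_
      rw [e]
      exact dvd_add (dvd_mul_of_dvd_left hd _) (Dvd.intro_left _ rfl)
    · intro hh
      refine ⟨fun h' => absurd h' h, fun _ hd => hh ?_⟩
      rw [e, Int.dvd_add_left (Dvd.intro_left _ rfl)] at hd
      exact (IsCoprime.dvd_of_dvd_mul_right ⟨v, u, by linear_combination huv⟩ hd)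

open scoped Classical in
/-- counting integers of an interval in one class, avoiding one class for each prime of `P` -/
theorem avoid_count (c : ℕ → ℤ) : ∀ (P : Finset ℕ), (∀ p ∈ P, p.Prime) →
    ∀ (d : ℕ), 0 < d → (∀ p ∈ P, Nat.Coprime d p) → ∀ (e A B : ℤ), A ≤ B →
    |(((Finset.Ioc A B).filter
        (fun a => (d:ℤ) ∣ a - e ∧ ∀ p ∈ P, ¬ (p:ℤ) ∣ a - c p)).card : ℝ)
      - ((B:ℝ) - A) / d * ∏ p ∈ P, (1 - 1 / (p:ℝ))| ≤ 2 ^ P.card := by
  intro P
  induction P using Finset.induction with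
  | empty =>
    intro _ d hd _ e A B hAB
    simp only [Finset.notMem_empty, IsEmpty.forall_iff, implies_true, and_true, Finset.prod_empty,
      mul_one, Finset.card_empty, pow_zero]
    set N := ((Finset.Ioc A B).filter (fun a => (d:ℤ) ∣ a - e)).card with hN
    have hN' : (N:ℤ) = max (⌊((B:ℚ) - e) / (d:ℤ)⌋ - ⌊((A:ℚ) - e) / (d:ℤ)⌋) 0 := by
      rw [← Int.Ioc_filter_modEq_card A B (by exact_mod_cast hd) e, hN]
      congr 2
      refine Finset.filter_congr fun a _ => ?_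
      rw [Int.modEq_iff_dvd, ← dvd_neg, neg_sub]
    have hdQ : (0:ℚ) < (d:ℤ) := by exact_mod_cast hd
    have hmono : ⌊((A:ℚ) - e) / (d:ℤ)⌋ ≤ ⌊((B:ℚ) - e) / (d:ℤ)⌋ := by
      refine Int.floor_le_floor ?_
      have : (A:ℚ) ≤ B := by exact_mod_cast hAB
      gcongr
    rw [max_eq_left (by omega)] at hN'
    have b1 := Int.floor_le (((B:ℚ) - e) / (d:ℤ))
    have b2 := Int.lt_floor_add_one (((B:ℚ) - e) / (d:ℤ))
    have a1 := Int.floor_le (((A:ℚ) - e) / (d:ℤ))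
    have a2 := Int.lt_floor_add_one (((A:ℚ) - e) / (d:ℤ))
    rw [le_div_iff₀ hdQ] at b1 a1
    rw [div_lt_iff₀ hdQ] at b2 a2
    have k1 : ((d:ℤ):ℚ) * ((N:ℤ):ℚ) ≤ ((B:ℚ) - A) + (d:ℤ) := by
      rw [hN']; push_cast; push_cast at b1 a2; linarith
    have k2 : ((B:ℚ) - A) - (d:ℤ) ≤ ((d:ℤ):ℚ) * ((N:ℤ):ℚ) := by
      rw [hN']; push_cast; push_cast at a1 b2; linarith
    have k1' : (d:ℤ) * (N:ℤ) ≤ (B - A) + d := by exact_mod_cast k1
    have k2' : (B - A) - (d:ℤ) ≤ (d:ℤ) * (N:ℤ) := by exact_mod_cast k2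
    have r1 : (d:ℝ) * N ≤ ((B:ℝ) - A) + d := by exact_mod_cast k1'
    have r2 : ((B:ℝ) - A) - d ≤ (d:ℝ) * N := by exact_mod_cast k2'
    have hdR : (0:ℝ) < d := by exact_mod_cast hd
    rw [abs_le]
    constructor
    · rw [neg_le_sub_iff_le_add, div_le_iff₀ hdR]; linarith
    · rw [sub_le_iff_le_add, ← sub_le_iff_le_add', le_div_iff₀ hdR]; linarith
  | insert p P hp ih =>
    intro hprime d hd hcop e A B hAB
    have hpp : p.Prime := hprime p (Finset.mem_insert_self _ _)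
    have hP : ∀ p' ∈ P, p'.Prime := fun p' h => hprime p' (Finset.mem_insert_of_mem h)
    have hdp : Nat.Coprime d p := hcop p (Finset.mem_insert_self _ _)
    obtain ⟨u, v, huv⟩ := Int.isCoprime_iff_nat_coprime.mpr
      (show Nat.Coprime ((d:ℤ)).natAbs ((p:ℤ)).natAbs by simpa using hdp)
    set e' : ℤ := e * v * p + c p * u * d with he'
    have hcl : ∀ a : ℤ, ((d * p : ℕ):ℤ) ∣ a - e' ↔ (d:ℤ) ∣ a - e ∧ (p:ℤ) ∣ a - c p := by
      intro a
      have e1 : a - e' = (a - e) + (d:ℤ) * ((e - c p) * u) := by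
        rw [he']; linear_combination -e * huv
      have e2 : a - e' = (a - c p) + (p:ℤ) * ((c p - e) * v) := by
        rw [he']; linear_combination -(c p) * huv
      push_cast
      constructor
      · intro h
        exact ⟨(Int.dvd_add_left (dvd_mul_right _ _)).mp (e1 ▸ dvd_of_mul_right_dvd h),
          (Int.dvd_add_left (dvd_mul_right _ _)).mp (e2 ▸ dvd_of_mul_left_dvd h)⟩
      · rintro ⟨h1, h2⟩
        refine IsCoprime.mul_dvd ⟨u, v, huv⟩ ?_ ?_
        · rw [e1]; exact dvd_add h1 (dvd_mul_right _ _)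
        · rw [e2]; exact dvd_add h2 (dvd_mul_right _ _)
    set G := (Finset.Ioc A B).filter
      (fun a => (d:ℤ) ∣ a - e ∧ ∀ q ∈ P, ¬ (q:ℤ) ∣ a - c q) with hG
    set H := (Finset.Ioc A B).filter
      (fun a => ((d * p : ℕ):ℤ) ∣ a - e' ∧ ∀ q ∈ P, ¬ (q:ℤ) ∣ a - c q) with hH
    have hsplit : (Finset.Ioc A B).filter
        (fun a => (d:ℤ) ∣ a - e ∧ ∀ q ∈ insert p P, ¬ (q:ℤ) ∣ a - c q) = G \ H := by
      ext a
      simp only [hG, hH, Finset.mem_filter, Finset.mem_sdiff, Finset.forall_mem_insert, hcl]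
      tauto
    have hHG : H ⊆ G := by
      intro a
      simp only [hG, hH, Finset.mem_filter, hcl]
      tauto
    have hcard : ((G \ H).card : ℝ) = G.card - H.card := by
      rw [Finset.card_sdiff_of_subset hHG, Nat.cast_sub (Finset.card_le_card hHG)]
    rw [hsplit, hcard, Finset.prod_insert hp, Finset.card_insert_of_notMem hp, pow_succ]
    have hcopP : ∀ q ∈ P, Nat.Coprime (d * p) q := fun q hq => by
      refine Nat.Coprime.mul_left (hcop q (Finset.mem_insert_of_mem hq)) ?_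
      exact (Nat.coprime_primes hpp (hP q hq)).mpr (fun h => hp (h ▸ hq))
    have g1 := ih hP d hd (fun q hq => hcop q (Finset.mem_insert_of_mem hq)) e A B hAB
    have g2 := ih hP (d * p) (Nat.mul_pos hd hpp.pos) hcopP e' A B hAB
    have heq : ((B:ℝ) - A) / d * ((1 - 1 / (p:ℝ)) * ∏ q ∈ P, (1 - 1 / (q:ℝ)))
        = ((B:ℝ) - A) / d * ∏ q ∈ P, (1 - 1 / (q:ℝ))
          - ((B:ℝ) - A) / ((d * p : ℕ):ℝ) * ∏ q ∈ P, (1 - 1 / (q:ℝ)) := by
      push_cast; ring
    rw [heq]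
    rw [abs_le] at g1 g2 ⊢
    constructor <;> linarith [g1.1, g1.2, g2.1, g2.2]

open scoped Classical in
/-- counting selected integers in an interval -/
theorem sel_count (C : ℤ) (Bb : ℕ) {q : ℕ} (hq : 0 < q) (A B : ℤ) (hAB : A ≤ B) :
    |(((Finset.Ioc A B).filter (Sel C Bb q)).card : ℝ)
      - ((B:ℝ) - A) * ((Nat.totient q : ℝ) / q)| ≤ q.divisors.card := by
  have hpr : ∀ p ∈ q.primeFactors, p.Prime := fun p hp => Nat.prime_of_mem_primeFactors hp
  choose! c hc using fun p (hp : p ∈ q.primeFactors) => exists_class C (B := Bb) (hpr p hp)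
  have h := avoid_count c q.primeFactors hpr 1 one_pos (fun p _ => Nat.coprime_one_left p) 0 A B hAB
  have hset : (Finset.Ioc A B).filter (fun a => ((1:ℕ):ℤ) ∣ a - 0 ∧
      ∀ p ∈ q.primeFactors, ¬ (p:ℤ) ∣ a - c p) = (Finset.Ioc A B).filter (Sel C Bb q) := by
    refine Finset.filter_congr fun a _ => ?_
    simp only [Nat.cast_one, one_dvd, true_and, Sel]
    exact forall₂_congr fun p hp => (hc p hp a).symm
  have hqR : (0:ℝ) < q := by exact_mod_cast hq
  have htot : (Nat.totient q : ℝ) / q = ∏ p ∈ q.primeFactors, (1 - 1 / (p:ℝ)) := by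
    have e : ((Nat.totient q : ℚ) : ℝ) = (((q:ℚ) * ∏ p ∈ q.primeFactors, (1 - (p:ℚ)⁻¹) : ℚ) : ℝ) :=
      congrArg _ (Nat.totient_eq_mul_prod_factors q)
    push_cast at e
    rw [e, mul_comm, mul_div_assoc, div_self hqR.ne', mul_one]
    simp [one_div]
  have htau : (2:ℝ) ^ q.primeFactors.card ≤ q.divisors.card := by
    rw [Nat.card_divisors hq.ne']
    have : (2:ℕ) ^ q.primeFactors.card ≤ ∏ p ∈ q.primeFactors, (q.factorization p + 1) := by
      rw [← Finset.prod_const]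
      refine Finset.prod_le_prod' (fun p hp => ?_)
      have h1 : q.factorization p ≠ 0 := by
        rw [← Finsupp.mem_support_iff, Nat.support_factorization]; exact hp
      omega
    exact_mod_cast this
  rw [hset, Nat.cast_one, div_one, ← htot] at h
  exact h.trans htau

open scoped Classical in
/-- at least this many selected integers in a real interval -/
theorem sel_lower (C : ℤ) (Bb : ℕ) {q : ℕ} (hq : 0 < q) (u v : ℝ) :
    ∃ T : Finset ℤ, (∀ a ∈ T, u ≤ (a:ℝ) ∧ (a:ℝ) ≤ v ∧ Sel C Bb q a) ∧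
      (v - u - 2) * ((Nat.totient q : ℝ) / q) - q.divisors.card ≤ T.card := by
  refine ⟨(Finset.Ioc ⌈u⌉ ⌊v⌋).filter (Sel C Bb q), fun a ha => ?_, ?_⟩
  · obtain ⟨h1, h2⟩ := Finset.mem_filter.mp ha
    obtain ⟨h3, h4⟩ := Finset.mem_Ioc.mp h1
    exact ⟨Int.ceil_le.mp h3.le, Int.le_floor.mp h4, h2⟩
  · have hf : 0 ≤ (Nat.totient q : ℝ) / q := by positivity
    have b1 := Int.ceil_lt_add_one u
    have b2 := Int.sub_one_lt_floor v
    rcases le_or_gt ⌈u⌉ ⌊v⌋ with h | h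
    · have := (abs_le.mp (sel_count C Bb hq _ _ h)).1
      have h5 : (v - u - 2) * ((Nat.totient q : ℝ) / q)
          ≤ ((⌊v⌋:ℝ) - ⌈u⌉) * ((Nat.totient q : ℝ) / q) :=
        mul_le_mul_of_nonneg_right (by linarith) hf
      linarith
    · have h' : ((⌊v⌋:ℝ)) ≤ ⌈u⌉ := by exact_mod_cast h.le
      have h5 : (v - u - 2) * ((Nat.totient q : ℝ) / q) ≤ 0 :=
        mul_nonpos_of_nonpos_of_nonneg (by linarith) hf
      have h6 : (0:ℝ) ≤ q.divisors.card := Nat.cast_nonneg _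
      have h7 : (0:ℝ) ≤ ((Finset.Ioc ⌈u⌉ ⌊v⌋).filter (Sel C Bb q)).card := Nat.cast_nonneg _
      linarith

open scoped Classical in
/-- at most this many selected integers in a real interval -/
theorem sel_upper (C : ℤ) (Bb : ℕ) {q : ℕ} (hq : 0 < q) {u v : ℝ} (huv : u ≤ v) (T : Finset ℤ)
    (hT : ∀ a ∈ T, u < (a:ℝ) ∧ (a:ℝ) < v ∧ Sel C Bb q a) :
    (T.card : ℝ) ≤ (v - u + 2) * ((Nat.totient q : ℝ) / q) + q.divisors.card := by
  have hsub : T ⊆ (Finset.Ioc ⌊u⌋ ⌈v⌉).filter (Sel C Bb q) := by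
    intro a ha
    obtain ⟨h1, h2, h3⟩ := hT a ha
    exact Finset.mem_filter.mpr
      ⟨Finset.mem_Ioc.mpr ⟨Int.floor_lt.mpr h1, Int.le_ceil_iff.mpr (by linarith)⟩, h3⟩
  have h : ⌊u⌋ ≤ ⌈v⌉ := (Int.floor_le_floor huv).trans (Int.floor_le_ceil v)
  have b1 := Int.ceil_lt_add_one v
  have b2 := Int.sub_one_lt_floor u
  have h4 := (abs_le.mp (sel_count C Bb hq _ _ h)).2
  have h5 : ((⌈v⌉:ℝ) - ⌊u⌋) * ((Nat.totient q : ℝ) / q)
      ≤ (v - u + 2) * ((Nat.totient q : ℝ) / q) :=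
    mul_le_mul_of_nonneg_right (by linarith) (by positivity)
  have h6 : (T.card:ℝ) ≤ ((Finset.Ioc ⌊u⌋ ⌈v⌉).filter (Sel C Bb q)).card := by
    exact_mod_cast Finset.card_le_card hsub
  linarith

/-- every positive radius at most one has an attached approximation -/
theorem exists_approx (γ : ℝ) {t : ℝ} (ht : 0 < t) (ht1 : t ≤ 1) :
    ∃ (C : ℤ) (B : ℕ), 0 < B ∧ IsCoprime C (B:ℤ) ∧ (B:ℝ) * Real.sqrt t ≤ 2 ∧
      |(B:ℝ) * γ - C| ≤ Real.sqrt t ∧ |(B:ℝ) * γ - C| * B < 1 := by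
  have hs : 0 < Real.sqrt t := Real.sqrt_pos.mpr ht
  have hs1 : Real.sqrt t ≤ 1 := Real.sqrt_le_one.mpr ht1
  set n := ⌈1 / Real.sqrt t⌉₊ with hn
  have hn0 : 0 < n := Nat.ceil_pos.mpr (by positivity)
  obtain ⟨r, hr, hden⟩ := Real.exists_rat_abs_sub_le_and_den_le γ hn0
  have hd : (0:ℝ) < r.den := by exact_mod_cast r.den_pos
  have hnR : 1 / Real.sqrt t ≤ n := Nat.le_ceil _
  have hn2 : (n:ℝ) < 1 / Real.sqrt t + 1 := Nat.ceil_lt_add_one (by positivity)
  have he : |(r.den:ℝ) * γ - r.num| ≤ 1 / ((n:ℝ) + 1) := by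
    have e : (r.den:ℝ) * γ - r.num = r.den * (γ - r) := by
      rw [mul_sub, Rat.cast_def]; field_simp
    rw [e, abs_mul, abs_of_pos hd]
    calc (r.den:ℝ) * |γ - r| ≤ r.den * (1 / (((n:ℝ) + 1) * r.den)) :=
          mul_le_mul_of_nonneg_left hr hd.le
      _ = _ := by field_simp
  have hdn : (r.den:ℝ) ≤ n := by exact_mod_cast hden
  refine ⟨r.num, r.den, r.den_pos, ?_, ?_, ?_, ?_⟩
  · exact Int.isCoprime_iff_nat_coprime.mpr (by simpa using r.reduced)
  · calc (r.den:ℝ) * Real.sqrt t ≤ (1 / Real.sqrt t + 1) * Real.sqrt t :=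
          mul_le_mul_of_nonneg_right (by linarith) hs.le
      _ = 1 + Real.sqrt t := by field_simp
      _ ≤ 2 := by linarith
  · refine he.trans ?_
    rw [div_le_iff₀ (by positivity)]
    rw [div_le_iff₀ hs] at hnR
    nlinarith
  · calc |(r.den:ℝ) * γ - r.num| * r.den ≤ 1 / ((n:ℝ) + 1) * n :=
          mul_le_mul he hdn hd.le (by positivity)
      _ < 1 := by rw [div_mul_eq_mul_div, div_lt_one (by positivity)]; linarith

end Vale.P028EV
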